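import Vale.Agent.P218L.Spec

/-!
# P218, the linear half of INST: the truncated cylindrical ends (rows LOWW and CYLO)
-/

open Set Filter Topology

noncomputable section

namespace Vale.Agent.P218L

open Vale.Agent.P218T Vale.Agent.P218M Vale.Agent.P218W

namespace Cy

variable {Y R Z C β z : ℝ} {c : ℂ} {o₀ o₁ g₀ w p₀ p₁ : ℝ → ℝ}

theorem key {a n κ : ℝ} (z1 : 1 ≤ z) (a0 : 0 < a) (an : a ≤ n) (n6 : n ≤ 6)
    (hz : 1 ≤ z ^ 2 * a) (hκ : κ ∈ Icc (19 / 32 : ℝ) 2) :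
    (z ^ 6)⁻¹ ≤ z ^ (2 - 2 * κ) * n ^ κ ∧ z ^ (2 - 2 * κ) * n ^ κ ≤ 6 ^ 2 * z ^ (13 / 16 : ℝ) ∧
      (z ^ 6)⁻¹ ≤ z ^ (-3 / 2 : ℝ) * a ^ (1 / 4 : ℝ) := by
  have z0 : 0 < z := one_pos.trans_le z1
  have n0 : 0 < n := a0.trans_le an
  obtain ⟨x, rfl⟩ : ∃ x, z = Real.exp x := ⟨_, (Real.exp_log z0).symm⟩
  obtain ⟨s, rfl⟩ : ∃ x, a = Real.exp x := ⟨_, (Real.exp_log a0).symm⟩
  obtain ⟨t, rfl⟩ : ∃ x, n = Real.exp x := ⟨_, (Real.exp_log n0).symm⟩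
  obtain ⟨L, e⟩ : ∃ x, (6 : ℝ) = Real.exp x := ⟨_, (Real.exp_log (by norm_num)).symm⟩
  have L0 : 0 ≤ L := Real.one_le_exp_iff.1 (e ▸ by norm_num)
  have x0 : 0 ≤ x := Real.one_le_exp_iff.1 z1
  rw [e] at n6 ⊢
  rw [← Real.exp_zero] at hz
  simp only [← Real.exp_nat_mul, ← Real.exp_mul, ← Real.exp_add, ← Real.exp_neg,
    Real.exp_le_exp, Nat.cast_ofNat] at hz an n6 ⊢
  have k0 : 0 ≤ κ := by linarith [hκ.1]
  refine ⟨?_, ?_, by linarith⟩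
  · nlinarith [mul_le_mul_of_nonneg_right (show -(2 * x) ≤ t by linarith) k0,
      mul_le_mul_of_nonneg_left hκ.2 x0]
  · nlinarith [mul_le_mul_of_nonneg_right n6 k0, mul_le_mul_of_nonneg_left hκ.2 L0,
      mul_le_mul_of_nonneg_left hκ.1 x0]

/-- crude bounds of the weights -/
structure WF (c : ℂ) (Z z : ℝ) : Prop where
  z1 : 1 ≤ z
  a0 : 0 < (rh c z).re
  a6 : (rh c z).re ≤ 6
  n6 : ‖rh c z‖ ≤ 6
  s6 : 1 / 6 ≤ sg c z
  sl : sg c z ≤ sg c z + z ^ 2 * ly Z z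
  su : sg c z + z ^ 2 * ly Z z ≤ 2 * z ^ 2
  t0 : 0 ≤ ta c z
  t6 : ta c z ≤ 6 * z ^ 2
  wo : wO c z ≤ (rh c z).re
  g0 : 0 < gO c Z z
  gu : gO c Z z ≤ 2 * z ^ 2 * (rh c z).re
  gl : 1 ≤ 6 * z ^ 6 * gO c Z z
  hl : 1 ≤ 6 * hv c z
  ha : hv c z * (rh c z).re = z ^ 2
  wk : ∀ κ ∈ Icc (19 / 32 : ℝ) 2, 1 ≤ z ^ 6 * wK κ c z ∧ wK κ c z ≤ 36 * z ^ (13 / 16 : ℝ)

theorem wf (h : Cyl 1 R Z c) (R1 : 1 ≤ R) (hz : z ∈ Icc R Z) : WF c Z z := by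
  have k := h.wtc one_pos hz
  have z1 : 1 ≤ z := R1.trans hz.1
  have z0 : 0 < z := one_pos.trans_le z1
  have a0 := k.re0
  have an : (rh c z).re ≤ ‖rh c z‖ := Complex.re_le_norm _
  have tip := h.tip z hz
  have ia : ((rh c z).re)⁻¹ ≤ z ^ 2 := by
    rw [inv_le_iff_one_le_mul₀ a0]; exact tip
  have l1 : ly Z z ≤ 1 := Real.exp_le_one_iff.2 (by nlinarith [hz.2])
  have l0 : 0 ≤ z ^ 2 * ly Z z := mul_nonneg (sq_nonneg z) (ly_pos Z z).le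
  have l2 : z ^ 2 * ly Z z ≤ z ^ 2 := mul_le_of_le_one_right (sq_nonneg z) l1
  have si : sg c z ≤ ((rh c z).re)⁻¹ := by
    rw [k.sge, ← one_div, div_le_div_iff₀ (pow_pos (a0.trans_le an) 2) a0]; nlinarith
  have wo : wO c z ≤ (rh c z).re := by simpa using k.wOr
  have ky := fun κ hκ => key (κ := κ) z1 a0 an k.re6 tip hκ
  have z6 : 0 < z ^ 6 := by positivity
  refine ⟨z1, a0, an.trans k.re6, k.re6, k.sg6, by linarith, by linarith, by linarith [k.ta1], ?_,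
    wo, k.gO0, ?_, ?_, ?_, div_mul_cancel₀ _ a0.ne', fun κ hκ => ⟨?_, ?_⟩⟩
  · rw [ta, div_eq_mul_inv]
    exact mul_le_mul k.re6 ia (by positivity) (by norm_num)
  · rw [gO, mul_comm]
    exact mul_le_mul (by linarith) wo k.wO0.le (by positivity)
  · have := (inv_le_iff_one_le_mul₀' z6).1 (ky 1 ⟨by norm_num, by norm_num⟩).2.2
    have e := mul_le_mul_of_nonneg_left k.wOg z6.le
    unfold wO at e
    linarith
  · rw [hv, ← mul_div_assoc, le_div_iff₀ a0]; nlinarith [k.re6]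
  · exact (inv_le_iff_one_le_mul₀' z6).1 (ky κ hκ).1
  · exact (ky κ hκ).2.1.trans_eq (by norm_num)

theorem p5 (z1 : 1 ≤ z) {n : ℕ} (hn : n ≤ 5) : z ^ n ≤ z ^ 5 := pow_le_pow_right₀ z1 hn

theorem WF.gw (h : WF c Z z) (w0 : 0 ≤ w z) (w1 : w z ≤ 36 * z ^ (13 / 16 : ℝ)) :
    w z ≤ 36 * z ∧ 0 ≤ gW w c Z z ∧ gW w c Z z ≤ 72 * z ^ 3 := by
  have : z ^ (13 / 16 : ℝ) ≤ z :=
    (Real.rpow_le_rpow_of_exponent_le h.z1 (by norm_num)).trans_eq (Real.rpow_one z)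
  have s0 : 0 ≤ sg c z + z ^ 2 * ly Z z := by linarith [h.sl, h.s6]
  have z0 : 0 ≤ z := zero_le_one.trans h.z1
  refine ⟨by linarith, mul_nonneg w0 s0, ?_⟩
  exact (mul_le_mul (show w z ≤ 36 * z by linarith) h.su s0 (by positivity)).trans_eq (by ring)

theorem WF.nu (h : WF c Z z) (w0 : 0 ≤ w z) (w1 : w z ≤ 36 * z ^ (13 / 16 : ℝ)) (i : Fin 6) :
    nu w c Z i z ≤ 1296 * z ^ 5 := by
  obtain ⟨a, b, d⟩ := h.gw w0 w1
  have z1 := h.z1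
  have z0 : 0 < z := one_pos.trans_le z1
  have s0 : 0 < sg c z := by linarith [h.s6]
  have q1 := p5 z1 (n := 1) (by norm_num)
  have q2 := p5 z1 (n := 2) (by norm_num)
  have q3 := p5 z1 (n := 3) (by norm_num)
  have q5 : 0 < z ^ 5 := by positivity
  have e2 : gW w c Z z / sg c z ≤ 432 * z ^ 3 := by
    rw [div_le_iff₀ s0]; nlinarith [h.s6, pow_pos z0 3]
  have e5 : gW w c Z z * ta c z ≤ 432 * z ^ 5 :=
    (mul_le_mul d h.t6 h.t0 (by positivity)).trans_eq (by ring)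
  have e0 : 0 ≤ gW w c Z z * ta c z := mul_nonneg b h.t0
  fin_cases i
  · change w z ≤ _
    nlinarith
  · change √(w z * gW w c Z z / sg c z) ≤ _
    refine (Real.sqrt_le_iff.2 ⟨by positivity, ?_⟩ : _ ≤ 1296 * z ^ 2).trans (by linarith)
    rw [mul_div_assoc]
    refine (mul_le_mul a e2 (by positivity) (by positivity)).trans ?_
    nlinarith [pow_pos z0 4]
  · change gW w c Z z / sg c z ≤ _
    linarith
  · change gW w c Z z * ta c z / z ≤ _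
    linarith [div_le_self e0 z1]
  · change gW w c Z z * ta c z * √‖rh c z‖ ≤ _
    have : √‖rh c z‖ ≤ 3 := Real.sqrt_le_iff.2 ⟨by norm_num, by linarith [h.n6]⟩
    exact (mul_le_mul e5 this (by positivity) (by positivity)).trans_eq (by ring)
  · change gW w c Z z * ta c z ≤ _
    linarith

theorem WF.om (h : WF c Z z) (w0 : 0 ≤ w z) (w1 : w z ≤ 36 * z ^ (13 / 16 : ℝ))
    (a : o₀ z ≤ 1296 * z ^ 5) (b₀ : 0 ≤ o₁ z) (b : o₁ z ≤ 1296 * z ^ 5) (i : Fin 6) :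
    P218W.om o₀ o₁ w c Z i z ≤ 1296 * z ^ 5 := by
  fin_cases i
  exacts [a, h.nu w0 w1 1, h.nu w0 w1 2, (div_le_self b₀ h.z1).trans b, h.nu w0 w1 4, b]

theorem cyl_mono (h : Cyl Y R Z c) {Y' R' : ℝ} (hY : Y' ≤ Y) (hR : R ≤ R') (hZ : R' + 1 ≤ Z) :
    Cyl Y' R' Z c :=
  ⟨h.R0.trans_le hR, hZ, h.cZ, fun z hz => hY.trans (h.tip z ⟨hR.trans hz.1, hz.2⟩),
    fun z hz => h.dsc z ⟨hR.trans hz.1, hz.2⟩⟩

/-- larger weights of mode `0` -/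
theorem mp_wt (h : MP c R Z o₀ o₁ g₀ w β C)
    (po : ∀ i, PW (Icc R Z) (P218W.om p₀ p₁ w c Z i))
    (h₀ : ∀ z ∈ Icc R Z, o₀ z ≤ 2 * p₀ z) (h₁ : ∀ z ∈ Icc R Z, o₁ z ≤ 2 * p₁ z)
    (R0 : 0 < R) : MP c R Z p₀ p₁ g₀ w β (2 * C) := by
  have up : ∀ {x M v : ℝ}, 0 ≤ x → x ≤ C * M * v → x ≤ 2 * C * M * v := fun x0 e => by linarith
  refine ⟨h.RZ, h.ne, by linarith [h.C0], po, h.pn, h.p0, h.pg, h.b0, h.b1,
    fun u u₁ u₂ M j e a b z hz => ?_, fun k hk u u₁ u₂ M j e a b d z hz => ?_, h.ex⟩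
  · obtain ⟨b0, b1, b2⟩ := h.m0 u u₁ u₂ M j e a b z hz
    have M0 : 0 ≤ C * M := nonneg_of_mul_nonneg_left ((norm_nonneg _).trans b0) ((h.po 0).pos hz)
    have z0 : 0 < z := R0.trans_le hz.1
    have e1 : o₁ z / z ≤ 2 * (p₁ z / z) := by
      rw [← mul_div_assoc]; exact div_le_div_of_nonneg_right (h₁ z hz) z0.le
    exact ⟨by nlinarith [h₀ z hz], by nlinarith, by nlinarith [h₁ z hz]⟩
  · have b := h.mn k hk u u₁ u₂ M j e a b d z hz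
    exact ⟨up (by positivity) b.b0, up (by positivity) b.bt, up (by positivity) b.btt,
      up (by positivity) b.bz, up (by positivity) b.bzt, up (by positivity) b.bzz⟩

/-- data with bounded support -/
theorem low_le {ρ K β₁ : ℝ} {g : ℝ → ℝ} (hZ : R ≤ Z) (q₀ : PW (Icc R Z) g₀) (q : PW (Icc R Z) g)
    (b₀ : 0 < β) (b₁ : 0 < β₁) (K0 : 0 ≤ K)
    (l : ∀ z ∈ Icc R Z, z < ρ → 1 ≤ K * g₀ z ∧ 1 ≤ K * g z) (G : WI R Z)
    (hG : ∀ z θ, ρ ≤ z → z ≤ Z → G (z, θ) = 0) : yn g₀ g β β₁ (G, 0) ≤ K * ‖G‖ := by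
  obtain ⟨a, ha, e⟩ := (G.le_on (Icc R Z)).ex
  have L : Le (Icc R Z) G (fun z => if z < ρ then 1 else 0) ‖G‖ := by
    refine ⟨G.adm _, fun z _ => by positivity, a, ha, fun k z hz => ?_⟩
    split_ifs with h
    · exact e k z hz
    · rw [co_congr (G := fun _ => 0) (fun θ => hG z θ (not_lt.1 h) hz.2) k]
      simp [co, c1]
  have wt : ∀ {v : ℝ → ℝ}, PW (Icc R Z) v → (∀ z ∈ Icc R Z, z < ρ → 1 ≤ K * v z) →
      Le (Icc R Z) G v (K * ‖G‖) := fun p k =>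
    L.wt K0 (fun z hz => (p.pos hz).le) fun z hz => by
      split_ifs with h
      exacts [k z hz h, mul_nonneg K0 (p.pos hz).le]
  refine (yn_le_iff hZ q₀ q b₀ b₁).2 ⟨⟨(wt q₀ fun z hz h => (l z hz h).1).p0,
    (wt q fun z hz h => (l z hz h).2).pn⟩, fun i => ?_⟩
  have : 0 < ![β, β₁, β₁] i := by fin_cases i <;> assumption
  simp only [Pi.zero_apply, norm_zero]
  positivity

theorem WF.gwl (h : WF c Z z) {κ : ℝ} (hκ : κ ∈ Icc (19 / 32 : ℝ) 2) :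
    1 ≤ 6 * z ^ 6 * gW (wK κ c) c Z z := by
  have := mul_le_mul (h.wk κ hκ).1 (h.s6.trans h.sl) (by norm_num)
    (zero_le_one.trans (h.wk κ hκ).1)
  unfold gW
  linarith

theorem xe_le (h : MP c R Z o₀ o₁ g₀ w β C) (v : XE R Z) (i : Fin 6) :
    L2 (Icc R Z) (v.1 i) (P218W.om o₀ o₁ w c Z i) (nu w c Z i) (MP.xe o₀ o₁ w c R Z v) :=
  ((ret_cl h.RZ.le).xn_le_iff h.po h.pn (apply_nonneg _ _)).1 le_rfl i

theorem yn_le (h : MP c R Z o₀ o₁ g₀ w β C) (y : YE R Z) :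
    YN g₀ (gW w c Z) β (Z * w Z) y (yn g₀ (gW w c Z) β (Z * w Z) y) :=
  (yn_le_iff h.RZ.le h.p0 h.pg h.b0 h.b1).1 le_rfl

theorem co0_le {s : Set ℝ} {F : ℝ × ℝ → ℂ} {M : ℝ} (h : L2 s F o₀ w M) (hz : z ∈ s) :
    ‖co F 0 z‖ ≤ M / 2 * o₀ z := h.1.apply hz 0

theorem l2_apply {s : Set ℝ} {F : ℝ × ℝ → ℂ} {M K : ℝ} (h : L2 s F o₀ w M) (hz : z ∈ s) (θ : ℝ)
    (a : o₀ z ≤ K) (b : w z ≤ K) : ‖F (z, θ)‖ ≤ K * M := by
  have e := norm_add_le_of_le (h.1.apply hz θ) (h.2.apply hz θ)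
  rw [p0_add_pn] at e
  nlinarith [h.1.M0]

/-- everything but the estimate of mode `0` -/
theorem ok {M : Mod} {k : ℕ} {L : LD M k} {j : Fin M.n₁} {T : XE L.z₀ Z →L[ℂ] YE L.z₀ Z}
    {ε δ δ₀ K : ℝ} (h : MP c L.z₀ Z o₀ o₁ g₀ w β C) (hc : Cyl 1 L.z₀ Z c) (z1 : 1 ≤ L.z₀)
    (hR : R + 1 ≤ Z) (K1 : 1296 ≤ K) (KC : 84 * C ≤ K) (d0 : 0 ≤ δ₀) (d1 : 84 * C * δ₀ ≤ 1)
    (b : ∀ z ∈ Icc L.z₀ Z, o₀ z ≤ 1296 * z ^ 5 ∧ o₁ z ≤ 1296 * z ^ 5 ∧ g₀ z ≤ 1296 * z ^ 5 ∧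
      w z ≤ 36 * z ^ (13 / 16 : ℝ))
    (e0 : 0 ≤ ε) (eδ : K * R ^ 5 * ε ≤ δ) (hT : ∀ v, ∀ y : ℝ × ℝ, y.1 ∈ Icc L.z₀ R →
      ‖(T v).1 y - DL M (.inl j) y fun i => v.1 i y‖ ≤ ε * ‖fun i => v.1 i y‖)
    (hP : ∀ v, yn g₀ (gW w c Z) β (Z * w Z) (T v - T0 c L.z₀ Z v) ≤
      δ₀ * MP.xe o₀ o₁ w c L.z₀ Z v)
    (inj : ∀ G : WI L.z₀ Z, (∀ z θ, L.ρ + 6 ≤ z → G (z, θ) = 0) →
      yn g₀ (gW w c Z) β (Z * w Z) (G, 0) ≤ K * ‖G‖)
    (in0 : ∀ v (G : WI L.z₀ Z), (∀ z θ, L.ρ + 6 ≤ z → G (z, θ) = 0) → ∀ z ∈ Icc (L.ρ + 6) R,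
      ‖co (v.1 0) 0 z‖ ≤ K * z ^ 2 * (z ^ (-3 / 2 : ℝ) + δ) *
        (yn g₀ (gW w c Z) β (Z * w Z) (T v + (G, 0)) + MP.xe o₀ o₁ w c L.z₀ Z v)) :
    L.CylOk j Z T (MP.xe o₀ o₁ w c L.z₀ Z) (yn g₀ (gW w c Z) β (Z * w Z)) K δ R := by
  obtain ⟨s, a⟩ := h.pert (P := T - T0 c L.z₀ Z) d0 d1 hP
  rw [show T0 c L.z₀ Z + (T - T0 c L.z₀ Z) = T from ContinuousLinearMap.ext fun v =>
    add_sub_cancel (T0 c L.z₀ Z v) (T v)] at s a
  have sub : ∀ {z}, z ∈ Icc L.z₀ R → z ∈ Icc L.z₀ Z := fun hz => ⟨hz.1, by linarith [hz.2]⟩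
  have up : ∀ {z}, z ∈ Icc L.z₀ R → 1296 * z ^ 5 ≤ K * z ^ 5 := fun hz =>
    mul_le_mul_of_nonneg_right K1 (pow_nonneg (L.hz.le.trans hz.1) 5)
  have w0 : ∀ z ∈ Icc L.z₀ Z, 0 ≤ w z := fun z hz => ((h.pn 0).pos hz).le
  have jet : ∀ (v : XE L.z₀ Z) i, ∀ y : ℝ × ℝ, y.1 ∈ Icc L.z₀ R →
      ‖v.1 i y‖ ≤ K * y.1 ^ 5 * MP.xe o₀ o₁ w c L.z₀ Z v := fun v i y hy => by
    have hz := sub hy
    have f := wf hc z1 hz
    obtain ⟨b0, b1, -, b3⟩ := b _ hz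
    exact l2_apply (xe_le h v i) hz y.2 ((f.om (w0 _ hz) b3 b0 ((h.po 5).pos hz).le b1 i).trans
      (up hy)) ((f.nu (w0 _ hz) b3 i).trans (up hy))
  refine ⟨hR, h.xe_eqv, h.yn_eqv, s, fun v => (a v).trans
    (mul_le_mul_of_nonneg_right KC (apply_nonneg _ _)), jet, fun v y hy => (hT v y hy).trans ?_,
    fun g y hy => ?_, inj, in0, fun v l hl z hz => ?_⟩
  · have p0 := apply_nonneg (MP.xe o₀ o₁ w c L.z₀ Z) v
    have y0 : 0 ≤ y.1 := L.hz.le.trans hy.1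
    have K0 : 0 ≤ K := by linarith
    have : ‖fun i => v.1 i y‖ ≤ K * R ^ 5 * MP.xe o₀ o₁ w c L.z₀ Z v :=
      (pi_norm_le_iff_of_nonneg (by have := y0.trans hy.2; positivity)).2 fun i =>
        (jet v i y hy).trans (by gcongr; exact hy.2)
    nlinarith [mul_le_mul_of_nonneg_left this e0, mul_le_mul_of_nonneg_right eδ p0]
  · have hz := sub hy
    have f := wf hc z1 hz
    obtain ⟨-, -, b2, b3⟩ := b _ hz
    refine l2_apply (yn_le h g).1 hz y.2 (b2.trans (up hy)) (le_trans ?_ (up hy))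
    linarith [(f.gw (w0 _ hz) b3).2.2, p5 f.z1 (n := 3) (by norm_num),
      pow_pos (one_pos.trans_le f.z1) 5]
  · have e := (xe_le h v 0).2.co_le l (sub hz)
    rw [co_pn ((v.1 0).adm _) l (sub hz), if_neg (by rintro rfl; simp at hl)] at e
    have p0 := apply_nonneg (MP.xe o₀ o₁ w c L.z₀ Z) v
    have r0 : 0 ≤ z ^ (13 / 16 : ℝ) := Real.rpow_nonneg (L.hz.le.trans hz.1) _
    have := mul_le_mul_of_nonneg_left (b z (sub hz)).2.2.2 p0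
    change _ ≤ _ * w z at e
    nlinarith [mul_nonneg r0 p0]

/-- mode `0` from the sharp package on a shorter interval -/
theorem sharp {R' D δ₀ : ℝ} {T : XE R Z →L[ℂ] YE R Z} (h : MP c R Z o₀ o₁ g₀ w β C)
    (h' : MP c R' Z p₀ p₁ g₀ w β D) (RR : R ≤ R') (d1 : δ₀ ≤ 1)
    (hP : ∀ v, yn g₀ (gW w c Z) β (Z * w Z) (T v - T0 c R Z v) ≤ δ₀ * MP.xe o₀ o₁ w c R Z v)
    (v : XE R Z) (G : WI R Z) (hG : ∀ z θ, R' ≤ z → G (z, θ) = 0) (hz : z ∈ Icc R' Z) :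
    ‖co (v.1 0) 0 z‖ ≤ D * (yn g₀ (gW w c Z) β (Z * w Z) (T v + (G, 0)) +
      MP.xe o₀ o₁ w c R Z v) * p₀ z := by
  have m := XE.mj h.RZ v
  have j := m.j2 (fun i => (v.1 i).cont.continuousOn) 0
  have sub : Icc R' Z ⊆ Icc R Z := Icc_subset_Icc_left RR
  have a := yn_le h (T v + (G, 0))
  have b := yn_le h (T v - T0 c R Z v)
  have p0 := apply_nonneg (MP.xe o₀ o₁ w c R Z) v
  have l := (hP v).trans (mul_le_of_le_one_left p0 d1)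
  have q0 := apply_nonneg (yn g₀ (gW w c Z) β (Z * w Z)) (T v + (G, 0))
  have e : T0 c R Z v = T v + (G, 0) - (T v - T0 c R Z v) - (G, 0) := by abel
  refine (h'.m0 _ _ _ _ ⟨j.c0.mono sub, j.c1.mono sub, j.c2.mono sub,
    j.d.mono (interior_mono sub)⟩ (fun z hz => ?_)
    ((co_congr (G := fun _ => 0) v.2.2.1 0).trans (by simp [co, c1])) ?_ z hz).1
  · have g : W.coL 0 z G = 0 :=
      (co_congr (G := fun _ => 0) (fun θ => hG z θ hz.1) 0).trans (by simp [co, c1])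
    have e1 := congrArg (fun y => W.coL 0 z y.1) e
    simp only [Prod.fst_sub, map_sub, g, sub_zero] at e1
    rw [← co_LW h.RZ.le h.ne m 0 (sub hz)]
    change ‖W.coL 0 z (T0 c R Z v).1‖ ≤ _
    have a1 := co0_le a.1 (sub hz)
    have b1 := co0_le b.1 (sub hz)
    have g0 := h.p0.pos (sub hz)
    rw [e1, ← map_sub (W.coL 0 z) (T v).1]
    refine (norm_sub_le_of_le a1 b1).trans ?_
    nlinarith [mul_le_mul_of_nonneg_right l g0.le, mul_nonneg q0 g0.le, mul_nonneg p0 g0.le]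
  · have e2 := congrArg (fun y => y.2 0) e
    simp only [Prod.snd_sub, Pi.sub_apply, Pi.zero_apply, sub_zero] at e2
    change ‖(T0 c R Z v).2 0‖ ≤ _
    rw [e2]
    refine (norm_sub_le_of_le (a.2 0) (b.2 0)).trans ?_
    change _ * β + _ * β ≤ _
    nlinarith [mul_le_mul_of_nonneg_right l h.b0.le]

end Cy

open Cy

theorem loww : LOWW := fun R ρ R1 => by
  refine ⟨36 * ρ ^ 6, by positivity, fun Z c h G hG => ?_⟩
  obtain ⟨pK, pw, pg, ph, -, -⟩ := pw_all h le_rfl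
  have RZ : R ≤ Z := by linarith [h.RZ]
  have mZ : Z ∈ Icc R Z := right_mem_Icc.2 RZ
  have Z0 := h.z0 mZ
  have up : ∀ z ∈ Icc R Z, z < ρ → ∀ {x : ℝ}, 1 ≤ 36 * z ^ 6 * x → 1 ≤ 36 * ρ ^ 6 * x :=
    fun z hz l x e => by
      have z0 := h.z0 hz
      have x0 : 0 ≤ x := nonneg_of_mul_nonneg_right (zero_le_one.trans e) (by positivity)
      exact e.trans (by gcongr)
  have gw : ∀ κ ∈ Icc (19 / 32 : ℝ) 2, ∀ z ∈ Icc R Z, z < ρ →
      1 ≤ 36 * ρ ^ 6 * gW (wK κ c) c Z z := fun κ hκ z hz l =>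
    up z hz l (by linarith [(wf h R1 hz).gwl hκ])
  refine ⟨low_le RZ pg (pw_gW h one_pos (pK _)) (mul_pos Z0 (pw.pos mZ))
    (mul_pos Z0 ((pK _).pos mZ)) (by positivity) (fun z hz l => ⟨up z hz l ?_,
      gw _ ⟨by norm_num, by norm_num⟩ z hz l⟩) G hG,
    low_le RZ (ph.mul isCompact_Icc pg) (pw_gW h one_pos (pK _))
      (mul_pos (ph.pos mZ) (mul_pos Z0 (pw.pos mZ))) (mul_pos Z0 ((pK _).pos mZ)) (by positivity)
      (fun z hz l => ⟨up z hz l ?_, gw _ ⟨by norm_num, by norm_num⟩ z hz l⟩) G hG⟩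
  · linarith [(wf h R1 hz).gl]
  · have k := wf h R1 hz
    have := mul_le_mul k.gl k.hl zero_le_one (zero_le_one.trans k.gl)
    linarith

theorem cylo (hL : LOWW) : CYLO := by
  obtain ⟨Y, C, Y1, mp⟩ := mp_cyl
  have a0 := abs_nonneg C
  have aC := le_abs_self C
  refine ⟨Y, 1 / (168 * |C| + 1), Y1, by positivity, fun M k L z1 zρ => ?_⟩
  obtain ⟨A, A0, lw⟩ := hL L.z₀ (L.ρ + 6) z1
  refine ⟨1296 + 168 * |C| + A, by positivity, fun j Z c T ε δ R h hρ hR δ0 e0 eδ hT => ?_⟩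
  have h1 : Cyl 1 L.z₀ Z c := cyl_mono h Y1 le_rfl h.RZ
  obtain ⟨pK, -, pg, ph, px, -⟩ := pw_all h1 le_rfl
  have d0 : 0 ≤ 1 / (168 * |C| + 1) := by positivity
  have d1 : 84 * (2 * C) * (1 / (168 * |C| + 1)) ≤ 1 := by
    rw [mul_one_div, div_le_one (by positivity)]; linarith
  have d2 : 1 / (168 * |C| + 1) ≤ 1 := by rw [div_le_one (by positivity)]; linarith
  have sub : ∀ {z}, z ∈ Icc (L.ρ + 6) R → z ∈ Icc L.z₀ Z := fun hz =>
    ⟨by linarith [hz.1], by linarith [hz.2]⟩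
  have pw : ∀ z ∈ Icc L.z₀ Z, 1 ≤ z ^ 5 ∧ z ^ 2 ≤ z ^ 5 ∧ z ^ 4 ≤ z ^ 5 := fun z hz =>
    ⟨one_le_pow₀ (z1.trans hz.1), p5 (z1.trans hz.1) (by norm_num),
      p5 (z1.trans hz.1) (by norm_num)⟩
  refine ⟨fun hP => ?_, fun hδ hP => ?_⟩
  · have m := mp_wt (mp (31 / 16) ⟨by norm_num, by norm_num⟩ _ _ _ h).1
      (pw_om h1 one_pos (pK _) px (pg.add isCompact_Icc px))
      (fun z hz => by linarith [(wf h1 z1 hz).wo, px.pos hz])
      (fun z hz => by linarith [pg.pos hz, px.pos hz]) L.hz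
    refine ok m h1 z1 hR (by linarith) (by linarith) d0 d1 (fun z hz => ?_) e0 eδ hT hP
      (fun G hG => ((lw Z c h1 G fun z θ l _ => hG z θ l).1).trans
        (mul_le_mul_of_nonneg_right (by linarith) (norm_nonneg _))) fun v G _ z hz => ?_
    · have f := wf h1 z1 hz
      obtain ⟨q0, q2, -⟩ := pw z hz
      have : gO c Z z ≤ 12 * z ^ 2 := by nlinarith [f.gu, f.a6, sq_nonneg z]
      exact ⟨by linarith [f.a6], by linarith [f.a6], by linarith,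
        (f.wk _ ⟨by norm_num, by norm_num⟩).2⟩
    · have f := wf h1 z1 (sub hz)
      have e := co0_le (xe_le m v 0) (sub hz)
      change _ ≤ _ * (rh c z).re at e
      have z0 : 0 < z := one_pos.trans_le f.z1
      have r : 1 ≤ z ^ 2 * (z ^ (-3 / 2 : ℝ) + δ) := by
        have : 1 ≤ z ^ 2 * z ^ (-3 / 2 : ℝ) := by
          rw [← Real.rpow_natCast, ← Real.rpow_add z0]
          exact Real.one_le_rpow f.z1 (by norm_num)
        nlinarith [mul_nonneg (sq_nonneg z) δ0]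
      refine e.trans ?_
      rw [mul_assoc _ (z ^ 2)]
      refine le_trans ?_ (mul_le_mul (mul_le_mul (show (3 : ℝ) ≤ _ by linarith) r zero_le_one
        (by positivity)) (le_add_of_nonneg_left (apply_nonneg _ _)) (apply_nonneg _ _)
        (by positivity))
      nlinarith [f.a6, apply_nonneg (pN c L.z₀ Z) v, show pN c L.z₀ Z v = MP.xe _ _ _ _ _ _ v
        from rfl]
  · have mZ : Z ∈ Icc L.z₀ Z := right_mem_Icc.2 (by linarith [h.RZ])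
    have m := mp_wt (mp (19 / 32) ⟨by norm_num, by norm_num⟩ _ _ _ h).2
      (pw_om h1 one_pos (pK _) (ph.mul isCompact_Icc px)
        (ph.mul isCompact_Icc (pg.add isCompact_Icc px)))
      (fun z hz => by
        have := Real.rpow_le_one_of_one_le_of_nonpos (z1.trans hz.1) (show (-3 / 2 : ℝ) ≤ 0 by
          norm_num)
        have := Real.rpow_le_one_of_one_le_of_nonpos (h1.tip Z mZ) (show (-3 / 4 : ℝ) ≤ 0 by
          norm_num)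
        rw [(wf h1 z1 hz).ha, sh]
        nlinarith [sq_nonneg z])
      (fun z hz => by linarith [(ph.mul isCompact_Icc (pg.add isCompact_Icc px)).pos hz]) L.hz
    have m' := (mp (19 / 32) ⟨by norm_num, by norm_num⟩ _ _ _
      (cyl_mono h le_rfl (R' := L.ρ + 6) (by linarith) (by linarith))).2
    refine ok m h1 z1 hR (by linarith) (by linarith) d0 d1 (fun z hz => ?_) e0 eδ hT hP
      (fun G hG => ((lw Z c h1 G fun z θ l _ => hG z θ l).2).trans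
        (mul_le_mul_of_nonneg_right (by linarith) (norm_nonneg _))) fun v G hG z hz => ?_
    · have f := wf h1 z1 hz
      obtain ⟨q0, q2, q4⟩ := pw z hz
      have : hv c z * gO c Z z ≤ 2 * z ^ 4 := by
        have := mul_le_mul_of_nonneg_left f.gu (ph.pos hz).le
        rw [mul_left_comm, f.ha] at this
        linarith
      exact ⟨by linarith [f.ha], by linarith [f.ha], by linarith,
        (f.wk _ ⟨by norm_num, by norm_num⟩).2⟩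
    · refine (sharp m m' (by linarith) d2 hP v G hG ⟨hz.1, (sub hz).2⟩).trans ?_
      have z0 := h1.z0 (sub hz)
      have := (h1.re0 one_pos mZ).le
      rw [mul_right_comm, mul_assoc _ (z ^ 2), sh]
      have C0 := m'.C0
      gcongr
      linarith

end Vale.Agent.P218L
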