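import Vale.Agent.P218L.Spec

/-!
# P218, the linear half of INST, row OKN: the functions of the unknowns and of the data
-/

open MeasureTheory Set Filter Topology
open scoped ContDiff RealInnerProductSpace Real ComplexConjugate

noncomputable section

namespace Vale.Agent.P218L

open Vale.Agent.P218T Vale.Agent.P218M
open Vale.Agent.P218H (op sa st C1a f1 dd J1 En op_congr dd_dd dd_ev)
open Vale.Agent.P218W (W jet wj co c1 low WI XE YE XK omK Jet DD ex)
open Vale.Agent.P218B (J2 d2)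

namespace Okn

/-! ### the seminorms of pairs -/

section prs

variable {ι : Type} [Fintype ι] {A : ι → Type} {B : Type} [∀ j, NormedAddCommGroup (A j)]
  [∀ j, NormedSpace ℂ (A j)] [NormedAddCommGroup B] [NormedSpace ℂ B] (p : ∀ j, Seminorm ℂ (A j))

theorem le_prs1 (x : (∀ j, A j) × B) (j : ι) : p j (x.1 j) ≤ prs p x :=
  le_trans (Seminorm.le_finset_sup_apply
    (p := fun j => (p j).comp (LinearMap.proj j ∘ₗ LinearMap.fst ℂ _ B)) (Finset.mem_univ j))
    (le_max_left _ _)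

theorem le_prs2 (x : (∀ j, A j) × B) : ‖x.2‖ ≤ prs p x := le_max_right _ _

variable {p}

theorem prs_le {x : (∀ j, A j) × B} {a : ℝ} (h : ∀ j, p j (x.1 j) ≤ a) (k : ‖x.2‖ ≤ a) :
    prs p x ≤ a :=
  max_le (Seminorm.finset_sup_apply_le ((norm_nonneg _).trans k) fun j _ => h j) k

theorem eqv_prs (h : ∀ j, Eqv (p j)) : Eqv (prs (B := B) p) := by
  choose C hC using h
  have c1 : ∀ j, C j ≤ 1 + ∑ j, |C j| := fun j => by
    linarith [le_abs_self (C j),
      Finset.single_le_sum (fun j _ => abs_nonneg (C j)) (Finset.mem_univ j)]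
  have c0 : 1 ≤ 1 + ∑ j, |C j| := by
    linarith [Finset.sum_nonneg fun j (_ : j ∈ Finset.univ) => abs_nonneg (C j)]
  generalize 1 + ∑ j, |C j| = D at c1 c0
  refine ⟨D, fun x => ⟨?_, prs_le (fun j => (hC j _).2.trans ?_) ?_⟩⟩
  · have := apply_nonneg (prs (B := B) p) x
    refine norm_prod_le_iff.2 ⟨(pi_norm_le_iff_of_nonneg (by positivity)).2 fun j =>
      (hC j _).1.trans ?_, (le_prs2 p x).trans (le_mul_of_one_le_left this c0)⟩
    exact mul_le_mul (c1 j) (le_prs1 p x j) (apply_nonneg _ _) (by linarith)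
  · exact mul_le_mul (c1 j) ((norm_le_pi_norm _ j).trans (norm_fst_le x)) (norm_nonneg _)
      (by linarith)
  · exact (norm_snd_le x).trans (le_mul_of_one_le_left (norm_nonneg _) c0)

end prs

/-! ### jets -/

theorem jet_eq {s : Set ℝ} {u : Fin 6 → ℝ × ℝ → ℂ} (h : Jet s u) {y : ℝ × ℝ}
    (hy : y.1 ∈ interior s) (i : Fin 6) : jet (u 0) i y = u i y := by
  rw [Cw.jet_eq isOpen_interior h.d0 h.d3 h.d1 hy]
  fin_cases i <;> rfl

theorem j2_of_jet {F : ℝ × ℝ → ℂ} {y : ℝ × ℝ} {a : ℝ} (h : ContDiffAt ℝ 2 F y)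
    (k : ∀ i, ‖jet F i y‖ ≤ a) : J2 F y a (2 * a) (4 * a) := by
  have a0 := (norm_nonneg _).trans (k 0)
  have k1 : ‖fderiv ℝ F y (0, 1)‖ ≤ a := k 1
  have k2 : ‖d2 F y (0, 1) (0, 1)‖ ≤ a := k 2
  have k3 : ‖fderiv ℝ F y (1, 0)‖ ≤ a := k 3
  have k4 : ‖d2 F y (1, 0) (0, 1)‖ ≤ a := k 4
  have k5 : ‖d2 F y (1, 0) (1, 0)‖ ≤ a := k 5
  refine ⟨h, k 0, ?_, P218B.norm_d2_le (by positivity) fun v v' => ?_⟩
  · rw [P218W.DD_self (fderiv ℝ F y)]
    exact (P218W.norm_DD _ _).trans (by linarith)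
  · have b1 : ‖d2 F y (1, 0)‖ ≤ 2 * a := by
      rw [P218W.DD_self (d2 F y (1, 0))]
      exact (P218W.norm_DD _ _).trans (by linarith)
    have b2 : ‖d2 F y (0, 1)‖ ≤ 2 * a := by
      rw [P218W.DD_self (d2 F y (0, 1)), P218B.d2_symm h]
      exact (P218W.norm_DD _ _).trans (by linarith)
    have e : d2 F y v = v.1 • d2 F y (1, 0) + v.2 • d2 F y (0, 1) := by
      rw [← map_smul, ← map_smul, ← map_add]; simp
    refine (d2 F y v).le_of_opNorm_le ?_ v'
    rw [e]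
    refine (norm_add_le _ _).trans ?_
    rw [norm_smul, norm_smul]
    nlinarith [mul_le_mul (norm_fst_le v) b1 (norm_nonneg _) (norm_nonneg _),
      mul_le_mul (norm_snd_le v) b2 (norm_nonneg _) (norm_nonneg _)]

theorem dd_le {n : ℕ} {f : En n → ℂ} {x : En n} {a : ℝ} (h : J2 f x a a a) (i j : J1 n) :
    ‖dd i (dd j f) x‖ ≤ a := by
  have e : ∀ i : Fin n, ‖P218H.ee i‖ = 1 := fun i => by simp [P218H.ee]
  rcases i with _ | i <;> rcases j with _ | j
  · exact h.h0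
  · simpa [e, dd] using h.d1 (P218H.ee j)
  · simpa [e, dd] using h.d1 (P218H.ee i)
  · rw [dd_dd h.cd]
    simpa [e] using h.dd (P218H.ee i) (P218H.ee j)

/-- the coefficients of a function which is close to a continuous one -/
theorem co_le_of {u F : ℝ × ℝ → ℂ} {z a : ℝ} (hu : Continuous fun θ => u (z, θ))
    (h : ∀ θ, ‖u (z, θ) + F (z, θ)‖ ≤ a) (k : ℤ) : ‖co F k z‖ ≤ a + ‖co u k z‖ := by
  have a0 := (norm_nonneg _).trans (h 0)
  by_cases i : IntervalIntegrable (fun θ => ex (-k) θ * F (z, θ)) volume 0 (2 * π)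
  · have e : co F k z = c1 (fun θ => u (z, θ) + F (z, θ)) k - co u k z := by
      simp only [co, c1, mul_add]
      rw [intervalIntegral.integral_add (f := fun θ => ex (-k) θ * u (z, θ))
        (((P218W.cont_ex _).mul hu).intervalIntegrable _ _) i]
      ring
    rw [e]
    exact norm_sub_le_of_le (P218W.c1_le (fun θ _ => h θ) k) le_rfl
  · rw [co, c1, intervalIntegral.integral_undef i, mul_zero, norm_zero]
    positivity

theorem norm_low_le {r : ℝ → ℝ} (x : W r) {z a : ℝ} (h : ∀ θ, ‖x (z, θ)‖ ≤ a) :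
    ‖low z x‖ ≤ a := by
  have c : ∀ k, ‖co x k z‖ ≤ a := P218W.c1_le fun θ _ => h θ
  refine (pi_norm_le_iff_of_nonneg ((norm_nonneg _).trans (h 0))).2 fun i => ?_
  fin_cases i
  · exact c 0
  · have := norm_add_le_of_le (c 1) (c (-1))
    show ‖low z x 1‖ ≤ a
    rw [P218W.low_1, norm_mul]
    norm_num
    linarith
  · have := norm_sub_le_of_le (c 1) (c (-1))
    show ‖low z x 2‖ ≤ a
    rw [P218W.low_2, norm_mul]
    norm_num
    linarith

theorem apply_le_low {r : ℝ → ℝ} (x : W r) {z : ℝ} (h : ∀ k, 2 ≤ |k| → co x k z = 0) (θ : ℝ) :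
    ‖x (z, θ)‖ ≤ 5 * ‖low z x‖ := by
  have s := (x.le_norm.hasSum (z := z) trivial θ).unique
    (hasSum_sum_of_ne_finset_zero (s := {-1, 0, 1}) fun k hk => by
      rw [h k (by
        simp only [Finset.mem_insert, Finset.mem_singleton, not_or] at hk
        rcases abs_cases k with e | e <;> omega), zero_mul])
  have b := norm_le_pi_norm (low z x)
  have c : ∀ k : ℤ, |k| = 1 → ‖co x k z‖ ≤ 2 * ‖low z x‖ := fun k hk => by
    rw [P218W.co_low z x hk, two_mul]
    refine norm_sub_le_of_le (b 1) ?_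
    rw [norm_mul, norm_mul, Complex.norm_I, Complex.norm_intCast, ← Int.cast_abs, hk]
    simpa using b 2
  rw [s, Finset.sum_insert (by decide), Finset.sum_insert (by decide), Finset.sum_singleton]
  refine (norm_add_le _ _).trans ((add_le_add le_rfl (norm_add_le _ _)).trans ?_)
  simp only [norm_mul, P218W.norm_ex, mul_one]
  linarith [c (-1) (by decide), c 1 (by decide), show ‖co x 0 z‖ ≤ _ from b 0]

/-! ### the ends -/

variable {M : Mod} {k : ℕ} {L : LD M k} {Z : Fin M.n₁ → ℝ} {y : ℝ × ℝ}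

variable (L Z) in
/-- the heights on the end `e` -/
def sE : M.I → Set ℝ
  | .inl j => Icc L.z₀ (Z j)
  | .inr _ => Ici L.z₀

theorem mem_sE {R : ℝ} (hZ : ∀ j, R ≤ Z j) (e : M.I) {z : ℝ} (h : L.z₀ < z) (h' : z < R) :
    z ∈ interior (sE L Z e) := by
  cases e with
  | inl j => simpa [sE] using ⟨h, h'.trans_le (hZ j)⟩
  | inr l => simpa [sE] using h

theorem jx_jet (v : L.X' Z) (e : M.I) : Jet (sE L Z e) (LD.jx v e) := by
  cases e with
  | inl j => exact (v.1 j).2.1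
  | inr l => exact (v.2 l).2.1

theorem jx_contOn (v : L.X' Z) (e : M.I) (i : Fin 6) :
    ContinuousOn (LD.jx v e i) (sE L Z e ×ˢ univ) := by
  cases e with
  | inl j => exact ((v.1 j).1 i).cont.continuousOn
  | inr l => exact P218W.wj_cont (P218W.omK_cont L.hz) (fun i => (v.2 l).1 i.castSucc) i

theorem jx_cont (v : L.X' Z) (e : M.I) : Continuous (LD.jx v e 0) := by
  cases e with
  | inl j => exact ((v.1 j).1 0).cont
  | inr l => exact (Complex.continuous_ofReal.comp continuous_fst).mul ((v.2 l).1 0).cont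

theorem jx_per (v : L.X' Z) (e : M.I) (i : Fin 6) (R : ℝ) : Per R (LD.jx v e i) := by
  intro z θ _
  cases e with
  | inl j => exact ((v.1 j).1 i).per z θ
  | inr l => exact congrArg (_ * ·) (((v.2 l).1 _).per z θ)

theorem fy_per (g : L.Y' Z) (e : M.I) (R : ℝ) : Per R (LD.fy g e) := by
  intro z θ _
  cases e with
  | inl j => exact (g.1 j).1.per z θ
  | inr l => exact (g.2 l).per z θ

theorem jx_cd (v : L.X' Z) (e : M.I) (hy : y.1 ∈ interior (sE L Z e)) :
    ContDiffAt ℝ 2 (LD.jx v e 0) y := ((jx_jet v e).contDiffAt (jx_contOn v e) hy).1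

theorem sum_lift_ev (g : M.Geo) (F : M.I → ℝ × ℝ → ℂ) (e : M.I) (hy : M.R < y.1) :
    (fun x => ∑ e', M.lift e' (F e') x) =ᶠ[𝓝 (M.P e y)] M.lift e (F e) := by
  have : ∀ᶠ x in 𝓝 (M.P e y), ∀ e', e' ≠ e → M.lift e' (F e') x = 0 :=
    eventually_all.2 fun e' => by
      by_cases h : e' = e
      · exact .of_forall fun _ k => absurd h k
      · exact (g.lift_other h hy).mono fun _ k _ => k
  exact this.mono fun x hx => Finset.sum_eq_single e (fun e' _ => hx e') (by simp)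

theorem per_q (g : M.Geo) (v : L.X' Z) (e : M.I) :
    Per M.R fun y => (q M e y : ℂ) * LD.jx v e 0 y :=
  (g.per_qn e).comp₂ (jx_per v e 0 _) fun a b => (a : ℂ) * b

theorem ev_ev (g : M.Geo) (v : L.X' Z) (e : M.I) (hy : M.R < y.1) :
    L.ev Z v =ᶠ[𝓝 (M.P e y)] M.lift e fun y => q M e y * LD.jx v e 0 y :=
  sum_lift_ev g (fun e y => q M e y * LD.jx v e 0 y) e hy

theorem ev_P (g : M.Geo) (v : L.X' Z) (e : M.I) (hy : M.R < y.1) :
    L.ev Z v (M.P e y) = q M e y * LD.jx v e 0 y :=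
  (ev_ev g v e hy).eq_of_nhds.trans (g.lift_P (per_q g v e) hy)

theorem ev'_P (g : M.Geo) (f : L.Y' Z) (e : M.I) (hy : M.R < y.1) :
    L.ev' Z f (M.P e y) = kp M e y * LD.fy f e y :=
  (sum_lift_ev g (fun e y => kp M e y * LD.fy f e y) e hy).eq_of_nhds.trans
    (g.lift_P ((g.per_kn e).comp₂ (fy_per f e _) fun a b => (a : ℂ) * b) hy)

theorem op_ev (hl : LINC) (g : M.Geo) (v : L.X' Z) (e : M.I) (hy : M.R < y.1)
    (hi : y.1 ∈ interior (sE L Z e)) :
    op (sa M.w) (L.ev Z v) (M.P e y) = kp M e y * DL M e y fun i => LD.jx v e i y := by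
  rw [op_congr (ev_ev g v e hy), hl M g e _ y hy (jx_per v e 0 _) (jx_cd v e hi)]
  simp only [jet_eq (jx_jet v e) hi]

theorem DL_inr (v : L.X' Z) (l : Fin M.n₂) (hy : L.z₀ ≤ y.1) :
    DL M (.inr l) y (fun i => LD.jx v (.inr l) i y) = DK M l y fun i => (v.2 l).1 i y := by
  have z0 : (y.1 : ℂ) ≠ 0 := by exact_mod_cast (L.hz.trans_le hy).ne'
  have e6 : (v.2 l).1 6 y = _ := (v.2 l).2.2.1 y.1 hy y.2
  show DK M l y _ = _
  congr 1
  funext i
  fin_cases i <;> simp [jk, LD.jx, wj, omK, z0]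
  rw [e6]; ring

/-- the points between the inner boundary and the radius `R` -/
theorem ex_P (hL : L.Ok) {x : E3} {R : ℝ}
    (hx : x ∈ (⋃ e, M.En e (Ici L.z₀)) \ ⋃ e, M.En e {L.z₀}) (hR : ‖x‖ < R) :
    ∃ e, ∃ y : ℝ × ℝ, M.R < y.1 ∧ L.z₀ < y.1 ∧ y.1 ≤ ‖x‖ ∧ y.1 < R ∧ M.P e y = x := by
  obtain ⟨h1, h2⟩ := hx
  obtain ⟨e, y, hy, rfl⟩ := mem_iUnion.1 h1
  have h3 : L.z₀ < y.1 :=
    lt_of_le_of_ne hy.1 fun h => h2 (mem_iUnion.2 ⟨e, Mod.P_mem_En h.symm⟩)
  have h4 : M.R < y.1 := by linarith [hL.lo]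
  have := ((hL.geo.cht e).rad y h4).1
  exact ⟨e, y, h4, h3, this, this.trans_lt hR, rfl⟩

end Okn

end Vale.Agent.P218L
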