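import Vale.Agent.P218L.Loj

/-!
# The gradient inequality of Łojasiewicz: complex and real forms
-/

open Filter Topology Set Function Asymptotics Metric

noncomputable section

namespace Vale.Agent.P218L

theorem Lj.rpow {T : Type*} {l : Filter T} {G D : T → ℝ} {N : ℕ} (h : Lj l G D (N + 1))
    (hG : ∀ z, 0 ≤ G z) (hD : ∀ z, 0 ≤ D z) : ∃ θ C : ℝ, 1 / 2 ≤ θ ∧ θ < 1 ∧ 0 < C ∧
      ∀ᶠ z in l, G z ^ θ ≤ C * D z ∧ G z ≤ C * D z ^ θ⁻¹ := by
  obtain ⟨A, A0, hA⟩ := h.2.exists_pos
  have p1 : (0 : ℝ) < N + 1 := by positivity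
  have p2 : (0 : ℝ) < N + 2 := by positivity
  refine ⟨(N + 1) / (N + 2), max (A ^ (N + 2 : ℝ)⁻¹) (A ^ (N + 1 : ℝ)⁻¹), ?_, ?_,
    lt_max_of_lt_left (by positivity), hA.bound.mono fun z hz => ?_⟩
  · rw [div_le_div_iff₀ two_pos p2]; linarith [N.cast_nonneg (α := ℝ)]
  · rw [div_lt_one p2]; linarith
  have g := hG z
  have d := hD z
  rw [Real.norm_of_nonneg (by positivity), Real.norm_of_nonneg (by positivity), ← Real.rpow_natCast,
    ← Real.rpow_natCast] at hz
  push_cast at hz
  constructor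
  · have := Real.rpow_le_rpow (by positivity) hz (inv_pos.2 p2).le
    rw [Real.mul_rpow A0.le (by positivity), ← Real.rpow_mul g, ← Real.rpow_mul d,
      show (N + 1 + 1 : ℝ) * (N + 2 : ℝ)⁻¹ = 1 by field_simp; ring, Real.rpow_one,
      ← div_eq_mul_inv] at this
    exact this.trans (mul_le_mul_of_nonneg_right (le_max_left _ _) d)
  · have := Real.rpow_le_rpow (by positivity) hz (inv_pos.2 p1).le
    rw [Real.mul_rpow A0.le (by positivity), ← Real.rpow_mul g, ← Real.rpow_mul d,
      mul_inv_cancel₀ p1.ne', Real.rpow_one,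
      show (N + 1 + 1 : ℝ) * (N + 1 : ℝ)⁻¹ = ((N + 1) / (N + 2) : ℝ)⁻¹ by field_simp; ring]
      at this
    exact this.trans (mul_le_mul_of_nonneg_right (le_max_right _ _) (by positivity))

section
variable {𝕜 E F : Type*} [RCLike 𝕜] [NormedAddCommGroup E] [NormedSpace 𝕜 E]
  [NormedAddCommGroup F] [NormedSpace 𝕜 F]

/-- change of linear coordinates -/
theorem lj_equiv (e : E ≃L[𝕜] F) {f : E → 𝕜} {q : E} {N : ℕ}
    (h : Lj (𝓝 (e q)) (fun z => ‖f (e.symm z) - f q‖)
      (fun z => ‖fderiv 𝕜 (fun z => f (e.symm z) - f q) z‖) N) :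
    Lj (𝓝 q) (fun z => ‖f z - f q‖) (fun z => ‖fderiv 𝕜 f z‖) N := by
  refine (h.comp (e.continuous.tendsto q)).congr (Eventually.of_forall fun z => by simp)
    (IsBigO.of_bound ‖(e.symm : F →L[𝕜] E)‖ (Eventually.of_forall fun z => ?_))
  have := e.symm.comp_right_fderiv (f := f) (x := e z)
  rw [comp_apply, norm_norm, norm_norm, fderiv_sub_const, show (fun z => f (e.symm z)) = f ∘ e.symm
    from rfl, this, e.symm_apply_apply, mul_comm]
  exact ContinuousLinearMap.opNorm_comp_le _ _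

end

/-- **Łojasiewicz**, complex form with integer exponents. -/
theorem lj_complex {E : Type*} [NormedAddCommGroup E] [NormedSpace ℂ E] [FiniteDimensional ℂ E]
    {f : E → ℂ} {q : E} (hf : AnalyticAt ℂ f q) :
    ∃ N, Lj (𝓝 q) (fun z => ‖f z - f q‖) (fun z => ‖fderiv ℂ f z‖) (N + 1) := by
  let e := (Module.finBasis ℂ E).equivFunL
  refine (lj_pi (g := fun z => f (e.symm z) - f q) (q := e q) ?_ (by simp)).imp
    fun N h => lj_equiv e h
  exact (AnalyticAt.comp (g := f) (by simpa using hf) (e.symm.analyticAt _)).sub analyticAt_const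

/-- the real points -/
def rl {ι : Type*} [Fintype ι] : (ι → ℝ) →L[ℝ] (ι → ℂ) :=
  ContinuousLinearMap.pi fun i => Complex.ofRealCLM.comp (ContinuousLinearMap.proj i)

theorem rl_apply {ι : Type*} [Fintype ι] (x : ι → ℝ) (i : ι) : rl x i = x i := rfl

/-- complexification of a real analytic function -/
theorem exists_cx {ι : Type*} [Fintype ι] {u : (ι → ℝ) → ℝ} {q : ι → ℝ} (hu : AnalyticAt ℝ u q) :
    ∃ U : (ι → ℂ) → ℂ, AnalyticAt ℂ U (rl q) ∧ ∀ᶠ z in 𝓝 q, U (rl z) = u z := by
  classical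
  obtain ⟨p, rp, hrp⟩ := hu
  let P : FormalMultilinearSeries ℂ (ι → ℂ) ℂ := fun n =>
    ∑ f : Fin n → ι, ((p n (fun i => Pi.single (f i) 1) : ℝ) : ℂ) •
      (ContinuousMultilinearMap.mkPiAlgebra ℂ (Fin n) ℂ).compContinuousLinearMap
        (fun i => ContinuousLinearMap.proj (f i))
  have h1 : ∀ n, ∀ x : ι → ℝ, P n (fun _ => rl x) = ((p n fun _ => x : ℝ) : ℂ) := by
    intro n x
    have h1 : (p n fun _ => x) =
        ∑ f : Fin n → ι, (∏ i, x (f i)) * p n (fun i => Pi.single (f i) 1) := by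
      conv_lhs => rw [pi_eq_sum_univ' x]
      rw [ContinuousMultilinearMap.map_sum]
      refine Finset.sum_congr rfl fun f _ => ?_
      rw [ContinuousMultilinearMap.map_smul_univ]
      rfl
    rw [h1]
    simp only [P, sum_apply, smul_apply, ContinuousMultilinearMap.compContinuousLinearMap_apply,
      ContinuousMultilinearMap.mkPiAlgebra_apply, smul_eq_mul, ContinuousLinearMap.proj_apply,
      rl_apply]
    push_cast
    exact Finset.sum_congr rfl fun f _ => mul_comm _ _
  have h2 : ∀ n, ‖P n‖ ≤ ‖p n‖ * Fintype.card ι ^ n := by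
    intro n
    refine (norm_sum_le _ _).trans ((Finset.sum_le_card_nsmul _ _ ‖p n‖ fun f _ => ?_).trans_eq
      (by simp [mul_comm]))
    rw [norm_smul, Complex.norm_real]
    refine (mul_le_mul ((p n).le_opNorm _) (ContinuousMultilinearMap.opNorm_le_bound zero_le_one
      fun m => ?_) (norm_nonneg _) (by positivity)).trans_eq (by simp [Pi.norm_single])
    simp only [ContinuousMultilinearMap.compContinuousLinearMap_apply, one_mul, norm_prod,
      ContinuousMultilinearMap.mkPiAlgebra_apply, ContinuousLinearMap.proj_apply]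
    exact Finset.prod_le_prod (fun _ _ => norm_nonneg _) fun i _ => norm_le_pi_norm _ _
  obtain ⟨C, r, hC, hr, hCr⟩ := p.le_mul_pow_of_radius_pos (hrp.r_pos.trans_le hrp.r_le)
  have hrad : 0 < P.radius := by
    have t0 : (0 : ℝ) < 1 / (r * Fintype.card ι + 1) := by positivity
    refine lt_of_lt_of_le (ENNReal.coe_pos.2 (Real.toNNReal_pos.2 t0))
      (P.le_radius_of_bound C fun n => ?_)
    rw [Real.coe_toNNReal _ t0.le]
    calc _ ≤ ((C * r ^ n) * Fintype.card ι ^ n) * (1 / (r * Fintype.card ι + 1)) ^ n := by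
          gcongr
          exact (h2 n).trans (by gcongr; exact hCr n)
      _ = C * (r * Fintype.card ι * (1 / (r * Fintype.card ι + 1))) ^ n := by
          rw [mul_pow, mul_pow]; ring
      _ ≤ C * 1 ^ n := by
          gcongr
          rw [mul_one_div, div_le_one (by positivity)]
          linarith
      _ = C := by simp
  refine ⟨fun v => P.sum (v - rl q), ?_, ?_⟩
  · exact AnalyticAt.fun_comp (g := P.sum) (f := fun v => v - rl q)
      (by rw [sub_self]; exact (P.hasFPowerSeriesOnBall hrad).analyticAt)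
      (analyticAt_id.sub analyticAt_const)
  · have t : Tendsto (fun z => z - q) (𝓝 q) (𝓝 0) :=
      sub_self q ▸ (continuous_id.sub continuous_const).tendsto q
    filter_upwards [t.eventually (eball_mem_nhds _ hrp.r_pos)] with z hz
    have h3 := hrp.hasSum hz
    rw [add_sub_cancel] at h3
    simp only [← map_sub, FormalMultilinearSeries.sum, h1]
    exact (Complex.hasSum_ofReal.2 h3).tsum_eq

/-- the norm of a complex linear form is bounded by its values on the coordinate vectors -/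
theorem norm_le_sum {ι : Type*} [Fintype ι] [DecidableEq ι] (L : (ι → ℂ) →L[ℂ] ℂ) :
    ‖L‖ ≤ ∑ i, ‖L (Pi.single i 1)‖ := by
  refine L.opNorm_le_bound (by positivity) fun x => ?_
  conv_lhs => rw [pi_eq_sum_univ' x]
  rw [map_sum, Finset.sum_mul]
  refine (norm_sum_le _ _).trans (Finset.sum_le_sum fun i _ => ?_)
  rw [map_smul, norm_smul, mul_comm]
  exact mul_le_mul_of_nonneg_left (norm_le_pi_norm _ _) (norm_nonneg _)

theorem lj_real_pi {ι : Type*} [Fintype ι] {u : (ι → ℝ) → ℝ} {q : ι → ℝ} (hu : AnalyticAt ℝ u q)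
    (h0 : u q = 0) : ∃ N, Lj (𝓝 q) (fun z => ‖u z‖) (fun z => ‖fderiv ℝ u z‖) (N + 1) := by
  classical
  obtain ⟨U, h1, h2⟩ := exists_cx hu
  refine (lj_complex h1).imp fun N h => (h.comp (rl.continuous.tendsto q)).congr ?_
    (IsBigO.of_bound (Fintype.card ι) ?_)
  · filter_upwards [h2] with z hz
    simp [hz, h2.self_of_nhds, h0]
  · filter_upwards [h2.eventually_nhds, hu.eventually_analyticAt,
      (rl.continuous.tendsto q).eventually h1.eventually_analyticAt] with z a b c
    have e := (((c.differentiableAt.hasFDerivAt.restrictScalars ℝ).comp z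
      rl.hasFDerivAt).congr_of_eventuallyEq (EventuallyEq.symm a)).unique
        (Complex.ofRealCLM.hasFDerivAt.comp z b.differentiableAt.hasFDerivAt)
    rw [comp_apply, norm_norm, norm_norm]
    refine (norm_le_sum _).trans ((Finset.sum_le_card_nsmul _ _ ‖fderiv ℝ u z‖
      fun i _ => ?_).trans_eq (by simp))
    have e1 := congrArg (fun L => L (Pi.single i 1)) e
    have e2 : rl (Pi.single i 1 : ι → ℝ) = Pi.single i 1 := funext fun j => by
      by_cases k : j = i <;> simp [rl_apply, k]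
    simp only [ContinuousLinearMap.comp_apply, e2, ContinuousLinearMap.coe_restrictScalars',
      Complex.ofRealCLM_apply] at e1
    rw [e1, Complex.norm_real]
    exact ((fderiv ℝ u z).le_opNorm _).trans_eq (by rw [Pi.norm_single, norm_one, mul_one])

/-- **Łojasiewicz**, real form with integer exponents. -/
theorem lj_real {E : Type*} [NormedAddCommGroup E] [NormedSpace ℝ E] [FiniteDimensional ℝ E]
    {f : E → ℝ} {q : E} (hf : AnalyticAt ℝ f q) :
    ∃ N, Lj (𝓝 q) (fun z => ‖f z - f q‖) (fun z => ‖fderiv ℝ f z‖) (N + 1) := by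
  let e := (Module.finBasis ℝ E).equivFunL
  refine (lj_real_pi (u := fun z => f (e.symm z) - f q) (q := e q) ?_ (by simp)).imp
    fun N h => lj_equiv e h
  exact (AnalyticAt.comp (g := f) (by simpa using hf) (e.symm.analyticAt _)).sub analyticAt_const

/-- **Łojasiewicz**, complex form. -/
theorem loj_complex {E : Type*} [NormedAddCommGroup E] [NormedSpace ℂ E] [FiniteDimensional ℂ E]
    {f : E → ℂ} {q : E} (hf : AnalyticAt ℂ f q) : ∃ θ C : ℝ, 1 / 2 ≤ θ ∧ θ < 1 ∧ 0 < C ∧
      ∀ᶠ z in 𝓝 q, ‖f z - f q‖ ^ θ ≤ C * ‖fderiv ℂ f z‖ ∧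
        ‖f z - f q‖ ≤ C * ‖fderiv ℂ f z‖ ^ θ⁻¹ :=
  (lj_complex hf).elim fun _ h => h.rpow (fun _ => norm_nonneg _) fun _ => norm_nonneg _

/-- **Łojasiewicz**, real form. -/
theorem loj_real {E : Type*} [NormedAddCommGroup E] [NormedSpace ℝ E] [FiniteDimensional ℝ E]
    {f : E → ℝ} {q : E} (hf : AnalyticAt ℝ f q) : ∃ θ C : ℝ, 1 / 2 ≤ θ ∧ θ < 1 ∧ 0 < C ∧
      ∀ᶠ z in 𝓝 q, ‖f z - f q‖ ^ θ ≤ C * ‖fderiv ℝ f z‖ ∧
        ‖f z - f q‖ ≤ C * ‖fderiv ℝ f z‖ ^ θ⁻¹ :=
  (lj_real hf).elim fun _ h => h.rpow (fun _ => norm_nonneg _) fun _ => norm_nonneg _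

end Vale.Agent.P218L
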