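import Vale.Agent.P218L.Spec
import Vale.Agent.P218H.Mul

/-!
# P218, row L.SLOW: the slow functions
-/

open MeasureTheory Set Filter Topology Metric
open scoped ContDiff RealInnerProductSpace Real ComplexConjugate

noncomputable section

namespace Vale.Agent.P218L

open Vale.Agent.P218T Vale.Agent.P218M
open Vale.Agent.P218H (op sa st cm dd ee En)
open Vale.Agent.P218N (V3 cx nu cr dt)
open Vale.Agent.P218W (W jet wj XH omH Jet Der DD)
open Vale.Agent.P218B (J2 d2)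

namespace Slow

/-- the components of a jet are the derivatives of its function -/
theorem jet_eq {s : Set ℝ} {u : Fin 6 → ℝ × ℝ → ℂ} (h : Jet s u) {p : ℝ × ℝ}
    (hp : p.1 ∈ interior s) (i : Fin 6) : jet (u 0) i p = u i p := by
  have e : fderiv ℝ (u 0) =ᶠ[𝓝 p] fun q => P218W.DL (u 3 q, u 1 q) := by
    filter_upwards [(isOpen_interior.preimage continuous_fst).mem_nhds hp] with q hq
    exact (h.d0 q hq).fderiv
  have e2 := (P218W.DL.hasFDerivAt.comp p ((h.d3 p hp).prodMk (h.d1 p hp))).fderiv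
  have e3 : ∀ v w, fderiv ℝ (fderiv ℝ (u 0)) p v w =
      DD (DD (u 5 p) (u 4 p) v) (DD (u 4 p) (u 2 p) v) w := fun v w => by
    rw [e.fderiv_eq]
    exact congrArg (fun L : ℝ × ℝ →L[ℝ] ℝ × ℝ →L[ℝ] ℂ => L v w) e2
  fin_cases i <;> simp [jet, e3, (h.d0 p hp).fderiv]

variable {R : ℝ} (J : XH R wy)

theorem yj_jet : Jet (Ici R) (yj J) := by
  have h0 : Der (interior (Ici R)) (fun _ => 0) (fun _ => 0) fun _ => 0 :=
    P218W.der_z fun z _ => hasDerivAt_const z 0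
  have h1 : Jet (Ici R) fun i p => hj p.1 i :=
    ⟨P218W.der_z (φ := fun z => (z : ℂ) ^ 2 - 2) (φ' := fun z => 2 * z) fun z _ => by
      simpa using ((Complex.ofRealCLM.hasDerivAt (x := z)).fun_pow 2).sub_const 2, h0,
    P218W.der_z (φ := fun z => 2 * (z : ℂ)) (φ' := fun _ => 2) fun z _ => by
      simpa using (Complex.ofRealCLM.hasDerivAt (x := z)).const_mul 2⟩
  exact h1.add J.2.1

theorem yj_cont (hR : 0 < R) (i : Fin 6) : ContinuousOn (yj J i) (Ici R ×ˢ univ) := by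
  refine ContinuousOn.add (Continuous.continuousOn ?_)
    (P218W.wj_cont (P218W.omH_cont hR (P218W.wH_cont hR)) J.1 i)
  fin_cases i <;> simp [hj] <;> fun_prop

theorem yj_per (R' : ℝ) (i : Fin 6) : Per R' (yj J i) := fun z θ _ => by
  simp only [yj, wj, W.per]

theorem yj_le (i : Fin 6) {y : ℝ × ℝ} (hy : 1 ≤ y.1) : ‖yj J i y‖ ≤ (3 + ‖J‖) * y.1 ^ 2 := by
  have h0 : 0 < y.1 := by linarith
  have h1 : ‖hj y.1 i‖ ≤ 3 * y.1 ^ 2 := by
    have a : ‖(y.1 : ℂ) ^ 2 - 2‖ ≤ 3 * y.1 ^ 2 := (norm_sub_le _ _).trans (by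
      rw [norm_pow, Complex.norm_real, Real.norm_of_nonneg h0.le, Complex.norm_two]; nlinarith)
    fin_cases i <;> simp [hj, a, abs_of_pos h0] <;> nlinarith
  have w0 : 0 < wy y.1 := by simp only [wH]; positivity
  have w1 : wy y.1 ≤ y.1 := by
    simp only [wH, add_zero]
    exact Real.rpow_le_self_of_one_le hy (by norm_num)
  have h2 : |omH wy i y.1| ≤ y.1 ^ 2 := by
    have a : |wy y.1| ≤ y.1 ^ 2 := by rw [abs_of_pos w0]; nlinarith
    have b : |wy y.1 / y.1| ≤ y.1 ^ 2 := by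
      rw [abs_of_pos (div_pos w0 h0), div_le_iff₀ h0]; nlinarith
    fin_cases i
    exacts [a, a, a, b, a, a]
  have h3 : ‖J.1 i y‖ ≤ ‖J‖ := by
    linarith [(J.1 i).apply_le y, norm_le_pi_norm J.1 i, norm_nonneg (J.1 i),
      show ‖J.1‖ = ‖J‖ from rfl]
  refine (norm_add_le _ _).trans ?_
  rw [wj, norm_mul, Complex.norm_real, Real.norm_eq_abs]
  nlinarith [mul_le_mul h2 h3 (norm_nonneg _) (sq_nonneg _)]

theorem yj_j2 (hR : 1 ≤ R) {y : ℝ × ℝ} (hy : R < y.1) :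
    J2 (yj J 0) y ((3 + ‖J‖) * y.1 ^ 2) (2 * ((3 + ‖J‖) * y.1 ^ 2)) ‖d2 (yj J 0) y‖ := by
  have hp : y.1 ∈ interior (Ici R) := by rwa [interior_Ici]
  have h1 : 1 ≤ y.1 := hR.trans hy.le
  refine ⟨((yj_jet J).contDiffAt (yj_cont J (by linarith)) hp).1, yj_le J 0 h1, ?_, le_rfl⟩
  rw [((yj_jet J).d0 y hp).fderiv]
  linarith [P218W.norm_DD (yj J 3 y) (yj J 1 y), yj_le J 3 h1, yj_le J 1 h1]

/-- the rotation fields -/
theorem rot_bil (o : V3) : ∃ B : E3 →L[ℝ] E3 →L[ℝ] ℂ, ∀ x v, B x v = dt (cr o (cx x)) (cx v) :=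
  ⟨(LinearMap.mk₂ ℝ (fun x v : E3 => dt (cr o (cx x)) (cx v))
    (fun _ _ _ => by simp [dt, cr, cx]; ring) (fun _ _ _ => by simp [dt, cr, cx]; ring)
    (fun _ _ _ => by simp [dt, cr, cx]; ring)
    (fun _ _ _ => by simp [dt, cr, cx]; ring)).toContinuousBilinearMap, fun _ _ => rfl⟩

theorem om_eq (Q : E3 ≃ₗᵢ[ℝ] E3) (l : Fin 3) : ∃ o, om Q l = cx o := by
  fin_cases l
  exacts [⟨0, by ext i; simp [om, cx]⟩, ⟨_, rfl⟩, ⟨_, rfl⟩]

theorem st_bd {c : ℝ} (hc : 0 ≤ c) : ∃ K, 0 ≤ K ∧ ∀ x : E3, ‖fderiv ℝ (st c) x‖ ≤ K := by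
  obtain ⟨K, hK⟩ := (isCompact_closedBall (0 : E3) (c + 1)).exists_bound_of_continuousOn
    ((P218H.st_smooth c).continuous_fderiv (by simp)).continuousOn
  refine ⟨max K 0, le_max_right _ _, fun x => ?_⟩
  rcases le_or_gt ‖x‖ (c + 1) with h | h
  · exact (hK x (mem_closedBall_zero_iff.2 h)).trans (le_max_left _ _)
  · rw [EventuallyEq.fderiv_eq (f := fun _ => 1) (P218H.st_ev_one hc h)]
    simp

variable {M : Mod} {k : ℕ} {L : LD M k}

theorem ph_real (h : L.Ok) (i) (x : E3) : conj (L.ph i x) = L.ph i x := by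
  unfold LD.ph
  split_ifs
  · rw [← Mod.lift_map conj (map_zero _)]
    simp [yj, wj, hj, h.real, map_ofNat]
  · obtain ⟨o, ho⟩ := om_eq (M.Q i.1) i.2
    simp [ho, dt, cr, cx, nu]

theorem ph_other (h : L.Ok) (i) {e : M.I} (he : .inl i.1 ≠ e) {y : ℝ × ℝ} (hy : M.R < y.1) :
    L.ph i =ᶠ[𝓝 (M.P e y)] fun _ => 0 := by
  unfold LD.ph
  split_ifs
  · exact h.geo.lift_other he hy
  · filter_upwards [h.geo.lift_other (F := fun _ => (1 : ℝ)) he hy] with x hx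
    simp [hx]

theorem ph_end (hq : QB) (hl : LINC) (hr : ROT) (h : L.Ok) (i : Fin M.n₁ × Fin 3) :
    ∃ C : ℝ, 0 ≤ C ∧ ∀ y : ℝ × ℝ, L.z₀ < y.1 → op (sa M.w) (L.ph i) (M.P (.inl i.1) y) = 0 ∧
      ∃ c, J2 (L.ph i) (M.P (.inl i.1) y) (C * (1 + ‖M.P (.inl i.1) y‖) ^ 8)
        (C * (1 + ‖M.P (.inl i.1) y‖) ^ 8) c := by
  have g := h.geo
  have z1 : 1 ≤ L.z₀ := by linarith [h.lo, g.one.1]
  unfold LD.ph
  split_ifs
  · obtain ⟨K, K1, hK, -⟩ := hq M g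
    obtain ⟨K', K2, hK'⟩ := g.lift_j2 (V := ℂ)
    have K0 : 0 ≤ K := zero_le_one.trans K1
    have K3 : 0 ≤ K' := zero_le_one.trans K2
    refine ⟨3 * K' * (K * (3 + ‖L.yv i.1‖)), by positivity, fun y hy => ?_⟩
    have hy' : M.R < y.1 := by linarith [h.lo]
    have j := yj_j2 (L.yv i.1) z1 hy
    have j' := hK' (.inl i.1) _ y _ _ _ ((hK _).1.comp₂ (yj_per (L.yv i.1) _ 0) (· • ·)) hy'
      (((hK (.inl i.1)).2.2 y hy').2.2.2.2.2.smul j)
    refine ⟨?_, _, j'.mono ?_ ?_ le_rfl⟩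
    · rw [hl M g _ _ y hy' (yj_per _ _ 0) j.cd, funext
        (jet_eq (yj_jet (L.yv i.1)) (by rwa [interior_Ici])), h.sol _ y hy.le, mul_zero]
    all_goals
      obtain ⟨A, hA⟩ : ∃ A, A = K * (3 + ‖L.yv i.1‖) := ⟨_, rfl⟩
      have A0 : 0 ≤ A := by rw [hA]; positivity
      have y1 : 1 ≤ y.1 := z1.trans hy.le
      have y2 : y.1 ^ 2 ≤ y.1 ^ 4 := pow_le_pow_right₀ y1 (by norm_num)
      have y3 : y.1 ^ 4 ≤ (1 + ‖M.P (.inl i.1) y‖) ^ 8 :=
        (pow_le_pow_right₀ y1 (by norm_num)).trans (pow_le_pow_left₀ (by linarith)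
          (by linarith [((g.cht (.inl i.1)).rad y hy').1]) 8)
      refine le_trans ?_ (mul_le_mul_of_nonneg_left y3 (by positivity))
      have y4 := mul_le_mul_of_nonneg_left y2 A0
      have y5 : 0 ≤ A * y.1 ^ 4 := by positivity
    · calc _ = A * y.1 ^ 2 := by rw [hA]; ring
        _ ≤ 3 * K' * A * y.1 ^ 4 := by nlinarith
        _ = _ := by rw [hA]
    · calc _ = K' * (A * y.1 ^ 4 + 2 * (A * y.1 ^ 2)) := by rw [hA]; ring
        _ ≤ K' * (3 * (A * y.1 ^ 4)) := mul_le_mul_of_nonneg_left (by linarith) K3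
        _ = _ := by rw [hA]; ring
  · obtain ⟨o, ho⟩ := om_eq (M.Q i.1) i.2
    obtain ⟨B, hB⟩ := rot_bil (cx o)
    refine ⟨‖B‖ * (1 + |M.C|), by positivity, fun y hy => ?_⟩
    have hy' : M.R < y.1 := by linarith [h.lo]
    have hp := g.mem (.inl i.1) y hy'
    have e : (fun x => ((M.lift (.inl i.1) (fun _ => (1 : ℝ)) x : ℝ) : ℂ) *
        dt (cr (om (M.Q i.1) i.2) (cx x)) (nu M.w x)) =ᶠ[𝓝 (M.P (.inl i.1) y)]
        fun x => dt (cr (cx o) (cx x)) (nu M.w x) := by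
      filter_upwards [(g.isOpen_tube (.inl i.1)).mem_nhds ⟨_, g.zero_mem_O hy', Mod.Ph_zero _ y⟩]
      rintro _ ⟨a, ha, rfl⟩
      rw [g.lift_Ph (fun _ _ _ => rfl) ha, ho, Complex.ofReal_one, one_mul]
    have n1 : J2 (gradient M.w) (M.P (.inl i.1) y) 1 |M.C| _ :=
      (J2.self (g.tb.snu.contDiffAt.of_le (by norm_cast))).mono (g.norm_nu hp).le
        ((g.shr.hess_le _ (g.w_lt hp)).trans (le_abs_self _)) le_rfl
    have n2 := J2.bil (ContinuousLinearMap.id ℝ (E3 →L[ℝ] ℂ)) ContinuousLinearMap.norm_id_le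
      (J2.clm B _) n1
    refine ⟨(P218H.op_congr e).trans (hr _ _ _ _ g.shr g.smw o _ hp), _,
      (n2.congr (e.trans (Eventually.of_forall fun x => (hB _ _).symm))).mono ?_ ?_ le_rfl⟩
    all_goals
      generalize M.P (.inl i.1) y = p
      have y3 : 1 + ‖p‖ ≤ (1 + ‖p‖) ^ 8 := le_self_pow₀ (by linarith [norm_nonneg p]) (by norm_num)
      refine le_trans ?_ (mul_le_mul_of_nonneg_left y3 (by positivity))
      have := mul_nonneg (norm_nonneg B) (abs_nonneg M.C)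
      have := mul_nonneg (norm_nonneg B) (norm_nonneg p)
      have := mul_nonneg this (abs_nonneg M.C)
      nlinarith [norm_nonneg B]

theorem ph_far (hq : QB) (hl : LINC) (hr : ROT) (h : L.Ok) (i : Fin M.n₁ × Fin 3) :
    ∃ C : ℝ, 0 ≤ C ∧ ∀ p ∈ M.S, L.z₀ + 1 ≤ ‖p‖ → op (sa M.w) (L.ph i) p = 0 ∧
      ∃ c, J2 (L.ph i) p (C * (1 + ‖p‖) ^ 8) (C * (1 + ‖p‖) ^ 8) c := by
  obtain ⟨C, C0, hC⟩ := ph_end hq hl hr h i
  refine ⟨C, C0, fun p hp h1 => ?_⟩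
  obtain ⟨e, y, hy, -, rfl⟩ := h.geo.far (c := L.z₀) (by linarith [h.lo]) hp (by linarith)
  by_cases he : .inl i.1 = e
  · subst he
    exact hC y hy
  · have e0 := ph_other h i he (y := y) (by linarith [h.lo])
    exact ⟨(P218H.op_congr e0).trans P218H.op_zero, _,
      (J2.zero e0).mono (by positivity) (by positivity) le_rfl⟩

/-- the radius of the cut-off function -/
def rc (L : LD M k) (i : Fin M.n₁ × Fin 3) : ℝ := if i.2 = 0 then L.ρ + 1 else L.ρ + 2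

theorem rc_bd (i : Fin M.n₁ × Fin 3) : L.ρ + 1 ≤ rc L i ∧ rc L i ≤ L.ρ + 2 := by
  unfold rc
  split_ifs <;> constructor <;> linarith

theorem cm_ne (h : L.Ok) (i) {p : E3} (hp : cm (sa M.w) (L.ch i) (L.ph i) p ≠ 0) :
    rc L i ≤ ‖p‖ ∧ ‖p‖ ≤ rc L i + 1 := by
  have c0 : 0 ≤ rc L i := by linarith [(rc_bd (L := L) i).1, h.hi, L.hz]
  exact ⟨not_lt.1 fun k => hp (P218H.cm_zero (P218H.st_ev_zero c0 k)),
    not_lt.1 fun k => hp (P218H.cm_one (P218H.st_ev_one c0 k))⟩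

theorem cm_off (h : L.Ok) (i) (y : ℝ × ℝ) (hy : M.R < y.1) (h1 : y.1 ∉ Icc L.ρ (L.ρ + 3)) :
    cm (sa M.w) (L.ch i) (L.ph i) (M.P (.inl i.1) y) = 0 := by
  by_contra k
  have := cm_ne h i k
  have := rc_bd (L := L) i
  have := (h.geo.cht (.inl i.1)).rad y hy
  exact h1 ⟨by linarith, by linarith⟩

theorem sub_Ioi (h : L.Ok) : Icc L.ρ (L.ρ + 3) ⊆ Ioi M.R := fun z hz =>
  mem_Ioi.2 (by linarith [hz.1, h.lo, h.hi])

theorem b_P (h : L.Ok) (i) {y : ℝ × ℝ} (hy : M.R < y.1) :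
    L.b i (M.P (.inl i.1) y) = cm (sa M.w) (L.ch i) (L.ph i) (M.P (.inl i.1) y) := by
  have g := h.geo
  rw [LD.b, g.lift_P ((g.perP _).comp _) hy, g.w_zero (g.mem _ y hy),
    h.ker.eh1 0 (by rw [abs_zero]; linarith [g.tb.pos]), one_smul]

theorem b_ne (h : L.Ok) (i) {p : E3} (hp : p ∈ M.S) (h1 : L.b i p ≠ 0) :
    p ∈ M.En (.inl i.1) (Icc L.ρ (L.ρ + 3)) ∧ rc L i ≤ ‖p‖ ∧ ‖p‖ ≤ rc L i + 1 := by
  have h2 : p ∈ M.En (.inl i.1) (Icc L.ρ (L.ρ + 3)) := by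
    by_contra k
    refine h1 ?_
    rw [LD.b, (h.geo.lift_ev_zero' isClosed_Icc (sub_Ioi h) (cm_off h i) hp k).self_of_nhds,
      smul_zero]
  refine ⟨h2, ?_⟩
  obtain ⟨y, hy, rfl⟩ := h2
  exact cm_ne h i (by rwa [← b_P h i (sub_Ioi h hy.1)])

theorem b_cd (hq : QB) (hl : LINC) (hr : ROT) (h : L.Ok) (i) : ContDiff ℝ 1 (L.b i) := by
  have g := h.geo
  obtain ⟨C, -, hC⟩ := ph_end hq hl hr h i
  obtain ⟨e, he, -, he'⟩ := P218H.cmf 3 (sa M.w) (L.ch i)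
    (P218H.geos 3 _ _ _ _ g.shr g.smw).2.1.sm (P218H.st_smooth _)
  refine g.glift_cd (h.ker.seh.of_le (by simp)) h.ker.eh0 ((g.perP _).comp _) isClosed_Icc
    (sub_Ioi h) (cm_off h i) (by simp) fun y hy => ?_
  have hy' : L.z₀ < y.1 := by linarith [hy.1, h.hi]
  have c1 : ContDiffAt ℝ 1 (M.P (.inl i.1)) y := (g.cdP _ (sub_Ioi h hy)).of_le (by simp)
  refine (ContDiffAt.sum (s := Finset.univ) fun j _ =>
    (((he j).contDiffAt.of_le (by simp)).smul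
      (P218H.dd_cda1 (hC y hy').2.choose_spec.cd j)).comp y c1).congr_of_eventuallyEq ?_
  filter_upwards [ev_ht hy'] with q hq using he' _ _ (hC q hq).2.choose_spec.cd

theorem y_bd (hq : QB) (hl : LINC) (hr : ROT) (h : L.Ok) (i) : ∃ C : ℝ, ∀ p ∈ M.S,
    ContDiffAt ℝ 2 (L.Y i) p ∧ op (sa M.w) (L.Y i) p = L.b i p ∧
      ∀ j, ‖dd j (L.Y i) p‖ ≤ C * (1 + ‖p‖) ^ 8 := by
  have g := h.geo
  have c1 := (rc_bd (L := L) i).1
  have c0 : 0 ≤ rc L i := by linarith [h.hi, L.hz]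
  obtain ⟨C, C0, hC⟩ := ph_far hq hl hr h i
  obtain ⟨K, K0, hK⟩ := st_bd c0
  have key : ∀ {p : E3} {c}, J2 (L.Y i) p ((K + 1) * C * (1 + ‖p‖) ^ 8)
      ((K + 1) * C * (1 + ‖p‖) ^ 8) c → ∀ j, ‖dd j (L.Y i) p‖ ≤ (K + 1) * C * (1 + ‖p‖) ^ 8 := by
    rintro p c hj (_ | j)
    · exact hj.h0
    · exact (hj.d1 (ee j)).trans_eq (by simp [ee])
  refine ⟨(K + 1) * C, fun p hp => ?_⟩
  rcases lt_or_ge ‖p‖ (rc L i) with h1 | h1
  · have e : L.Y i =ᶠ[𝓝 p] fun _ => 0 := by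
      filter_upwards [P218H.st_ev_zero c0 h1] with x hx
      exact (congrArg (· • L.ph i x) hx).trans (zero_smul _ _)
    refine ⟨(J2.zero e).cd, ?_, key ((J2.zero e).mono (by positivity) (by positivity) le_rfl)⟩
    rw [P218H.op_congr e, P218H.op_zero]
    by_contra k
    linarith [(b_ne h i hp (Ne.symm k)).2.1]
  · obtain ⟨h2, c, h3⟩ := hC p hp (by linarith [h.hi])
    have s : J2 (L.ch i) p 1 K _ := (J2.self ((P218H.st_smooth _).contDiffAt.of_le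
      (by norm_cast))).mono (by rw [Real.norm_of_nonneg P218H.st_nonneg]; exact P218H.st_le_one)
        (hK p) le_rfl
    have h4 := s.smul h3
    have : 0 ≤ K * (C * (1 + ‖p‖) ^ 8) := by positivity
    refine ⟨h4.cd, ?_, key (h4.mono (by linarith) (by linarith) le_rfl)⟩
    have h5 : op (sa M.w) (L.Y i) p = cm (sa M.w) (L.ch i) (L.ph i) p := by
      rw [cm, h2, smul_zero, sub_zero]
      rfl
    obtain ⟨e, y, hy, -, rfl⟩ := g.far (c := M.R) le_rfl hp (by linarith [h.hi, h.lo])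
    by_cases he : .inl i.1 = e
    · subst he
      rw [h5, b_P h i hy]
    · rw [LD.b, (g.lift_other he hy).self_of_nhds, smul_zero, ← P218H.op_zero (a := sa M.w)]
      refine P218H.op_congr ?_
      filter_upwards [ph_other h i he hy] with x hx
      exact (congrArg (L.ch i x • ·) hx).trans (smul_zero _)

end Slow

open Slow in
/-- **SLOW** -/
theorem slow (hq : QB) (hl : LINC) (hr : ROT) : SLOW := by
  intro M k L h
  have g := h.geo
  refine ⟨fun i => ⟨b_cd hq hl hr h i, ?_, fun x => ?_, ph_real h i, fun p hp => b_ne h i hp,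
    fun p hp h1 => ?_, fun p hp h1 => ?_⟩, ?_⟩
  · refine HasCompactSupport.intro (isCompact_closedBall 0 (L.ρ + 4 + M.δ)) fun x hx => ?_
    by_contra k
    obtain ⟨z, hz, -, h1⟩ := g.lift_norm (cm_off h i) (right_ne_zero_of_smul k)
    exact hx (mem_closedBall_zero_iff.2 (by linarith [hz.2]))
  · rw [LD.b, Complex.real_smul, map_mul, Complex.conj_ofReal, ← Mod.lift_map conj (map_zero _)]
    simp only [← P218H.cm_conj, ph_real h i]
  · have c1 := (rc_bd (L := L) i).1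
    have h2 : rc L i < ‖p‖ := not_le.1 fun k => left_ne_zero_of_smul h1
      (P218H.st_zero (c := rc L i) (by linarith [h.hi, L.hz]) k)
    obtain ⟨e, y, hy, -, rfl⟩ := g.far (c := L.ρ) (by linarith [h.hi, h.lo]) hp (by linarith)
    by_cases he : .inl i.1 = e
    · subst he
      exact Mod.P_mem_En hy.le
    · exact absurd (ph_other h i he (y := y) (by linarith [h.hi, h.lo])).self_of_nhds
        (right_ne_zero_of_smul h1)
  · obtain ⟨C, -, hC⟩ := ph_far hq hl hr h i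
    exact ⟨(hC p hp h1).2.choose_spec.cd, (hC p hp h1).1⟩
  · choose C hC using y_bd hq hl hr h
    obtain ⟨C', hC'⟩ := (finite_range C).bddAbove
    exact ⟨C', fun i p hp => ⟨(hC i p hp).1, (hC i p hp).2.1, fun j => ((hC i p hp).2.2 j).trans
      (mul_le_mul_of_nonneg_right (hC' ⟨i, rfl⟩) (by positivity))⟩⟩

end Vale.Agent.P218L
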