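import Vale.Agent.P218H.Linn
import Vale.Agent.P218C.Eq
import Vale.Agent.P218W.Cyl
import Vale.Agent.P218W.Cone
import Vale.Agent.P218W.Half

/-!
# P218, the linear half of INST: the core and the end data of a model
-/

open MeasureTheory Set Filter Topology
open scoped ContDiff RealInnerProductSpace Real ComplexConjugate

noncomputable section

namespace Vale.Agent.P218L

open Vale.Agent.P218T Vale.Agent.P218M
open Vale.Agent.P218H (op sa st prw Core EndD C1a f1 Ker Coer)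
open Vale.Agent.P218N (V3 cx nu cr dt sig)
open Vale.Agent.P218W (W jet wj co low toW cl WI XE YE XK XH omK omH yn)

open Classical in
/-- the continuous linear map with the given values, if there is one -/
def toL {A B : Type} [NormedAddCommGroup A] [NormedSpace ℂ A] [NormedAddCommGroup B]
    [NormedSpace ℂ B] (F : A → B) : A →L[ℂ] B :=
  if h : ∃ T : A →L[ℂ] B, ∀ a, T a = F a then h.choose else 0

theorem toL_apply {A B : Type} [NormedAddCommGroup A] [NormedSpace ℂ A] [NormedAddCommGroup B]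
    [NormedSpace ℂ B] {F : A → B} (h : ∃ T : A →L[ℂ] B, ∀ a, T a = F a) (a : A) :
    toL F a = F a := by
  rw [toL, dif_pos h]
  exact h.choose_spec a

/-- the norm of a pair whose first component is a family with seminorms -/
def prs {ι : Type} [Fintype ι] {A : ι → Type} {B : Type} [∀ j, NormedAddCommGroup (A j)]
    [∀ j, NormedSpace ℂ (A j)] [NormedAddCommGroup B] [NormedSpace ℂ B]
    (p : ∀ j, Seminorm ℂ (A j)) : Seminorm ℂ ((∀ j, A j) × B) :=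
  (Finset.univ.sup fun j => (p j).comp (LinearMap.proj j ∘ₗ LinearMap.fst ℂ _ _)) ⊔
    (normSeminorm ℂ B).comp (LinearMap.snd ℂ _ _)

/-- the Gaussian area, normalised -/
def ga (w : E3 → ℝ) : Measure E3 :=
  (sig w).withDensity fun x => ENNReal.ofReal (Real.exp (-‖x‖ ^ 2 / 4))

/-- the normal height is `q` times the variation of the unknown of the end -/
abbrev q (M : Mod) : M.I → ℝ × ℝ → ℝ := M.qn

/-- the ambient equation is `kp` times the equation of the end -/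
abbrev kp (M : Mod) : M.I → ℝ × ℝ → ℝ := M.kn

/-- the linearisation at `uS` of the equation of a conical end, on normalised jets -/
def DK (M : Mod) (l : Fin M.n₂) (y : ℝ × ℝ) (J : Fin 7 → ℂ) : ℂ :=
  fderiv ℂ (kJ (M.γ l) (M.n l) y.2) (jk y.1 fun i => jet (uS (M.g l)) i y) J / (2 * spd (M.γ l))

/-- the linearisation of the equation of the end at `S`, on jets -/
def DL (M : Mod) : M.I → ℝ × ℝ → (Fin 6 → ℂ) → ℂ
  | .inl i => fun y J => fderiv ℂ (vJ 1 y.1) (fun k => jet (VS (M.f i)) k y) J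
  | .inr l => fun y J => DK M l y (jk y.1 J)

/-- the axes of the rotations -/
def om (Q : E3 ≃ₗᵢ[ℝ] E3) : Fin 3 → V3 := ![0, cx (eR Q 0), cx (eT Q 0)]

/-- the jet of `z ^ 2 - 2` -/
def hj (z : ℝ) : Fin 6 → ℂ := ![z ^ 2 - 2, 0, 0, 2 * z, 0, 2]

/-- the weight of the slow solutions -/
abbrev wy : ℝ → ℝ := wH (-1 / 16) 0

/-- the jet of a slow solution -/
def yj {R : ℝ} (J : XH R wy) (i : Fin 6) (y : ℝ × ℝ) : ℂ := hj y.1 i + wj (omH wy) J.1 i y

/-- the Hölder exponent of the commutators -/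
abbrev β₀ : ℝ := 5 / 8

/-- the linear data: inner height `z₀` of the ends, radius `ρ` of the zones, constraints `ψ`,
kernels, barrier, slow solutions -/
structure LD (M : Mod) (k : ℕ) where
  z₀ : ℝ
  hz : 0 < z₀
  ρ : ℝ
  ψ : Fin k → E3 → ℝ
  et : ℝ → ℝ
  eh : ℝ → ℝ
  φ : E3 → ℝ
  yv : Fin M.n₁ → XH z₀ wy

namespace LD

variable {M : Mod} {k : ℕ} (L : LD M k)

instance : Fact (0 < L.z₀) := ⟨L.hz⟩

/-- the Jacobi fields on the ends -/
def ph (i : Fin M.n₁ × Fin 3) (x : E3) : ℂ :=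
  if i.2 = 0 then M.lift (.inl i.1) (fun y => q M (.inl i.1) y * yj (L.yv i.1) 0 y) x
  else (M.lift (.inl i.1) (fun _ => (1 : ℝ)) x : ℝ) * dt (cr (om (M.Q i.1) i.2) (cx x)) (nu M.w x)

/-- their cut-off functions -/
def ch (i : Fin M.n₁ × Fin 3) : E3 → ℝ := st (if i.2 = 0 then L.ρ + 1 else L.ρ + 2)

/-- the slow functions -/
def Y (i : Fin M.n₁ × Fin 3) (x : E3) : ℂ := L.ch i x • L.ph i x

/-- their images -/
def b (i : Fin M.n₁ × Fin 3) (x : E3) : ℂ := L.eh (M.w x) •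
  M.lift (.inl i.1) (fun y => P218H.cm (sa M.w) (L.ch i) (L.ph i) (M.P (.inl i.1) y)) x

/-- the rotation zone of the end `j` -/
def rot (j : Fin M.n₁) (x : E3) : ℝ := st (L.ρ + 2) x * M.lift (.inl j) (fun _ => (1 : ℝ)) x

/-- the low modes of the slow solution at the inner boundary -/
def gy (j : Fin M.n₁) : Fin 3 → ℂ :=
  ![(L.z₀ : ℂ) ^ 2 - 2, 0, 0] + (wy L.z₀ : ℂ) • low L.z₀ ((L.yv j).1 0)

/-- the matrix of the third row -/
def Mm : (Fin M.n₁ × Fin 3 → ℂ) →ₗ[ℂ] (Fin M.n₁ × Fin 3 → ℂ) :=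
  .pi fun i => L.gy i.1 i.2 • .proj (i.1, 0)

/-- `1 / t_j` -/
def ka (j : Fin M.n₁) : ℂ := ∫ p, L.Y (j, 0) p * L.b (j, 0) p ∂ga M.w

/-- **the core**; `K` fixes the modulus of independence -/
def core (K : ℝ) : Core 3 k (Fin M.n₁ × Fin 3) where
  S := M.S
  Se := ⋃ e, M.En e (Ici L.z₀)
  B := ⋃ e, M.En e {L.z₀}
  pr := prw M.w
  nu := gradient M.w
  ta := M.w
  de := M.δ
  et := L.et
  eh := L.eh
  a := sa M.w
  r₀ := L.ρ
  r := L.ρ + 2
  ce := st (L.ρ + 1)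
  cc := fun x => 1 - st (L.ρ + 3) x
  ψ := L.ψ
  ν := ga M.w
  b := L.b
  Y := L.Y
  Mm := L.Mm
  mo := fun η => K + (K / η) ^ 6
  φ := L.φ
  N := 8

/-- the hypotheses on the linear data -/
structure Ok : Prop where
  geo : M.Geo
  lo : M.R + 1 ≤ L.z₀
  hi : L.z₀ + 2 ≤ L.ρ
  ker : Ker M.δ L.et L.eh
  coer : Coer M.w (ga M.w) L.ψ
  supp : ∀ i x, L.ρ - 1 ≤ ‖x‖ → L.ψ i x = 0
  bar : ContDiff ℝ 2 L.φ ∧ ∀ p ∈ M.S, L.z₀ ≤ ‖p‖ → 1 ≤ L.φ p ∧ op (sa M.w) L.φ p ≤ -1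
  sol : ∀ j (y : ℝ × ℝ), L.z₀ ≤ y.1 → DL M (.inl j) y (fun i => yj (L.yv j) i y) = 0
  real : ∀ j i y, conj ((L.yv j).1 i y) = (L.yv j).1 i y
  pos : ∀ j (y : ℝ × ℝ), L.ρ ≤ y.1 → 1 ≤ (yj (L.yv j) 0 y).re

/-- the unknowns on the ends -/
abbrev X' (Z : Fin M.n₁ → ℝ) := (∀ j, XE L.z₀ (Z j)) × (Fin M.n₂ → XK L.z₀)

/-- the data on the ends -/
abbrev Y' (Z : Fin M.n₁ → ℝ) := (∀ j, YE L.z₀ (Z j)) × (Fin M.n₂ → W (max L.z₀))

variable {L} {Z : Fin M.n₁ → ℝ}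

/-- the jets of the unknowns -/
def jx (v : L.X' Z) : M.I → Fin 6 → ℝ × ℝ → ℂ
  | .inl j => fun i => (v.1 j).1 i
  | .inr l => wj omK fun i => (v.2 l).1 i.castSucc

/-- the functions of the data -/
def fy (g : L.Y' Z) : M.I → ℝ × ℝ → ℂ
  | .inl j => (g.1 j).1
  | .inr l => g.2 l

theorem jx_add (v v' : L.X' Z) (e i y) : jx (v + v') e i y = jx v e i y + jx v' e i y := by
  cases e <;> simp [jx, wj, mul_add]

theorem jx_smul (c : ℂ) (v : L.X' Z) (e i y) : jx (c • v) e i y = c * jx v e i y := by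
  cases e <;> simp [jx, wj, mul_left_comm]

theorem fy_add (g g' : L.Y' Z) (e y) : fy (g + g') e y = fy g e y + fy g' e y := by
  cases e <;> rfl

theorem fy_smul (c : ℂ) (g : L.Y' Z) (e y) : fy (c • g) e y = c * fy g e y := by
  cases e <;> simp [fy]

theorem lift_lin (e : M.I) (a : ℝ × ℝ → ℝ) (c : ℂ) (F G : ℝ × ℝ → ℂ) (x : E3) :
    M.lift e (fun y => a y * (F y + G y)) x =
      M.lift e (fun y => a y * F y) x + M.lift e (fun y => a y * G y) x ∧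
    M.lift e (fun y => a y * (c * F y)) x = c * M.lift e (fun y => a y * F y) x := by
  simp only [Mod.lift, P218B.desc]
  split_ifs
  · exact ⟨by ring, by ring⟩
  · simp

variable (L Z)

/-- the ambient function of the unknowns -/
def ev : L.X' Z →ₗ[ℂ] (E3 → ℂ) where
  toFun v x := ∑ e, M.lift e (fun y => q M e y * jx v e 0 y) x
  map_add' v v' := funext fun x => by
    simp only [jx_add, (lift_lin _ _ 0 _ _ x).1, Finset.sum_add_distrib, Pi.add_apply]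
  map_smul' c v := funext fun x => by
    simp only [jx_smul, (lift_lin _ _ c _ 0 x).2, Finset.mul_sum, Pi.smul_apply, smul_eq_mul,
      RingHom.id_apply]

/-- the ambient function of the data -/
def ev' : L.Y' Z →ₗ[ℂ] (E3 → ℂ) where
  toFun g x := ∑ e, M.lift e (fun y => kp M e y * fy g e y) x
  map_add' v v' := funext fun x => by
    simp only [fy_add, (lift_lin _ _ 0 _ _ x).1, Finset.sum_add_distrib, Pi.add_apply]
  map_smul' c v := funext fun x => by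
    simp only [fy_smul, (lift_lin _ _ c _ 0 x).2, Finset.mul_sum, Pi.smul_apply, smul_eq_mul,
      RingHom.id_apply]

/-- the low modes on the inner boundary -/
def gam : L.X' Z →L[ℂ] (Fin M.n₁ × Fin 3 → ℂ) :=
  .pi fun i => .proj i.2 ∘L low L.z₀ ∘L .proj (φ := fun _ => WI L.z₀ (Z i.1)) (0 : Fin 6) ∘L
    (XE L.z₀ (Z i.1)).subtypeL ∘L .proj (φ := fun j => XE L.z₀ (Z j)) i.1 ∘L .fst ℂ _ _

theorem gam_apply (v : L.X' Z) (i) : L.gam Z v i = low L.z₀ ((v.1 i.1).1 0) i.2 := rfl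

/-- the cut-off function of the near zone -/
def chn (z : ℝ) : ℝ := 1 - Real.smoothTransition (z - (L.ρ + 5))

/-- functions of `(z, θ)` on the ends as data with zero boundary rows -/
def toY (F : M.I → ℝ × ℝ → ℂ) : L.Y' Z :=
  (fun j => (toW (Icc L.z₀ (Z j)) (cl L.z₀ (Z j)) (F (.inl j)), 0),
    fun l => toW (Ici L.z₀) (max L.z₀) (F (.inr l)))

/-- an ambient function in the near zone as a datum -/
def inj : C1a 3 β₀ →L[ℂ] L.Y' Z :=
  toL fun f => L.toY Z fun e y => L.chn y.1 * f1 f (M.P e y) / kp M e y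

/-- the operator on a conical end -/
def TS (l : Fin M.n₂) : XK L.z₀ →L[ℂ] W (max L.z₀) :=
  toL fun J => toW (Ici L.z₀) (max L.z₀) fun y => DK M l y fun i => J.1 i y

/-- the linearisation on a cylindrical end at the background with jet `V` -/
def TC (Z : ℝ) (V : Fin 6 → ℝ × ℝ → ℂ) : XE L.z₀ Z →L[ℂ] YE L.z₀ Z :=
  toL fun J => (toW (Icc L.z₀ Z) (cl L.z₀ Z) fun y =>
    fderiv ℂ (vJ 1 y.1) (fun i => V i y) fun i => J.1 i y, low Z (J.1 3))

/-- **the end data** -/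
@[reducible] def ends (T : ∀ j, XE L.z₀ (Z j) →L[ℂ] YE L.z₀ (Z j)) :
    EndD 3 (Fin M.n₁ × Fin 3) β₀ where
  X := L.X' Z
  Y := L.Y' Z
  T := (ContinuousLinearMap.pi fun j => T j ∘L .proj j).prodMap
    (ContinuousLinearMap.pi fun l => L.TS l ∘L .proj l)
  ev := L.ev Z
  ev' := L.ev' Z
  γ := L.gam Z
  inj := L.inj Z

/-- what is used of a truncated cylindrical end -/
structure CylOk (j : Fin M.n₁) (Z : ℝ) (T : XE L.z₀ Z →L[ℂ] YE L.z₀ Z)
    (p : Seminorm ℂ (XE L.z₀ Z)) (p' : Seminorm ℂ (YE L.z₀ Z)) (C δ R : ℝ) : Prop where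
  le : R + 1 ≤ Z
  ex : Eqv p
  ey : Eqv p'
  surj : Function.Surjective T
  apr : ∀ v, p v ≤ C * p' (T v)
  jet : ∀ v i, ∀ y : ℝ × ℝ, y.1 ∈ Icc L.z₀ R → ‖v.1 i y‖ ≤ C * y.1 ^ 5 * p v
  eqn : ∀ v, ∀ y : ℝ × ℝ, y.1 ∈ Icc L.z₀ R →
    ‖(T v).1 y - DL M (.inl j) y fun i => v.1 i y‖ ≤ δ * p v
  dat : ∀ g, ∀ y : ℝ × ℝ, y.1 ∈ Icc L.z₀ R → ‖g.1 y‖ ≤ C * y.1 ^ 5 * p' g
  inj : ∀ G : WI L.z₀ Z, (∀ z θ, L.ρ + 6 ≤ z → G (z, θ) = 0) → p' (G, 0) ≤ C * ‖G‖
  in0 : ∀ v (G : WI L.z₀ Z), (∀ z θ, L.ρ + 6 ≤ z → G (z, θ) = 0) → ∀ z ∈ Icc (L.ρ + 6) R,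
    ‖co (v.1 0) 0 z‖ ≤ C * z ^ 2 * (z ^ (-3 / 2 : ℝ) + δ) * (p' (T v + (G, 0)) + p v)
  in1 : ∀ v (l : ℤ), |l| = 1 → ∀ z ∈ Icc L.z₀ R, ‖co (v.1 0) l z‖ ≤ C * z ^ (13 / 16 : ℝ) * p v

/-- what is used of a conical end -/
structure ConeOk (l : Fin M.n₂) (C : ℝ) : Prop where
  eqn : ∀ J, ∀ y : ℝ × ℝ, L.z₀ ≤ y.1 → L.TS l J y = DK M l y fun i => J.1 i y
  surj : Function.Surjective (L.TS l)
  apr : ∀ J, ‖J‖ ≤ C * ‖L.TS l J‖

end LD

/-! ### the natural and the heavy seminorms of a cylindrical end -/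

/-- natural, unknowns -/
def pN (c : ℂ) (R Z : ℝ) : Seminorm ℂ (XE R Z) :=
  P218W.MP.xe (fun z => (rh c z).re) (fun z => gO c Z z + (rh c z).re) (wK (31 / 16) c) c R Z

/-- natural, data -/
def qN (c : ℂ) (R Z : ℝ) : Seminorm ℂ (YE R Z) :=
  yn (gO c Z) (gW (wK (31 / 16) c) c Z) (Z * wO c Z) (Z * wK (31 / 16) c Z)

/-- heavy, unknowns -/
def pH (c : ℂ) (R Z : ℝ) : Seminorm ℂ (XE R Z) :=
  P218W.MP.xe (fun z => hv c z * (rh c z).re) (fun z => hv c z * (gO c Z z + (rh c z).re))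
    (wK (19 / 32) c) c R Z

/-- heavy, data -/
def qH (c : ℂ) (R Z : ℝ) : Seminorm ℂ (YE R Z) :=
  yn (fun z => hv c z * gO c Z z) (gW (wK (19 / 32) c) c Z) (hv c Z * (Z * wO c Z))
    (Z * wK (19 / 32) c Z)

end Vale.Agent.P218L
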