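import Vale.Agent.P218L.Spec
import Vale.Agent.P218C.Cyl

/-!
# P218, the linear half of INST, row SDEC: the rate of decay on a cylindrical end
-/

open Set Filter Topology
open scoped ContDiff

noncomputable section

namespace Vale.Agent.P218L

open Vale.Agent.P218T Vale.Agent.P218M Vale.Agent.P218W

namespace Sdec

variable {s : Set ℝ} {F : ℝ × ℝ → ℂ} {o : ℝ → ℝ} {M R : ℝ}

/-- the limit `ε → 0` in the weight -/
theorem le_of_eps (w0 : ∀ z ∈ s, 0 < o z) (h : ∀ ε > 0, Le s F (fun z => o z + ε) M) :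
    Le s F o M := by
  have h1 := h 1 one_pos
  rcases s.eq_empty_or_nonempty with rfl | hs
  · exact h1.mono subset_rfl (fun _ hz => hz.elim) le_rfl
  have := hs.to_subtype
  have key : ∀ (t : Finset ℤ) (z : ℤ → s),
      16 * ∑ k ∈ t, (1 + (k : ℝ) ^ 2) * (‖co F k (z k)‖ / o (z k)) ^ 2 ≤ M ^ 2 := fun t z => by
    have l : Tendsto (fun ε : ℝ => 16 * ∑ k ∈ t, (1 + (k : ℝ) ^ 2) *
        (‖co F k (z k)‖ / (o (z k) + ε)) ^ 2) (𝓝[>] 0) (𝓝 (16 * ∑ k ∈ t, (1 + (k : ℝ) ^ 2) *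
          (‖co F k (z k)‖ / (o (z k) + 0)) ^ 2)) :=
      Tendsto.mono_left ((tendsto_finsetSum _ fun k _ => ((tendsto_const_nhds.div
        (tendsto_const_nhds.add tendsto_id) (by simpa using (w0 _ (z k).2).ne')).pow 2).const_mul
          _).const_mul _) nhdsWithin_le_nhds
    simp only [add_zero] at l
    refine le_of_tendsto l (eventually_mem_nhdsWithin.mono fun ε (hε : 0 < ε) => ?_)
    obtain ⟨a, ha, e⟩ := (h ε hε).ex
    refine le_trans ?_ (ha.le t)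
    have := fun k => add_pos (w0 _ (z k).2) hε
    gcongr with k
    · exact div_nonneg (norm_nonneg _) (this k).le
    · exact (div_le_iff₀ (this k)).2 (e k _ (z k).2)
  have bd : ∀ k, BddAbove (range fun z : s => ‖co F k z‖ / o z) := fun k => ⟨M, by
    rintro _ ⟨z, rfl⟩
    have := key {k} fun _ => z
    rw [Finset.sum_singleton] at this
    exact (abs_le_of_sq_le_sq' (by nlinarith [sq_nonneg (‖co F k z‖ / o z), sq_nonneg (k : ℝ)])
      h1.M0).2⟩
  refine ⟨h1.adm, fun z hz => (w0 z hz).le, fun k => ⨆ z : s, ‖co F k z‖ / o z,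
    ⟨h1.M0, fun k => Real.iSup_nonneg fun z => div_nonneg (norm_nonneg _) (w0 _ z.2).le,
      fun t => ?_⟩, fun k z hz => (div_le_iff₀ (w0 z hz)).1 (le_ciSup (bd k) ⟨z, hz⟩)⟩
  choose u _ hu hm using fun k => exists_seq_tendsto_sSup (range_nonempty _) (bd k)
  choose z hz using hm
  exact le_of_tendsto' ((tendsto_finsetSum t fun k _ =>
    ((hu k).pow 2).const_mul (1 + (k : ℝ) ^ 2)).const_mul 16) fun n => by
      simpa only [hz] using key t fun k => z k n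

theorem ex_cut (R : ℝ) : ∃ c c₁ c₂ : ℝ → ℂ, (∀ z, HasDerivAt c (c₁ z) z) ∧
    (∀ z, HasDerivAt c₁ (c₂ z) z) ∧ Continuous c₂ ∧ c R = 0 ∧ (∀ z, ‖c z‖ ≤ 1) ∧
    ∀ z, R + 2 ≤ z → c z = 1 ∧ c₁ z = 0 ∧ c₂ z = 0 := by
  have h : ContDiff ℝ ∞ fun z : ℝ => (Real.smoothTransition (z - R) : ℂ) :=
    Complex.ofRealCLM.contDiff.comp
      (Real.smoothTransition.contDiff.comp (contDiff_id.sub contDiff_const))
  have h1 := contDiff_infty_iff_deriv.1 h
  have h2 := contDiff_infty_iff_deriv.1 h1.2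
  refine ⟨_, _, _, fun z => (h1.1 z).hasDerivAt, fun z => (h2.1 z).hasDerivAt, h2.2.continuous,
    by simp, fun z => ?_, fun z hz => ?_⟩
  · rw [Complex.norm_real, Real.norm_of_nonneg (Real.smoothTransition.nonneg _)]
    exact Real.smoothTransition.le_one _
  · have e : (fun z : ℝ => (Real.smoothTransition (z - R) : ℂ)) =ᶠ[𝓝 z] fun _ => 1 :=
      mem_of_superset (Ioi_mem_nhds (show R + 1 < z by linarith)) fun t (ht : R + 1 < t) => by
        exact congrArg Complex.ofReal (Real.smoothTransition.one_of_one_le (by linarith))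
    exact ⟨e.eq_of_nhds, by simp [e.deriv_eq], by simp [e.deriv.deriv_eq]⟩

/-- bounded in `W` -/
def Bd (R : ℝ) (o : ℝ → ℝ) (F : ℝ × ℝ → ℂ) : Prop := ∃ M, Le (Ici R) F o M

theorem Bd.add {G : ℝ × ℝ → ℂ} (h : Bd R o F) (k : Bd R o G) : Bd R o fun p => F p + G p :=
  ⟨_, h.choose_spec.add k.choose_spec⟩

theorem Bd.mul {G : ℝ × ℝ → ℂ} (h : Bd R (fun _ => 1) F) (k : Bd R o G) :
    Bd R o fun p => F p * G p := ⟨_, h.choose_spec.mul1 k.choose_spec⟩

theorem Bd.cut {φ : ℝ → ℂ} (h : Bd R (fun _ => 1) F) (hφ : Continuous φ)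
    (h0 : ∀ z, R + 2 ≤ z → φ z = 0) (c : ContinuousOn o (Ici R)) (p : ∀ z ∈ Ici R, 0 < o z) :
    Bd R o fun p => φ p.1 * F p := by
  obtain ⟨B, hB⟩ := (isCompact_Icc (a := R) (b := R + 2)).exists_bound_of_continuousOn
    (hφ.norm.continuousOn.div (c.mono Icc_subset_Ici_self) fun z hz => (p z hz.1).ne')
  refine ⟨_, h.choose_spec.mulz (abs_nonneg B) (fun z hz => (p z hz).le) fun z hz => ?_⟩
  rcases le_total z (R + 2) with h1 | h1
  · rw [mul_one, ← div_le_iff₀ (p z hz)]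
    exact (le_abs_self _).trans ((hB z ⟨hz, h1⟩).trans (le_abs_self _))
  · rw [h0 z h1, norm_zero, zero_mul]
    exact mul_nonneg (abs_nonneg _) (p z hz).le

theorem omH_eq (w : ℝ → ℝ) (i : Fin 6) (z : ℝ) : omH w i z = w z * omH (fun _ => 1) i z := by
  fin_cases i <;> simp [omH, div_eq_mul_inv]

theorem om_le (h : 1 ≤ R) (i : Fin 6) {z : ℝ} (hz : z ∈ Ici R) : omH (fun _ => 1) i z ≤ 1 := by
  fin_cases i
  exacts [le_rfl, le_rfl, le_rfl, div_le_self zero_le_one (h.trans hz), le_rfl, le_rfl]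

theorem jet_cont (h : ContDiff ℝ ∞ F) (i : Fin 6) : Continuous (jet F i) := by
  have h1 := h.fderiv_right (m := ∞) le_rfl
  have h2 := (h1.fderiv_right (m := ∞) le_rfl).continuous
  have h3 := h1.continuous
  fin_cases i
  exacts [h.continuous, h3.clm_apply continuous_const,
    (h2.clm_apply continuous_const).clm_apply continuous_const, h3.clm_apply continuous_const,
    (h2.clm_apply continuous_const).clm_apply continuous_const,
    (h2.clm_apply continuous_const).clm_apply continuous_const]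

theorem jet_sub (F : ℝ × ℝ → ℂ) (i : Fin 6) (y : ℝ × ℝ) :
    jet F i y = ![2, 0, 0, 0, 0, 0] i + jet (fun y => F y - 2) i y := by
  have e : fderiv ℝ (fun y => F y - 2) = fderiv ℝ F := funext fun _ => fderiv_sub_const _
  fin_cases i <;> simp [jet, e]

/-- the jet of `c u` -/
def lb (c c₁ c₂ : ℝ → ℂ) (J : Fin 6 → ℝ × ℝ → ℂ) (i : Fin 6) (p : ℝ × ℝ) : ℂ :=
  c p.1 * J i p + (c₁ p.1 * ![0, 0, 0, J 0 p, J 1 p, 2 * J 3 p] i +
    c₂ p.1 * ![0, 0, 0, 0, 0, J 0 p] i)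

theorem lb_jet {c c₁ c₂ : ℝ → ℂ} {J : Fin 6 → ℝ × ℝ → ℂ} (d : ∀ z, HasDerivAt c (c₁ z) z)
    (d₁ : ∀ z, HasDerivAt c₁ (c₂ z) z) (h : Jet s J) : Jet s (lb c c₁ c₂ J) := by
  have a : Der (interior s) _ _ _ := der_z fun z _ => d z
  have b : Der (interior s) _ _ _ := der_z fun z _ => d₁ z
  refine ⟨(a.mul h.d0).congr isOpen_interior ?_ ?_ ?_, (a.mul h.d1).congr isOpen_interior ?_ ?_ ?_,
    ((a.mul h.d3).add (b.mul h.d0)).congr isOpen_interior ?_ ?_ ?_⟩ <;> intro z _ θ <;>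
    simp [lb] <;> ring

/-- the estimate for solutions of a small perturbation of the model equation -/
theorem est {D a η : ℝ} {J m : Fin 6 → ℝ × ℝ → ℂ} (R1 : 1 ≤ R) (D0 : 0 < D)
    (hh : ∀ ε, 0 < ε → ∀ P : XH R (wH a ε) →L[ℂ] W (max R), ‖P‖ ≤ 1 / (2 * D) →
      ∀ X, ‖X‖ ≤ 2 * D * ‖(TH R (wH a ε) + P) X‖) (hη : 6 * η ≤ 1 / (2 * D))
    (hJ : Jet (Ici R) J) (cJ : ∀ i, Continuous (J i)) (bJ : ∀ i, Bd R (fun _ => 1) (J i))
    (b3 : Bd R (fun _ => 1) fun p => p.1 * J 3 p)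
    (hm : ∀ i, Le (Ici R) (m i) (fun _ => 1) η ∧ ContinuousOn (m i) (Ici R ×ˢ univ))
    (eq : ∀ y : ℝ × ℝ, y.1 ∈ Ici R →
      J 5 y - y.1 / 2 * J 3 y + J 0 y + J 2 y / 2 + ∑ i, m i y * J i y = 0) :
    ∃ K, (∀ i, Le (Ici (R + 2)) (J i) (fun z => z ^ (-a)) K) ∧
      Le (Ici (R + 2)) (fun p => p.1 * J 3 p) (fun z => z ^ (-a)) K := by
  obtain ⟨c, c₁, c₂, d, d₁, k₂, cR, cb, c2⟩ := ex_cut R
  have k : Continuous c := continuous_iff_continuousAt.2 fun z => (d z).continuousAt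
  have k₁ : Continuous c₁ := continuous_iff_continuousAt.2 fun z => (d₁ z).continuousAt
  have R0 := one_pos.trans_le R1
  have r := ret_max R
  have oc := omH_cont (w := fun _ => 1) R0 continuousOn_const
  have op := fun i z => omH_pos (w := fun _ => 1) R0 (fun _ _ => one_pos) i (z := z)
  have bm : ∀ i, Bd R (fun _ => 1) (m i) := fun i => ⟨_, (hm i).1⟩
  have two : ∀ {F}, Bd R (fun _ => 1) F → ∀ x : ℂ, Bd R (fun _ => 1) fun p => x * F p :=
    fun h x => ⟨_, h.choose_spec.cmul x⟩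
  have z0 : Bd R (fun _ => 1) fun _ => 0 := ⟨_, le_zero (by simp)⟩
  have pw : ∀ z ∈ Ici R, 0 < z ^ (-a) := fun z hz => Real.rpow_pos_of_pos (R0.trans_le hz) _
  have cw : ContinuousOn (fun z : ℝ => z ^ (-a)) (Ici R) :=
    continuousOn_id.rpow_const fun _ hz => .inl (R0.trans_le hz).ne'
  have bv : ∀ i, Bd R (omH (fun _ => 1) i) (lb c c₁ c₂ J i) := fun i => by
    refine Bd.add (Bd.mul ⟨_, le_z zero_le_one (by simp) (by simpa using fun z _ => cb z)⟩ ?_)
      (Bd.add (Bd.cut ?_ k₁ (fun z hz => (c2 z hz).2.1) (oc i) (op i))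
        (Bd.cut ?_ k₂ (fun z hz => (c2 z hz).2.2) (oc i) (op i)))
    · fin_cases i
      exacts [bJ 0, bJ 1, bJ 2, ⟨_, (b3.choose_spec.mulz (φ := fun z => (z : ℂ)⁻¹) zero_le_one
        (fun z hz => (op 3 z hz).le) fun z hz => by
          simp [omH, abs_of_pos (R0.trans_le hz)]).congr fun z hz θ => (inv_mul_cancel_left₀
            (Complex.ofReal_ne_zero.2 (R0.trans_le hz).ne') _).symm⟩, bJ 4, bJ 5]
    · fin_cases i
      exacts [z0, z0, z0, bJ 0, bJ 1, two (bJ 3) 2]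
    · fin_cases i
      exacts [z0, z0, z0, z0, z0, bJ 0]
  have cv : ∀ i, Continuous (lb c c₁ c₂ J i) := fun i => by
    have := cJ 0; have := cJ 1; have := cJ 3; have := cJ i
    unfold lb
    fin_cases i <;> simp <;> fun_prop
  obtain ⟨K, hK⟩ := (((two (bJ 3) 2).add (((bm 3).mul (bJ 0)).add (((bm 4).mul (bJ 1)).add
    ((bm 5).mul (two (bJ 3) 2))))).cut k₁ (fun z hz => (c2 z hz).2.1) cw pw).add
    ((((bJ 0).add ((bm 5).mul (bJ 0))).cut k₂ (fun z hz => (c2 z hz).2.2) cw pw).add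
      ((two (bJ 0) (-1 / 2)).cut (φ := fun z => z * c₁ z) (by fun_prop)
        (fun z hz => by rw [(c2 z hz).2.1, mul_zero]) cw pw))
  have lm : ∀ i, Le (Ici R) (fun p => (omH (fun _ => 1) i p.1 : ℂ) * m i p) (fun _ => 1) η :=
    fun i => by
    have q : Le (Ici R) (fun p => (omH (fun _ => 1) i p.1 : ℂ) * m i p) (fun _ => 1) (1 * η) :=
      (hm i).1.mulz (φ := fun z => (omH (fun _ => 1) i z : ℂ))
        zero_le_one (by simp) fun z hz => by simpa [abs_of_pos (op i z hz)] using om_le R1 i hz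
    simpa using q
  have cz : ∀ {φ : ℝ → ℝ}, ContinuousOn φ (Ici R) →
      ContinuousOn (fun p : ℝ × ℝ => (φ p.1 : ℂ)) (Ici R ×ˢ univ) := fun h =>
    Complex.continuous_ofReal.comp_continuousOn (h.comp continuousOn_fst fun _ hp => hp.1)
  have em := fun i z hz θ => r.toW_apply ((cz (oc i)).mul (hm i).2) (lm i) (z := z) hz θ
  generalize hμ : (fun i => toW (Ici R) (max R)
    fun p => (omH (fun _ => 1) i p.1 : ℂ) * m i p) = μ
  have eμ : ∀ i, ∀ z ∈ Ici R, ∀ θ, μ i (z, θ) = omH (fun _ => 1) i z * m i (z, θ) := hμ ▸ em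
  have nμ : ∀ i, ‖μ i‖ ≤ η := fun i => r.norm_le ((lm i).congr (eμ i))
  have main : ∀ ε > 0, ∃ X : Fin 6 → W (max R), ‖X‖ ≤ 2 * D * (1 * K) ∧ ∀ i, ∀ z ∈ Ici R, ∀ θ,
      wj (omH (wH a ε)) X i (z, θ) = lb c c₁ c₂ J i (z, θ) := fun ε hε => by
    have p := wH_pos (a := a) R0 hε.le
    have po := fun i z => omH_pos R0 p i (z := z)
    have ne : ∀ i, ∀ z ∈ Ici R, (omH (wH a ε) i z : ℂ) ≠ 0 := fun i z hz =>
      Complex.ofReal_ne_zero.2 (po i z hz).ne'
    have eX : ∀ i, ∀ z ∈ Ici R, ∀ θ, wj (omH (wH a ε)) (fun i => toW (Ici R) (max R) fun p =>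
        (omH (wH a ε) i p.1 : ℂ)⁻¹ * lb c c₁ c₂ J i p) i (z, θ) = lb c c₁ c₂ J i (z, θ) :=
      fun i z hz θ => by
      rw [wj, r.toW_apply (F := fun p => (omH (wH a ε) i p.1 : ℂ)⁻¹ * lb c c₁ c₂ J i p) (((cz (omH_cont R0 (wH_cont R0) i)).inv₀ fun p hp => ne i _ hp.1).mul
        (cv i).continuousOn) ((bv i).choose_spec.mulz (φ := fun z => (omH (wH a ε) i z : ℂ)⁻¹)
          (inv_pos.2 hε).le (by simp) fun z hz => ?_) hz, mul_inv_cancel_left₀ (ne i z hz)]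
      rw [norm_inv, Complex.norm_real, Real.norm_of_nonneg (po i z hz).le, omH_eq, mul_inv,
        inv_mul_cancel_right₀ (op i z hz).ne', mul_one]
      exact inv_anti₀ hε (le_add_of_nonneg_left (pw z hz).le)
    generalize (fun i => toW (Ici R) (max R) fun p =>
      (omH (wH a ε) i p.1 : ℂ)⁻¹ * lb c c₁ c₂ J i p) = X at eX
    refine ⟨X, ?_, eX⟩
    let X' : XH R (wH a ε) := ⟨X, (lb_jet d d₁ hJ).congr eX, fun k _ => by
      refine (co_congr (G := fun _ => 0) (fun θ => ?_) k).trans (map_zero (W.coL (r := id) k R))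
      have := eX 0 R self_mem_Ici θ
      simpa [wj, lb, cR, ne 0 R self_mem_Ici] using this⟩
    let P : XH R (wH a ε) →L[ℂ] W (max R) := ∑ i, ContinuousLinearMap.mul ℂ _ (μ i) ∘L
      .proj i ∘L (XH R (wH a ε)).subtypeL
    have eP : ∀ Y, P Y = ∑ i, μ i * Y.1 i := fun Y => by simp [P]
    refine (hh ε hε P (ContinuousLinearMap.opNorm_le_bound _ (by positivity) fun Y => ?_) X').trans
      (mul_le_mul_of_nonneg_left (r.norm_le ((hK.mulz (φ := fun z => (wH a ε z : ℂ)⁻¹) zero_le_one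
        (by simp) fun z hz => ?_).congr fun z hz θ => ?_)) (by positivity))
    · rw [eP]
      refine (norm_sum_le _ _).trans ((Finset.sum_le_card_nsmul _ _ (η * ‖Y‖) fun i _ =>
        (norm_mul_le _ _).trans (mul_le_mul (nμ i) (norm_le_pi_norm Y.1 i) (norm_nonneg _)
          (lm i).M0)).trans ?_)
      simpa [← mul_assoc] using mul_le_mul_of_nonneg_right hη (norm_nonneg Y)
    · rw [norm_inv, Complex.norm_real, Real.norm_of_nonneg (p z hz).le, mul_one,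
        inv_mul_le_one₀ (p z hz)]
      exact le_add_of_nonneg_right hε.le
    · have e := fun i => eX i z hz θ
      have zz : (z : ℂ) * (z : ℂ)⁻¹ = 1 :=
        mul_inv_cancel₀ (Complex.ofReal_ne_zero.2 (R0.trans_le hz).ne')
      have q := eq (z, θ) hz
      have e0 := e 0; have e1 := e 1; have e2 := e 2; have e3 := e 3; have e4 := e 4
      have e5 := e 5
      rw [eq_inv_mul_iff_mul_eq₀ (Complex.ofReal_ne_zero.2 (p z hz).ne'),
        _root_.add_apply, eP, TH_apply, LHW_apply]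
      simp [wj, lb, omH, Fin.sum_univ_six, eμ _ z hz, X', div_eq_mul_inv] at e0 e1 e2 e3 e4 e5 q ⊢
      linear_combination e5 - z / 2 * e3 + e0 + 1 / 2 * e2 + m 0 (z, θ) * e0 + m 1 (z, θ) * e1 +
        m 2 (z, θ) * e2 + m 3 (z, θ) * e3 + m 4 (z, θ) * e4 + m 5 (z, θ) * e5 + c z * q +
        1 / 2 * wH a ε z * X 3 (z, θ) * zz
  have sub : Ici (R + 2) ⊆ Ici R := Ici_subset_Ici.2 (by linarith)
  have el : ∀ i, ∀ z ∈ Ici (R + 2), ∀ θ, lb c c₁ c₂ J i (z, θ) = J i (z, θ) := fun i z hz θ => by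
    simp [lb, c2 z hz]
  refine ⟨1 * (2 * D * (1 * K)), fun i => le_of_eps (fun z hz => pw z (sub hz)) fun ε hε => ?_,
    le_of_eps (fun z hz => pw z (sub hz)) fun ε hε => ?_⟩ <;> obtain ⟨X, nX, eX⟩ := main ε hε <;>
    have p := fun z hz => wH_pos (a := a) R0 hε.le z (sub hz)
  · refine ((((X i).le_on _).mono subset_rfl (fun _ _ => le_rfl)
      ((norm_le_pi_norm X i).trans nX)).mulz (φ := fun z => (omH (wH a ε) i z : ℂ)) zero_le_one
        (fun z hz => (p z hz).le) fun z hz => ?_).congr fun z hz θ =>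
          (el i z hz θ).symm.trans (eX i z (sub hz) θ).symm
    rw [Complex.norm_real, Real.norm_of_nonneg (omH_pos R0 (wH_pos R0 hε.le) i (sub hz)).le,
      mul_one, one_mul, omH_eq]
    exact mul_le_of_le_one_right (p z hz).le (om_le R1 i (sub hz))
  · refine ((((X 3).le_on _).mono subset_rfl (fun _ _ => le_rfl)
      ((norm_le_pi_norm X 3).trans nX)).mulz (φ := fun z => (wH a ε z : ℂ)) zero_le_one
        (fun z hz => (p z hz).le) fun z hz => ?_).congr fun z hz θ => ?_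
    · rw [Complex.norm_real, Real.norm_of_nonneg (p z hz).le, mul_one, one_mul]
    · have : (z : ℂ) ≠ 0 := Complex.ofReal_ne_zero.2 (R0.trans_le (sub hz)).ne'
      rw [← el 3 z hz θ, ← eX 3 z (sub hz) θ]
      simp only [wj, omH, Matrix.cons_val, Complex.ofReal_div]
      field_simp

end Sdec

open Sdec

theorem sdec (hc : COEF) : SDEC := by
  intro f hf R₁ h0
  obtain ⟨η₀, C, η0, C0, hc⟩ := hc
  obtain ⟨R₀, D, R1, D0, hh⟩ := half
  obtain ⟨sm, h1, h2⟩ := cylw f hf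
  obtain ⟨η, η1, η2, η3⟩ : ∃ η > 0, η ≤ η₀ ∧ 6 * (C * η) ≤ 1 / (2 * D) :=
    ⟨min η₀ (1 / (12 * C * D)), by positivity, min_le_left _ _, by
      refine (mul_le_mul_of_nonneg_left (mul_le_mul_of_nonneg_left (min_le_right _ _) C0.le)
        (by norm_num)).trans_eq ?_
      field_simp
      norm_num⟩
  obtain ⟨R₂, h1⟩ := h1 η η1
  obtain ⟨R₃, h2⟩ := h2 R₁ h0 1 one_pos
  obtain ⟨R, a0, a1, a2, a3⟩ : ∃ R, R₀ ≤ R ∧ R₁ < R ∧ R₂ ≤ R ∧ R₃ ≤ R :=
    ((eventually_ge_atTop _).and ((eventually_gt_atTop _).and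
      ((eventually_ge_atTop _).and (eventually_ge_atTop _)))).exists
  have su : ContDiff ℝ ∞ fun y => VS f y - 2 := sm.sub contDiff_const
  have l := fun i => (h1 i).mono (Ici_subset_Ici.2 a2) (fun _ _ => le_rfl) le_rfl
  obtain ⟨a, m, hm, he⟩ := hc (Ici R) _ _ η η η2 l l fun i => (jet_cont su i).continuousOn
  have e3 : jet (VS f) 3 = jet (fun y => VS f y - 2) 3 := funext fun y => (jet_sub _ 3 y).trans (zero_add _)
  rw [e3] at h2 ⊢
  obtain ⟨K, hK⟩ := est (a := 31 / 16) (R1.trans a0) D0 (fun ε hε P hP =>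
    ((hh R a0 _ ⟨by norm_num, le_rfl⟩ ε hε.le).2.2 P hP).2) η3
    (jet_jet fun p _ => su.contDiffAt.of_le (by norm_cast)) (jet_cont su) (fun i => ⟨_, l i⟩)
    ⟨_, h2.mono (Ici_subset_Ici.2 a3) (fun _ _ => le_rfl) le_rfl⟩
    (fun i => ⟨(hm i).2.1, (hm i).2.2.2.2⟩) fun y hy => (he y hy).2.symm.trans
      ((congrArg _ (funext fun i => (jet_sub _ i y).symm)).trans (h0 y (a1.trans_le hy)))
  exact ⟨R + 2, K, by linarith, by simpa only [neg_div] using hK⟩

end Vale.Agent.P218L
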