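import Vale.Agent.P218L.Spec
import Vale.Agent.P218C.Bd

/-! Rows EQS, QB, LINC. -/

open Set Filter Topology
open scoped ContDiff RealInnerProductSpace Real

noncomputable section

namespace Vale.Agent.P218L

open Vale.Agent.P218T
open Vale.Agent.P218W (jet)

variable {M : Mod} {y : ℝ × ℝ}

/-- **EQS** -/
theorem eqs : EQS := fun _ g => ⟨fun _ _ => g.eq_cyl, fun _ _ => g.eq_con⟩

/-- **QB** -/
theorem qb : QB := fun M g => by
  choose K K1 hK using fun e => (g.ub_qn e).prodMk (g.ub_kn e)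
  obtain ⟨L, hL⟩ := (finite_range K).bddAbove
  have k := fun e => (hL ⟨e, rfl⟩).trans (le_max_right 8 L)
  have l : 8 ≤ max 8 L := le_max_left _ _
  refine ⟨max 8 L, by linarith, fun e => ⟨g.per_qn e, g.per_kn e, fun y hy => ?_⟩,
    fun j y hy => ⟨rfl, (g.abs_qn _ hy).2⟩⟩
  have h := (hK e y hy).mono (k e) (k e) (k e)
  have z := le_mul_of_one_le_right (by linarith : 0 ≤ max 8 L) (one_le_pow₀ (n := 2) (g.pos hy).le)
  exact ⟨g.cd_qn e hy, g.cd_kn e hy, g.kn_ne e hy, (norm_prod_le_iff.1 h.h0).2,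
    (one_div_le_one_div_of_le (by norm_num) l).trans (g.abs_qn e hy).1,
    (h.lin (.fst ℝ ℝ ℝ) (ContinuousLinearMap.norm_fst_le ..)).mono (by simp) (by simpa using z)
      (by simpa using z)⟩

theorem jk_line (z s : ℂ) (a b : Fin 6 → ℂ) : jk z (a + s • b) = jk z a + s • jk z b := by
  funext k
  fin_cases k <;> simp [jk] <;> ring

theorem d_kJ' (g : M.Geo) {l : Fin M.n₂} (hy : M.R < y.1) :
    DifferentiableAt ℂ (kJ (M.γ l) (M.n l) y.2) (jk y.1 fun i => jet (uS (M.g l)) i y) := by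
  refine d_kJ fun h => ?_
  exact pow_ne_zero 2 (Complex.ofReal_ne_zero.2 (g.ori _ y hy).ne')
    ((g.kD_eq (j := l) hy).symm.trans (mul_eq_zero_of_right _ h))

theorem d_vJ' (g : M.Geo) {i : Fin M.n₁} (hy : M.R < y.1) :
    DifferentiableAt ℂ (vJ 1 y.1) fun k => jet (VS (M.f i)) k y :=
  d_vJ (by simpa [jet, ← Mod.Geo.sq_r] using Complex.ofReal_ne_zero.2 (g.r_ne hy)) (g.vD_ne hy)

theorem hd_fd {X : Type*} [NormedAddCommGroup X] [NormedSpace ℂ X] {φ : X → ℂ} {a : X}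
    (h : DifferentiableAt ℂ φ a) (b : X) :
    HasDerivAt (fun s : ℂ => φ (a + s • b)) (fderiv ℂ φ a b) 0 :=
  h.hasFDerivAt.comp_hasDerivAt_of_eq _ (hd_line a b) (by simp)

/-- **LINC** -/
theorem linc : LINC := fun M g e F y hy pF hF => by
  have k0 : (M.kn e y : ℂ) ≠ 0 := Complex.ofReal_ne_zero.2 (g.kn_ne e hy)
  rw [mul_comm, ← div_eq_iff k0]
  have u0 : ∀ a b : Fin 6 → ℂ, (fun s : ℂ => a + s • b) 0 = a := by simp
  rcases e with i | l
  · exact (g.lin_cyl hy pF hF (u0 _ _) (hd_line _ _)).unique (hd_fd (d_vJ' g hy) _)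
  · refine (g.lin_con hy pF hF (u0 _ _) (hd_line _ _)).unique ?_
    simp only [jk_line]
    exact (hd_fd (d_kJ' g hy) _).div_const _

end Vale.Agent.P218L
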