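import Vale.Agent.P218L.Spec

/-! P218, row L.COEF: the operator of a cylindrical end near the cylinder. -/

open Set Filter Topology

noncomputable section

namespace Vale.Agent.P218L

open Vale.Agent.P218T
open Vale.Agent.P218N (vD vv)
open Vale.Agent.P218W (Le le_z le_zero)

namespace Coef

/-- for all continuous jets which are small enough -/
def Ev (P : Set ℝ → (Fin 6 → ℝ × ℝ → ℂ) → ℝ → Prop) : Prop :=
  ∃ η₀ : ℝ, 0 < η₀ ∧ ∀ s J η, η ≤ η₀ → (∀ i, Le s (J i) (fun _ => 1) η) →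
    (∀ i, ContinuousOn (J i) (s ×ˢ univ)) → P s J η

variable {P Q : Set ℝ → (Fin 6 → ℝ × ℝ → ℂ) → ℝ → Prop} {F G : (Fin 6 → ℂ) → ℂ}

theorem Ev.and (h : Ev P) (k : Ev Q) : Ev fun s J η => P s J η ∧ Q s J η := by
  obtain ⟨a, a0, h⟩ := h
  obtain ⟨b, b0, k⟩ := k
  exact ⟨min a b, lt_min a0 b0, fun s J η e u v =>
    ⟨h s J η (e.trans (min_le_left _ _)) u v, k s J η (e.trans (min_le_right _ _)) u v⟩⟩

theorem Ev.mono (h : Ev P) (k : ∀ s J η, (∀ i, Le s (J i) (fun _ => 1) η) → P s J η → Q s J η) :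
    Ev Q := by
  obtain ⟨a, a0, h⟩ := h
  exact ⟨a, a0, fun s J η e u v => k s J η u (h s J η e u v)⟩

theorem ev_le {c : ℝ} (h : 0 < c) : Ev fun _ _ η => η ≤ c := ⟨c, h, fun _ _ _ e _ _ => e⟩

theorem ev_all {ι : Type} [Finite ι] {P : ι → Set ℝ → (Fin 6 → ℝ × ℝ → ℂ) → ℝ → Prop}
    (h : ∀ i, Ev (P i)) : Ev fun s J η => ∀ i, P i s J η := by
  choose a a0 h using h
  obtain ⟨b, b0, hb⟩ : ∃ b : ℝ, 0 < b ∧ ∀ i, b ≤ a i := by
    obtain ⟨b, hb⟩ := (Finite.bddAbove_range fun i => (a i)⁻¹)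
    refine ⟨(max b 1)⁻¹, by positivity, fun i => ?_⟩
    exact inv_le_of_inv_le₀ (a0 i) ((hb ⟨i, rfl⟩).trans (le_max_left _ _))
  exact ⟨b, b0, fun s J η e u v i => h i s J η (e.trans (hb i)) u v⟩

/-- bounded functions of the jet -/
def Bd (F : (Fin 6 → ℂ) → ℂ) : Prop := ∃ C : ℝ, 0 ≤ C ∧ Ev fun s J _ =>
  Le s (fun y => F fun i => J i y) (fun _ => 1) C ∧
    ContinuousOn (fun y => F fun i => J i y) (s ×ˢ univ)

/-- functions which are as small as the jet -/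
def Sm (F : (Fin 6 → ℂ) → ℂ) : Prop := ∃ C : ℝ, 0 ≤ C ∧ Ev fun s J _ =>
  (∀ o K, (∀ i, Le s (J i) o K) → Le s (fun y => F fun i => J i y) o (C * K)) ∧
    ContinuousOn (fun y => F fun i => J i y) (s ×ˢ univ)

theorem Sm.bd (h : Sm F) : Bd F := by
  obtain ⟨C, C0, h⟩ := h
  exact ⟨C, C0, (h.and (ev_le one_pos)).mono fun s J η u h => ⟨(h.1.1 _ _ u).mono subset_rfl
    (fun _ _ => le_rfl) (mul_le_of_le_one_right C0 h.2), h.1.2⟩⟩

theorem sm_co (i : Fin 6) : Sm fun x => x i :=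
  ⟨1, zero_le_one, 1, one_pos, fun _ _ _ _ _ v => ⟨fun _ K h => (one_mul K).symm ▸ h i, v i⟩⟩

theorem bd_co (i : Fin 6) : Bd fun x => x i := (sm_co i).bd

theorem bd_const (c : ℂ) : Bd fun _ => c :=
  ⟨4 * ‖c‖, by positivity, 1, one_pos, fun _ _ _ _ _ _ =>
    ⟨le_z (φ := fun _ => c) (norm_nonneg c) (by simp) (by simp), continuousOn_const⟩⟩

theorem Bd.add (h : Bd F) (k : Bd G) : Bd fun x => F x + G x := by
  obtain ⟨C, C0, h⟩ := h
  obtain ⟨D, D0, k⟩ := k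
  exact ⟨C + D, by positivity, (h.and k).mono fun s J η _ h =>
    ⟨h.1.1.add h.2.1, h.1.2.add h.2.2⟩⟩

theorem Bd.mul (h : Bd F) (k : Bd G) : Bd fun x => F x * G x := by
  obtain ⟨C, C0, h⟩ := h
  obtain ⟨D, D0, k⟩ := k
  exact ⟨C * D, by positivity, (h.and k).mono fun s J η _ h =>
    ⟨h.1.1.mul1 h.2.1, h.1.2.mul h.2.2⟩⟩

theorem Sm.add (h : Sm F) (k : Sm G) : Sm fun x => F x + G x := by
  obtain ⟨C, C0, h⟩ := h
  obtain ⟨D, D0, k⟩ := k
  exact ⟨C + D, by positivity, (h.and k).mono fun s J η _ h =>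
    ⟨fun o K e => (add_mul C D K).symm ▸ (h.1.1 o K e).add (h.2.1 o K e), h.1.2.add h.2.2⟩⟩

theorem Bd.sm (h : Bd F) (k : Sm G) : Sm fun x => F x * G x := by
  obtain ⟨C, C0, h⟩ := h
  obtain ⟨D, D0, k⟩ := k
  exact ⟨C * D, by positivity, (h.and k).mono fun s J η _ h =>
    ⟨fun o K e => (mul_assoc C D K).symm ▸ h.1.1.mul1 (h.2.1 o K e), h.1.2.mul h.2.2⟩⟩

theorem sm_zero : Sm fun _ => 0 := by simpa using (bd_const 0).sm (sm_co 0)

theorem Sm.inv (h : Sm F) {c : ℂ} (hc : 1 ≤ ‖c‖) : Bd (fun x => (c + F x)⁻¹) ∧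
    Ev fun s J _ => ∀ y : ℝ × ℝ, y.1 ∈ s → c + F (fun i => J i y) ≠ 0 := by
  obtain ⟨C, C0, h⟩ := h
  have k : Ev fun s J _ => (Le s (fun y => F fun i => J i y) (fun _ => 1) (1 / 2) ∧
      ContinuousOn (fun y => F fun i => J i y) (s ×ˢ univ)) ∧
      ∀ y : ℝ × ℝ, y.1 ∈ s → c + F (fun i => J i y) ≠ 0 := by
    refine (h.and (ev_le (c := 1 / (2 * (C + 1))) (by positivity))).mono fun s J η u h => ?_
    have b : Le s (fun y => F fun i => J i y) (fun _ => 1) (1 / 2) := by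
      refine (h.1.1 _ _ u).mono subset_rfl (fun _ _ => le_rfl) ?_
      have := (le_div_iff₀ (by positivity)).1 h.2
      nlinarith [(u 0).M0]
    refine ⟨⟨b, h.1.2⟩, fun y hy e => ?_⟩
    have := b.apply hy y.2
    rw [← neg_eq_of_add_eq_zero_right e, norm_neg] at this
    linarith
  refine ⟨⟨5, by norm_num, k.mono fun s J η _ h => ⟨?_, ?_⟩⟩, k.mono fun s J η _ h => h.2⟩
  · exact ((h.1.1.mono subset_rfl (fun _ _ => hc) le_rfl).inv_add (ρ := fun _ => c) le_rfl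
      fun _ _ => norm_pos_iff.1 (one_pos.trans_le hc)).2.mono subset_rfl
        (fun _ _ => inv_le_one_of_one_le₀ hc) le_rfl
  · exact (continuousOn_const.add h.1.2).inv₀ fun y hy => h.2 y hy.1

/-- `1 / V` -/
def iV (x : Fin 6 → ℂ) : ℂ := (2 + x 0)⁻¹

/-- `D - 16` -/
def dD (x : Fin 6 → ℂ) : ℂ := (16 + 4 * x 0) * x 0 + (2 + x 0) * x 3 * x 3 + x 1 * x 1

/-- `1 / D` -/
def iD (x : Fin 6 → ℂ) : ℂ := (16 + dD x)⁻¹

/-- the numerator of the nonlinear terms -/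
def nN (x : Fin 6 → ℂ) : ℂ := (2 + x 0) * x 3 * (x 5 + 2) * x 3 +
  (x 1 * (x 2 * iV x + 4) + 2 * x 3 * x 4) * x 1

/-- the coefficients of the linearisation -/
def aa : Fin 6 → (Fin 6 → ℂ) → ℂ :=
  ![fun x => (-1 * iV x * iV x + x 1 * x 1 * iV x * iV x * iD x) * x 2 +
      -1 * x 3 * (x 5 + 2) * iD x * x 3 + iD x * iD x * (8 * (2 + x 0) + x 3 * x 3) * nN x,
    fun x => (-2 * (x 2 * iV x + 4) * iD x + 2 * iD x * iD x * nN x) * x 1 + -2 * x 4 * iD x * x 3,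
    fun x => -1 / 2 * iV x * x 0 + -1 * x 1 * iV x * iD x * x 1,
    fun x => (-2 * (2 + x 0) * (x 5 + 2) * iD x + 2 * (2 + x 0) * iD x * iD x * nN x) * x 3 +
      -2 * x 4 * iD x * x 1,
    fun x => -2 * x 3 * iD x * x 1,
    fun x => -1 * (2 + x 0) * x 3 * iD x * x 3]

/-- the coefficients of the operator -/
def mm : Fin 6 → (Fin 6 → ℂ) → ℂ :=
  ![fun _ => 0, fun x => -1 * (x 2 * iV x + 4) * iD x * x 1, fun x => -1 / 2 * iV x * x 0,
    fun x => -1 * (2 + x 0) * (x 5 + 2) * iD x * x 3 + -2 * x 4 * iD x * x 1, fun _ => 0,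
    fun _ => 0]

theorem sm_dD : Sm dD := by
  unfold dD
  refine (Sm.add (Bd.sm ?_ (sm_co _)) (Bd.sm ?_ (sm_co _))).add (Bd.sm ?_ (sm_co _)) <;>
  repeat' first | exact bd_const _ | exact bd_co _ | apply Bd.add | apply Bd.mul

theorem bd_iV : Bd iV := ((sm_co 0).inv (by simp)).1

theorem bd_iD : Bd iD := (sm_dD.inv (by simp)).1

theorem sm_nN : Sm nN := by
  unfold nN
  refine (Bd.sm ?_ (sm_co _)).add (Bd.sm ?_ (sm_co _)) <;>
  repeat' first | exact bd_const _ | exact bd_co _ | exact bd_iV | apply Bd.add | apply Bd.mul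

theorem sm_aa (i : Fin 6) : Sm (aa i) := by
  fin_cases i <;> simp only [aa, Fin.reduceFinMk, Matrix.cons_val] <;>
  repeat' first
    | exact bd_const _ | exact bd_co _ | exact bd_iV | exact bd_iD | exact sm_nN.bd
    | apply Bd.add | apply Bd.mul | exact sm_co _ | exact sm_nN | apply Sm.add | apply Bd.sm

theorem sm_mm (i : Fin 6) : Sm (mm i) := by
  fin_cases i <;> simp only [mm, Fin.reduceFinMk, Matrix.cons_val] <;>
  repeat' first
    | exact bd_const _ | exact bd_co _ | exact bd_iV | exact bd_iD | exact sm_zero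
    | apply Bd.add | apply Bd.mul | exact sm_co _ | apply Sm.add | apply Bd.sm

theorem vD_eq (x : Fin 6 → ℂ) : vD (2 + x 0) (x 3) (x 1) = 16 + dD x := by
  unfold vD dD
  ring

theorem val (z : ℂ) (x : Fin 6 → ℂ) (h : 2 + x 0 ≠ 0) :
    vJ 1 z (fun i => ![2, 0, 0, 0, 0, 0] i + x i) =
      x 5 - z / 2 * x 3 + x 0 + x 2 / 2 + ∑ i, mm i x * x i := by
  simp only [vJ, vv, mm, Fin.sum_univ_six, Matrix.cons_val, zero_add, vD_eq, div_eq_mul_inv, iD]
  rw [show (2 + x 0)⁻¹ = iV x from rfl]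
  have e : (2 + x 0) * iV x = 1 := mul_inv_cancel₀ h
  linear_combination x 2 / 2 * e

theorem der (z : ℂ) (x H : Fin 6 → ℂ) (h : 2 + x 0 ≠ 0) (hD : 16 + dD x ≠ 0) :
    fderiv ℂ (vJ 1 z) (fun i => ![2, 0, 0, 0, 0, 0] i + x i) H =
      H 5 - z / 2 * H 3 + H 0 + H 2 / 2 + ∑ i, aa i x * H i := by
  set X : Fin 6 → ℂ := fun i => ![2, 0, 0, 0, 0, 0] i + x i with hX
  have e0 : X 0 = 2 + x 0 := by simp [hX]
  have e : ∀ i, i ≠ 0 → X i = x i := fun i hi => by fin_cases i <;> simp [hX] at hi ⊢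
  have h0 : X 0 ≠ 0 := e0 ▸ h
  have h1 : vD (X 0) (X 3) (X 1) ≠ 0 := by rwa [e0, e 3 (by simp), e 1 (by simp), vD_eq]
  have l : ∀ i, HasDerivAt (fun s : ℂ => (X + s • H) i) (H i) 0 :=
    hasDerivAt_pi.1 (hd_line X H)
  have k1 := (d_vJ (t := 1) (z := z) h0 h1).hasFDerivAt.comp_hasDerivAt_of_eq 0 (hd_line X H)
    (by simp)
  have q := (l 2).fun_div (l 0) (by simpa using h0)
  have k2 := ((((((l 0).fun_sub (((l 3).const_mul z).div_const 2)).const_mul 1).fun_add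
    (l 5)).sub_const 2).fun_add q).fun_sub ((((((l 0).fun_mul ((l 3).fun_pow 2)).fun_mul
      ((l 5).add_const 2)).fun_add (((l 1).fun_pow 2).fun_mul (q.add_const 4))).fun_add
        ((((l 3).const_mul 2).fun_mul (l 1)).fun_mul (l 4))).fun_div
          (((((l 0).fun_pow 2).const_mul 4).fun_add ((l 0).fun_mul ((l 3).fun_pow 2))).fun_add
            ((l 1).fun_pow 2)) (by simpa [vD] using h1))
  rw [k1.unique k2]
  have h2 : 4 * (2 + x 0) ^ 2 + (2 + x 0) * x 3 ^ 2 + x 1 ^ 2 = 16 + dD x := vD_eq x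
  simp only [zero_smul, add_zero, e0, e 1 (by simp), e 2 (by simp), e 3 (by simp), e 4 (by simp),
    e 5 (by simp), h2, aa, Fin.sum_univ_six, Matrix.cons_val, nN, iV, iD]
  generalize 16 + dD x = D at hD
  field_simp
  ring

end Coef

open Coef in
theorem coef : COEF := by
  choose A A0 hA using sm_aa
  choose B B0 hB using sm_mm
  obtain ⟨C, hC⟩ := Finite.bddAbove_range fun i => A i + B i
  have hC' : ∀ i, A i ≤ C + 1 ∧ B i ≤ C + 1 := fun i => by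
    have : A i + B i ≤ C := hC ⟨i, rfl⟩
    constructor <;> linarith [A0 i, B0 i]
  obtain ⟨η₀, p, h⟩ := ((ev_all hA).and (ev_all hB)).and
    (((sm_co 0).inv (c := 2) (by simp)).2.and (sm_dD.inv (c := 16) (by simp)).2)
  refine ⟨η₀, C + 1, p, ?_, fun s J o η K e u v w => ?_⟩
  · have : A 0 + B 0 ≤ C := hC ⟨0, rfl⟩
    linarith [A0 0, B0 0]
  obtain ⟨⟨h1, h2⟩, h3, h4⟩ := h s J η e u w
  refine ⟨fun i y => aa i fun k => J k y, fun i y => mm i fun k => J k y, fun i =>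
    ⟨?_, ?_, ?_, (h1 i).2, (h2 i).2⟩, fun y hy =>
      ⟨fun H => der _ _ H (h3 y hy) (h4 y hy), val _ _ (h3 y hy)⟩⟩
  · exact ((h1 i).1 _ _ u).mono subset_rfl (fun _ _ => le_rfl)
      (mul_le_mul_of_nonneg_right (hC' i).1 (u 0).M0)
  · exact ((h2 i).1 _ _ u).mono subset_rfl (fun _ _ => le_rfl)
      (mul_le_mul_of_nonneg_right (hC' i).2 (u 0).M0)
  · exact ((h1 i).1 _ _ v).mono subset_rfl (fun _ _ => le_rfl)
      (mul_le_mul_of_nonneg_right (hC' i).1 (v 0).M0)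

end Vale.Agent.P218L
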