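import Vale.Agent.P218L.Spec

/-!
# P218, row L.PS: the linearisation at `S` is a small perturbation of the model operator
-/

open Set Filter Topology
open scoped ContDiff Real

noncomputable section

namespace Vale.Agent.P218L

open Vale.Agent.P218T Vale.Agent.P218M
open Vale.Agent.P218W (W Le jet WI XE YE T0 LW L2 nu toW cl low ret_cl pw_all pw_om pw_nu pw_gW
  yn_le_iff LW_ev)

namespace PsA

theorem rh0 (z : ℝ) : rh 0 z = 2 := by simp [rh]

/-- the weights of the cylinder -/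
theorem wts (Z : ℝ) {R z : ℝ} (h1 : 1 ≤ R) (hz : R ≤ z) :
    gW (wK (31 / 16) 0) 0 Z z ≤ 4 * gO 0 Z z ∧ z ^ (-31 / 16 : ℝ) ≤ R ^ (-1 / 16 : ℝ) ∧
    z ^ (-31 / 16 : ℝ) * (2 + gO 0 Z z + 2 * gW (wK (31 / 16) 0) 0 Z z) ≤
      5 * R ^ (-1 / 16 : ℝ) * gW (wK (31 / 16) 0) 0 Z z ∧
    (∀ i, nu (wK (31 / 16) 0) 0 Z i z ≤ 2 * gW (wK (31 / 16) 0) 0 Z z) ∧
    ∀ i, P218W.om (fun z => (rh 0 z).re) (fun z => gO 0 Z z + (rh 0 z).re) (wK (31 / 16) 0) 0 Z i z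
      ≤ 2 + gO 0 Z z + 2 * gW (wK (31 / 16) 0) 0 Z z := by
  have z1 : 1 ≤ z := h1.trans hz
  have z0 : 0 < z := one_pos.trans_le z1
  have hs : sg 0 z = 1 / 2 := by rw [sg, rh0]; norm_num
  have ht : ta 0 z = 1 := by rw [ta, rh0]; norm_num
  have hn : ‖rh 0 z‖ = 2 := by rw [rh0]; norm_num
  have hr : (rh 0 z).re = 2 := by rw [rh0]; norm_num
  obtain ⟨X, hX, eX⟩ : ∃ X : ℝ, 1 / 2 ≤ X ∧ 1 / 2 + z ^ 2 * ly Z z = X :=
    ⟨_, le_add_of_nonneg_right (mul_nonneg (sq_nonneg z) (Real.exp_pos _).le), rfl⟩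
  obtain ⟨a, a0, a1, ea⟩ : ∃ a : ℝ, 0 < a ∧ a ≤ 1 ∧ z ^ (-15 / 8 : ℝ) = a :=
    ⟨_, Real.rpow_pos_of_pos z0 _, Real.rpow_le_one_of_one_le_of_nonpos z1 (by norm_num), rfl⟩
  obtain ⟨b, ab, b1, eb⟩ : ∃ b : ℝ, a ≤ b ∧ b ≤ 1 ∧ z ^ (-3 / 2 : ℝ) = b :=
    ⟨_, ea ▸ Real.rpow_le_rpow_of_exponent_le z1 (by norm_num),
      Real.rpow_le_one_of_one_le_of_nonpos z1 (by norm_num), rfl⟩
  obtain ⟨p, p2, p4, ep⟩ : ∃ p : ℝ, 2 ≤ p ∧ p ≤ 4 ∧ (2 : ℝ) ^ (31 / 16 : ℝ) = p := by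
    refine ⟨_, ?_, ?_, rfl⟩
    · simpa using Real.rpow_le_rpow_of_exponent_le (x := 2) (y := 1) (z := 31 / 16) one_le_two
        (by norm_num)
    · have := Real.rpow_le_rpow_of_exponent_le (x := 2) (y := 31 / 16) (z := 2) one_le_two
        (by norm_num)
      rw [Real.rpow_two] at this
      linarith
  obtain ⟨q, q1, q2, eq⟩ : ∃ q : ℝ, 1 ≤ q ∧ q ≤ 2 ∧ (2 : ℝ) ^ (1 / 4 : ℝ) = q := by
    refine ⟨_, Real.one_le_rpow one_le_two (by norm_num), ?_, rfl⟩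
    simpa using Real.rpow_le_rpow_of_exponent_le (x := 2) (y := 1 / 4) (z := 1) one_le_two
      (by norm_num)
  obtain ⟨ε, e0, eε⟩ : ∃ ε : ℝ, 0 < ε ∧ R ^ (-1 / 16 : ℝ) = ε :=
    ⟨_, Real.rpow_pos_of_pos (one_pos.trans_le h1) _, rfl⟩
  have ho : z ^ (-31 / 16 : ℝ) ≤ ε * a := by
    rw [show (-31 / 16 : ℝ) = -1 / 16 + -15 / 8 by norm_num, Real.rpow_add z0, ea, ← eε]
    exact mul_le_mul_of_nonneg_right
      (Real.rpow_le_rpow_of_nonpos (one_pos.trans_le h1) hz (by norm_num)) a0.le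
  have ew : wK (31 / 16) 0 z = a * p := by
    rw [wK, hn, ep, show (2 - 2 * (31 / 16) : ℝ) = -15 / 8 by norm_num, ea]
  have eW : gW (wK (31 / 16) 0) 0 Z z = a * p * X := by rw [gW, ew, hs, eX]
  have eO : gO 0 Z z = b * q * X := by rw [gO, wO, hr, eb, eq, ← eX]; norm_num
  have X0 : 0 < X := by linarith
  have b0 : 0 < b := a0.trans_le ab
  have G0 : 0 < a * p * X := by positivity
  have O0 : 0 < b * q * X := by positivity
  have hw : a * p ≤ 2 * (a * p * X) := by nlinarith [mul_pos a0 (show 0 < p by linarith)]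
  have hnu : ∀ i, nu (wK (31 / 16) 0) 0 Z i z ≤ 2 * gW (wK (31 / 16) 0) 0 Z z := by
    intro i
    fin_cases i
    · show wK _ _ z ≤ _
      rw [ew, eW]; exact hw
    · show √(wK _ _ z * gW _ _ Z z / sg 0 z) ≤ _
      rw [ew, eW, hs]
      exact Real.sqrt_le_iff.2 ⟨by positivity, by nlinarith⟩
    · show gW _ _ Z z / sg 0 z ≤ _
      rw [eW, hs]; linarith
    · show gW _ _ Z z * ta 0 z / z ≤ _
      rw [eW, ht, mul_one]
      exact (div_le_self G0.le z1).trans (by linarith)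
    · show gW _ _ Z z * ta 0 z * √‖rh 0 z‖ ≤ _
      rw [eW, ht, hn, mul_one, mul_comm]
      exact mul_le_mul_of_nonneg_right (Real.sqrt_le_iff.2 ⟨zero_le_two, by norm_num⟩) G0.le
    · show gW _ _ Z z * ta 0 z ≤ _
      rw [eW, ht]; linarith
  refine ⟨?_, ho.trans ((mul_le_of_le_one_right e0.le a1).trans eε.ge), ?_, hnu, fun i => ?_⟩
  · rw [eW, eO, ← mul_assoc]
    refine mul_le_mul_of_nonneg_right ?_ X0.le
    calc a * p ≤ b * 4 := by gcongr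
      _ ≤ 4 * (b * q) := by nlinarith
  · rw [eW, eO, eε]
    have k1 : a * 2 ≤ 2 * (a * p * X) := by nlinarith
    have k2 : a * (b * q * X) ≤ a * p * X := by
      rw [mul_assoc a p]
      refine mul_le_mul_of_nonneg_left (mul_le_mul_of_nonneg_right ?_ X0.le) a0.le
      nlinarith
    have k3 : a * (2 * (a * p * X)) ≤ 2 * (a * p * X) := mul_le_of_le_one_left (by positivity) a1
    calc _ ≤ ε * a * (2 + b * q * X + 2 * (a * p * X)) := by gcongr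
      _ = ε * (a * 2 + a * (b * q * X) + a * (2 * (a * p * X))) := by ring
      _ ≤ ε * (5 * (a * p * X)) := by gcongr; linarith
      _ = _ := by ring
  · have k := fun i => (hnu i).trans (show _ ≤ 2 + gO 0 Z z + 2 * gW (wK (31 / 16) 0) 0 Z z by
      rw [eO]; linarith)
    fin_cases i
    · show (rh 0 z).re ≤ _
      rw [hr, eW, eO]; linarith
    · exact k 1
    · exact k 2
    · show (gO 0 Z z + (rh 0 z).re) / z ≤ _
      rw [hr, eW, eO]
      exact (div_le_self (by positivity) z1).trans (by linarith)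
    · exact k 4
    · show gO 0 Z z + (rh 0 z).re ≤ _
      rw [hr, eW, eO]; linarith

theorem cyl0 {R Z : ℝ} (h1 : 1 ≤ R) (hZ : R + 1 ≤ Z) : Cyl 1 R Z 0 :=
  ⟨one_pos.trans_le h1, hZ, by simp, fun z hz => by
    rw [rh0]; have := h1.trans hz.1; norm_num; nlinarith, fun z _ => by rw [rh0]; norm_num⟩

/-- multiplication by decaying coefficients is small -/
theorem small {R Z K : ℝ} (h1 : 1 ≤ R) (hZ : R + 1 ≤ Z) {a : Fin 6 → WI R Z}
    (ha : ∀ i, Le (Icc R Z) (a i) (fun z => z ^ (-31 / 16 : ℝ)) K) (v : XE R Z) :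
    qN 0 R Z (∑ i, a i * v.1 i, 0) ≤ 240 * K * R ^ (-1 / 16 : ℝ) * pN 0 R Z v := by
  have h := cyl0 h1 hZ
  have RZ : R ≤ Z := by linarith
  have mZ : Z ∈ Icc R Z := right_mem_Icc.2 RZ
  have Z0 := h.z0 mZ
  obtain ⟨pK, pw, pg, -, px, -⟩ := pw_all h le_rfl
  have pG := pw_gW h one_pos (pK (31 / 16))
  have K0 := (ha 0).M0
  have e0 : 0 ≤ R ^ (-1 / 16 : ℝ) := Real.rpow_nonneg (zero_le_one.trans h1) _
  have M0 := apply_nonneg (pN 0 R Z) v
  have l := ((ret_cl RZ).xn_le_iff (pw_om h one_pos (pK (31 / 16)) px (pg.add isCompact_Icc px))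
    (pw_nu h one_pos (pK (31 / 16))) (J := v.1) M0).1 le_rfl
  have w := fun z (hz : z ∈ Icc R Z) => wts Z h1 hz.1
  have l1 : ∀ i, Le (Icc R Z) (fun p => a i p * v.1 i p) (gW (wK (31 / 16) 0) 0 Z)
      (5 * R ^ (-1 / 16 : ℝ) * (K * (2 * pN 0 R Z v))) := fun i =>
    (ha i).mul' ((l i).le (fun z hz => (w z hz).2.2.2.2 i) fun z hz => ((w z hz).2.2.2.1 i).trans
      (le_add_of_nonneg_left (add_nonneg zero_le_two (pg.pos hz).le))) (by positivity)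
      (fun z hz => (pG.pos hz).le) fun z hz => (w z hz).2.2.1
  have l2 : Le (Icc R Z) (∑ i, a i * v.1 i : WI R Z) (gW (wK (31 / 16) 0) 0 Z)
      (60 * K * R ^ (-1 / 16 : ℝ) * pN 0 R Z v) :=
    ((Le.sum Finset.univ (fun z hz => (pG.pos hz).le) fun i _ => l1 i).mono subset_rfl
      (fun _ _ => le_rfl) (le_of_eq (by simp; ring))).congr fun z _ θ => by simp
  refine (yn_le_iff RZ pg pG (mul_pos Z0 (pw.pos mZ)) (mul_pos Z0 ((pK _).pos mZ))).2
    ⟨⟨(l2.wt zero_le_four (fun z hz => (pg.pos hz).le) fun z hz => (w z hz).1).p0.mono subset_rfl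
      (fun _ _ => le_rfl) (le_of_eq (by ring)), l2.pn.mono subset_rfl (fun _ _ => le_rfl) ?_⟩,
      fun i => ?_⟩
  · nlinarith [mul_nonneg (mul_nonneg K0 e0) M0]
  · have := (mul_pos Z0 (pw.pos mZ)).le
    have := (mul_pos Z0 ((pK (31 / 16)).pos mZ)).le
    fin_cases i <;> simp <;> positivity

theorem jet_sub (F : ℝ × ℝ → ℂ) (i : Fin 6) (y : ℝ × ℝ) :
    jet F i y = ![2, 0, 0, 0, 0, 0] i + jet (fun y => F y - 2) i y := by
  have d : fderiv ℝ (fun y => F y - 2) = fderiv ℝ F := funext fun _ => fderiv_sub_const _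
  fin_cases i <;> simp [jet, d]

theorem cont_jet {F : ℝ × ℝ → ℂ} (h : ContDiff ℝ ∞ F) (i : Fin 6) : Continuous (jet F i) := by
  have h1 : ContDiff ℝ ∞ (fderiv ℝ F) := h.fderiv_right le_rfl
  have h2 := (h1.fderiv_right (m := ∞) le_rfl).continuous
  fin_cases i
  exacts [h.continuous, h1.continuous.clm_apply continuous_const,
    (h2.clm_apply continuous_const).clm_apply continuous_const,
    h1.continuous.clm_apply continuous_const,
    (h2.clm_apply continuous_const).clm_apply continuous_const,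
    (h2.clm_apply continuous_const).clm_apply continuous_const]

/-- the coefficients on one end -/
theorem one (h2 : COEF) (h3 : SDEC) {f : ℝ × ℝ → ℝ} (hf : Decays f) {R₁ : ℝ}
    (he : ∀ y : ℝ × ℝ, R₁ < y.1 → vJ 1 y.1 (fun i => jet (VS f) i y) = 0) {δ₀ : ℝ} (h0 : 0 < δ₀) :
    ∀ᶠ R in atTop, ∀ Z, R + 1 ≤ Z → ∃ a : Fin 6 → WI R Z,
      (∀ y : ℝ × ℝ, y.1 ∈ Icc R Z → ∀ H : Fin 6 → ℂ,
        fderiv ℂ (vJ 1 y.1) (fun i => jet (VS f) i y) H =
          H 5 - y.1 / 2 * H 3 + H 0 + H 2 / 2 + ∑ i, a i y * H i) ∧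
      ∀ v : XE R Z, qN 0 R Z (∑ i, a i * v.1 i, 0) ≤ δ₀ * pN 0 R Z v := by
  obtain ⟨η₀, C, η0, C0, hc⟩ := h2
  obtain ⟨R₂, K, R1, hK, -⟩ := h3 f hf R₁ he
  have t : Tendsto (fun R : ℝ => R ^ (-1 / 16 : ℝ)) atTop (𝓝 0) := by
    simpa [neg_div] using tendsto_rpow_neg_atTop (y := 1 / 16) (by norm_num)
  have t1 := (t.mul_const K).eventually (eventually_le_nhds (by simpa using η0))
  have t2 := (t.const_mul (240 * (C * K))).eventually (eventually_le_nhds (by simpa using h0))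
  filter_upwards [eventually_ge_atTop R₂, t1, t2] with R hR k1 k2 Z hZ
  have h1 := R1.trans hR
  have r := ret_cl (show R ≤ Z by linarith)
  have sm : ContDiff ℝ ∞ fun y => VS f y - 2 :=
    (Complex.ofRealCLM.contDiff.comp ((contDiff_const.add hf.smooth).pow 2)).sub contDiff_const
  have hJ := fun i => (hK i).mono (t := Icc R Z) (fun z hz => hR.trans hz.1) (fun _ _ => le_rfl)
    le_rfl
  have e0 : 0 ≤ R ^ (-1 / 16 : ℝ) := Real.rpow_nonneg (zero_le_one.trans h1) _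
  obtain ⟨a, m, ha, hm⟩ := hc (Icc R Z) _ _ _ K k1 (fun i => (hJ i).wt e0 (fun _ _ => zero_le_one)
    fun z hz => by simpa using (wts Z h1 hz.1).2.1) hJ fun i => (cont_jet sm i).continuousOn
  have ap : ∀ i, ∀ z ∈ Icc R Z, ∀ θ, toW (Icc R Z) (cl R Z) (a i) (z, θ) = a i (z, θ) :=
    fun i z hz θ => r.toW_apply (ha i).2.2.2.1 (ha i).1 hz θ
  refine ⟨fun i => toW (Icc R Z) (cl R Z) (a i), fun y hy H => ?_, fun v => ?_⟩
  · simp only [jet_sub (VS f), (hm y hy).1 H, ap _ y.1 hy y.2]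
  · exact (small h1 hZ (fun i => (ha i).2.2.1.congr (ap i)) v).trans
      (mul_le_mul_of_nonneg_right k2 (apply_nonneg _ _))

end PsA

open PsA in
/-- **PS** -/
theorem ps (h1 : EQS) (h2 : COEF) (h3 : SDEC) : PS := by
  intro M g δ₀ h0
  obtain ⟨R₂, hR⟩ := eventually_atTop.1 (eventually_all.2 fun j =>
    one h2 h3 (g.ended.cyl j) ((h1 M g).1 j) h0)
  refine ⟨R₂, fun k L hz j Z hZ => ?_⟩
  obtain ⟨a, ha, hs⟩ := hR _ hz j Z hZ
  have RZ : L.z₀ ≤ Z := by linarith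
  have key : ∀ v : XE L.z₀ Z, ∀ z ∈ Icc L.z₀ Z, ∀ θ,
      (LW 0 L.z₀ Z v.1 + ∑ i, a i * v.1 i) (z, θ) =
        fderiv ℂ (vJ 1 z) (fun i => jet (VS (M.f j)) i (z, θ)) fun i => v.1 i (z, θ) := by
    intro v z hz θ
    rw [ha (z, θ) hz, W.add_apply, LW_ev RZ (fun z _ => by rw [rh0]; exact two_ne_zero) _ hz, rh0]
    simp only [W.sum_apply, W.mul_apply]
    ring
  have eT : ∀ v, L.TC Z (jet (VS (M.f j))) v = T0 0 L.z₀ Z v + (∑ i, a i * v.1 i, 0) := by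
    have e : ∀ v : XE L.z₀ Z, T0 0 L.z₀ Z v + (∑ i, a i * v.1 i, 0) =
        (toW (Icc L.z₀ Z) (cl L.z₀ Z) fun y => fderiv ℂ (vJ 1 y.1)
          (fun i => jet (VS (M.f j)) i y) fun i => v.1 i y, low Z (v.1 3)) := fun v =>
      Prod.ext ((ret_cl RZ).toW_eq (F := fun y => fderiv ℂ (vJ 1 y.1)
        (fun i => jet (VS (M.f j)) i y) fun i => v.1 i y) (key v)).symm (add_zero _)
    refine fun v => (toL_apply ⟨T0 0 L.z₀ Z + ((∑ i, .mul ℂ _ (a i) ∘L .proj i).prod 0) ∘L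
      (XE L.z₀ Z).subtypeL, fun v => Eq.trans ?_ (e v)⟩ v).trans (e v).symm
    simp
  refine ⟨fun v y hy => ?_, fun v => ?_⟩
  · rw [eT]
    exact key v y.1 hy y.2
  · rw [eT, add_sub_cancel_left]
    exact hs v

end Vale.Agent.P218L
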