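import Vale.Agent.P218L.Spec
import Vale.Agent.P218C.Bd

/-! Row EXA. -/

open Set Filter Topology
open scoped ContDiff Real

noncomputable section

namespace Vale.Agent.P218L

open Vale.Agent.P218T Vale.Agent.P218M
open Vale.Agent.P218B (J2 hasD1 hasD2)
open Vale.Agent.P218H (st)
open Vale.Agent.P218W (Le le_of_c2 ret_cl ret_max jet)

/-- bounds of the 2-jet give bounds in `W` -/
theorem le_of_j2 {s : Set ℝ} {F : ℝ × ℝ → ℂ} {K R : ℝ} (K0 : 0 ≤ K) (p : Per R F)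
    (hs : s ⊆ Ioi R) (h : ∀ y : ℝ × ℝ, y.1 ∈ s → J2 F y K K K) :
    Le s F (fun _ => 1) (16 * K) ∧ ContinuousOn F (s ×ˢ univ) := by
  have l : ∀ z θ : ℝ, HasDerivAt (fun θ : ℝ => (z, θ)) (0, 1) θ := fun z θ =>
    (hasDerivAt_const θ z).prodMk (hasDerivAt_id θ)
  refine ⟨le_of_c2 (F₁ := jet F 1) (F₂ := jet F 2) K0 (by simp) (fun z hz θ => p z θ (hs hz))
    (fun z hz θ => (hasD1 (h (z, θ) hz).cd).comp_hasDerivAt θ (l z θ))
    (fun z hz θ => by
      simpa [jet] using ((hasD2 (h (z, θ) hz).cd).comp_hasDerivAt θ (l z θ)).clm_apply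
        (hasDerivAt_const θ ((0, 1) : ℝ × ℝ)))
    (fun z hz => continuous_iff_continuousAt.2 fun θ => ?_)
    (fun z hz θ => by simpa using (h (z, θ) hz).h0)
    fun z hz θ => by simpa [jet] using (h (z, θ) hz).dd (0, 1) (0, 1),
    fun y hy => (h y hy.1).cd.continuousAt.continuousWithinAt⟩
  exact (((((h (z, θ) hz).cd.fderiv_right (m := 1) le_rfl).fderiv_right (m := 0)
    le_rfl).continuousAt.comp (l z θ).continuousAt).clm_apply continuousAt_const).clm_apply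
      continuousAt_const

theorem cyl_zero {Y R Z : ℝ} (h1 : 1 ≤ R) (hY : Y ≤ R) (hZ : R + 1 ≤ Z) : Cyl Y R Z 0 :=
  ⟨by linarith, hZ, by simp, fun z hz => by simp [rh]; nlinarith [hz.1],
    fun z _ => by norm_num [rh]⟩

theorem prs_le {ι : Type} [Fintype ι] {A : ι → Type} {B : Type} [∀ j, NormedAddCommGroup (A j)]
    [∀ j, NormedSpace ℂ (A j)] [NormedAddCommGroup B] [NormedSpace ℂ B]
    {p : ∀ j, Seminorm ℂ (A j)} {v : (∀ j, A j) × B} {K : ℝ} (h : ∀ j, p j (v.1 j) ≤ K)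
    (k : ‖v.2‖ ≤ K) : prs p v ≤ K :=
  max_le (Seminorm.finset_sup_apply_le ((norm_nonneg _).trans k) fun j _ => h j) k

namespace LD

variable {M : Mod} {k : ℕ} {L : LD M k} {Z : Fin M.n₁ → ℝ} {C C' δ R : ℝ}

theorem ConeOk.mon {l} (h : L.ConeOk l C) (e : C ≤ C') : L.ConeOk l C' :=
  ⟨h.eqn, h.surj, fun J => (h.apr J).trans (by gcongr)⟩

theorem CylOk.mon {j Z T p p'} (h : L.CylOk j Z T p p' C δ R) (e : C ≤ C') (d : 0 ≤ δ)
    (r : 0 ≤ L.ρ) : L.CylOk j Z T p p' C' δ R := by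
  have z0 := L.hz
  refine ⟨h.le, h.ex, h.ey, h.surj, fun v => (h.apr v).trans (by gcongr),
    fun v i y hy => (h.jet v i y hy).trans ?_, h.eqn, fun g y hy => (h.dat g y hy).trans ?_,
    fun G hG => (h.inj G hG).trans (by gcongr), fun v G hG z hz => (h.in0 v G hG z hz).trans ?_,
    fun v l hl z hz => (h.in1 v l hl z hz).trans ?_⟩
  · have := z0.le.trans hy.1
    gcongr
  · have := z0.le.trans hy.1
    gcongr
  · have : 0 ≤ z := by linarith [hz.1]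
    gcongr
  · have := z0.le.trans hz.1
    gcongr

theorem per_fy (g : L.Y' Z) (e : M.I) (R : ℝ) : Per R (fy g e) := fun z θ _ => by
  rcases e with j | l
  exacts [(g.1 j).1.per z θ, (g.2 l).per z θ]

theorem ev'_P (h : M.Geo) (g : L.Y' Z) (e : M.I) {y : ℝ × ℝ} (hy : M.R < y.1) :
    L.ev' Z g (M.P e y) = kp M e y * fy g e y :=
  (Fintype.sum_eq_single e fun _ k => (h.lift_other k hy).eq_of_nhds).trans
    (h.lift_P ((h.per_kn e).comp₂ (per_fy g e _) fun a b => (a : ℂ) * b) hy)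

end LD

/-- **EXA** -/
theorem exa (cone : CONE) (okn : OKN) (cylo : CYLO) (loww : LOWW) (ps : PS) : EXA := fun M g => by
  obtain ⟨R₁, C₁, h₁⟩ := cone M g
  obtain ⟨Y₀, δ₀, Y1, d0, h₀⟩ := cylo
  obtain ⟨R₃, h₃⟩ := ps M g δ₀ d0
  refine ⟨max R₁ (max Y₀ R₃), fun k L o hz => ?_⟩
  obtain ⟨z1, z2, z3⟩ : R₁ ≤ L.z₀ ∧ Y₀ ≤ L.z₀ ∧ R₃ ≤ L.z₀ := by simpa using hz
  have a1 := o.lo
  have a2 := o.hi
  have a3 := Y1.trans z2
  obtain ⟨C₂, -, h₂⟩ := h₀ M k L a3 (by linarith)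
  obtain ⟨K, C, h⟩ := okn M k L o (max C₁ C₂)
  refine ⟨K, C, fun δ δ0 f hf cf => ?_⟩
  obtain ⟨ρ, hρ⟩ := cf.isCompact.isBounded.subset_ball (0 : E3)
  have f0 : ∀ e (y : ℝ × ℝ), M.R < y.1 → ρ ≤ y.1 → f (M.P e y) = 0 := fun e y hy r =>
    image_eq_zero_of_notMem_tsupport fun m => (mem_ball_zero_iff.1 (hρ m)).not_ge
      (r.trans ((g.cht e).rad y hy).1)
  obtain ⟨C₃, C0, h₄⟩ := loww L.z₀ ρ a3
  set F : M.I → ℝ × ℝ → ℂ := fun e y => (st (L.ρ + 3) (M.P e y) * f (M.P e y) / kp M e y : ℝ)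
  have pF : ∀ e, Per M.R (F e) := fun e => (g.perP e).comp₂ (g.per_kn e)
    fun x a => ((st (L.ρ + 3) x * f x / a : ℝ) : ℂ)
  have sub : Ici L.z₀ ⊆ Ioi M.R := Ici_subset_Ioi.2 (by linarith)
  have : ∀ e, ∃ B, 0 ≤ B ∧ Le (Ici L.z₀) (F e) (fun _ => 1) B ∧
      ContinuousOn (F e) (Ici L.z₀ ×ˢ univ) := fun e => by
    obtain ⟨B, B1, hB⟩ := j2_strip (a := L.z₀) (b := ρ) (pF e) (by linarith) fun y hy =>
      cd_ofReal (((((P218H.st_smooth _).mul hf).contDiffAt.comp y (g.cdP e (sub hy.1))).div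
        (g.cd_kn e (sub hy.1)) (g.kn_ne e (sub hy.1))).of_le (by norm_cast))
    have B0 := zero_le_one.trans B1
    refine ⟨16 * B, by positivity, le_of_j2 B0 (pF e) sub fun y hy => (le_or_gt y.1 ρ).elim
      (fun r => hB y ⟨hy, r⟩) fun r => (J2.zero ?_).mono B0 B0 B0⟩
    filter_upwards [ev_ht (sub hy), ev_ht r] with y a b
    simp [F, f0 e y a b.le]
  choose B B0 hB cF using this
  obtain ⟨B', hB'⟩ := (finite_range B).bddAbove
  have b := fun e => (hB e).mono subset_rfl (fun _ _ => le_rfl)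
    ((hB' ⟨e, rfl⟩).trans (le_abs_self B'))
  refine ⟨(C₃ + 1) * |B'|, fun R hR => ?_⟩
  replace hR : L.ρ + 10 ≤ R := by linarith [show L.ρ + 2 + 8 ≤ R from hR]
  have hZ : L.z₀ + 1 ≤ R + 1 := by linarith
  have sI : Icc L.z₀ (R + 1) ⊆ Ici L.z₀ := Icc_subset_Ici_self
  have ok := fun δ (d : 0 ≤ δ) => h (fun _ => R + 1) (fun j => L.TC (R + 1) (jet (VS (M.f j))))
    (fun _ => pN 0 L.z₀ (R + 1)) (fun _ => qN 0 L.z₀ (R + 1)) δ R d hR
    (fun j => ((h₂ j _ 0 _ 0 δ R (cyl_zero a3 z2 hZ) (by linarith) le_rfl d le_rfl (by simpa)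
      fun v y hy => by simp [(h₃ k L z3 j _ hZ).1 v y ⟨hy.1, by linarith [hy.2]⟩]).1
        (h₃ k L z3 j _ hZ).2).mon (le_max_right _ _) d (by linarith))
    fun l => (h₁ k L z1 l).mon (le_max_left _ _)
  have rc := ret_cl (R := L.z₀) (Z := R + 1) (by linarith)
  have ap := fun j => @P218W.Ret.toW_apply _ _ _ _ rc ((cF (.inl j)).mono (prod_mono_left sI))
    ((b _).mono sI (fun _ _ => le_rfl) le_rfl)
  have ap' := fun l => @P218W.Ret.toW_apply _ _ _ _ (ret_max L.z₀) (cF (.inr l)) (b _)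
  refine ⟨_, _, _, ok δ δ0.le, fun v y hy r => ?_, L.toY _ F, prs_le (fun j => ?_) ?_,
    fun y hy r => ?_⟩
  · simpa [sub_eq_zero] using (ok 0 le_rfl).eqn v y hy r
  · refine (h₄ _ 0 (cyl_zero a3 a3 hZ) _ fun z θ r1 r2 => ?_).1.trans ?_
    · rw [← P218W.W.fix, ap j (rc.mem z)]
      simp [F, f0 (.inl j) (P218W.cl L.z₀ (R + 1) z, θ) (sub (rc.mem z).1)
        (r1.trans (by simp [P218W.cl, r2]))]
    · have := rc.norm_le (((b _).mono sI (fun _ _ => le_rfl) le_rfl).congr fun z hz => ap j hz)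
      nlinarith [abs_nonneg B']
  · refine (pi_norm_le_iff_of_nonneg (by positivity)).2 fun l => ?_
    have := (ret_max L.z₀).norm_le ((b _).congr fun z hz => ap' l hz)
    exact this.trans (by nlinarith [abs_nonneg B'])
  · obtain ⟨e, y, hy', rfl⟩ := mem_iUnion.1 hy.1
    have y1 := sub hy'.1
    have : LD.fy (L.toY (fun _ => R + 1) F) e y = F e y := by
      rcases e with j | l
      exacts [ap j ⟨hy'.1, (((g.cht _).rad y y1).1.trans r.le).trans (by linarith)⟩ _,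
        ap' l hy'.1 _]
    have k0 := g.kn_ne e y1
    refine (LD.ev'_P g _ e y1).trans ?_
    rw [this, ← Complex.ofReal_mul, mul_div_cancel₀ _ k0]
    simp [LD.core]

end Vale.Agent.P218L
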