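import Vale.Agent.P218L.Spec
import Vale.Agent.P218W.Hol

/-!
# P218, the linear half of INST: the inclusion of the `C^{1,β}` functions
-/

open Set Filter Topology
open scoped ContDiff Real

noncomputable section

namespace Vale.Agent.P218L

open Vale.Agent.P218T
open Vale.Agent.P218H (C1a f1 HM J1 dd ee b1_f1)
open Vale.Agent.P218W (W Le toW Ret cl le_of_holder ret_cl ret_max)

namespace Inj

variable {V : Type} [NormedAddCommGroup V] [NormedSpace ℝ V] {R a b z : ℝ} {G : ℝ × ℝ → V}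

/-- smooth and periodic -/
def Sm (R : ℝ) (G : ℝ × ℝ → V) : Prop := Per R G ∧ ∀ y : ℝ × ℝ, R < y.1 → ContDiffAt ℝ ∞ G y

theorem Sm.dt (h : Sm R G) : Sm R fun y => fderiv ℝ G y (0, 1) :=
  ⟨h.1.fderiv.comp fun L => L (0, 1), fun y hy =>
    ((h.2 y hy).fderiv_right (m := ∞) le_rfl).clm_apply contDiffAt_const⟩

theorem Sm.hd (h : Sm R G) (hz : R < z) (θ : ℝ) :
    HasDerivAt (fun θ => G (z, θ)) (fderiv ℝ G (z, θ) (0, 1)) θ :=
  ((h.2 (z, θ) hz).differentiableAt (by simp)).hasFDerivAt.comp_hasDerivAt θ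
    ((hasDerivAt_const θ z).prodMk (hasDerivAt_id θ))

theorem Sm.bd (h : Sm R G) (ha : R < a) (b : ℝ) :
    ∃ K, 0 ≤ K ∧ ∀ z ∈ Icc a b, ∀ θ, ‖G (z, θ)‖ ≤ K := by
  obtain ⟨K, hK⟩ := (isCompact_Icc.prod isCompact_Icc : IsCompact (Icc a b ×ˢ Icc 0 (2 * π))
    ).exists_bound_of_continuousOn (f := G) fun y hy =>
      (h.2 y (ha.trans_le hy.1.1)).continuousAt.continuousWithinAt
  refine ⟨max K 0, le_max_right _ _, fun z hz θ => ?_⟩
  obtain ⟨θ', h1, h2⟩ := h.1.red (ha.trans_le hz.1) θ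
  exact h2 ▸ (hK _ ⟨hz, Ico_subset_Icc_self h1⟩).trans (le_max_left _ _)

theorem Sm.lip (h : Sm R G) (ha : R < a) (b : ℝ) :
    ∃ K, 0 ≤ K ∧ ∀ z ∈ Icc a b, ∀ θ θ', ‖G (z, θ) - G (z, θ')‖ ≤ K * dist θ θ' := by
  obtain ⟨K, K0, hK⟩ := h.dt.bd ha b
  exact ⟨K, K0, fun z hz θ θ' => convex_univ.norm_image_sub_le_of_norm_hasDerivWithin_le
    (fun θ _ => (h.hd (ha.trans_le hz.1) θ).hasDerivWithinAt) (fun θ _ => hK z hz θ) trivial trivial⟩

theorem Sm.hm {G : ℝ × ℝ → ℂ} (h : Sm R G) (ha : R < a) (b : ℝ) :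
    ∃ K, 0 ≤ K ∧ ∀ z ∈ Icc a b, HM β₀ (fun θ => G (z, θ)) K K := by
  obtain ⟨K, K0, hK⟩ := h.bd ha b
  obtain ⟨K', K1, hK'⟩ := h.lip ha b
  refine ⟨2 * K + K', by positivity, fun z hz => ?_⟩
  have : HM 1 (fun θ => G (z, θ)) K K' := ⟨hK z hz, fun θ θ' => by simpa using hK' z hz θ θ'⟩
  exact (this.lower (by norm_num) (by norm_num) K1 one_pos).mono (by linarith) (by simp)

theorem le_comp {P : ℝ × ℝ → E3} {u : ℝ × ℝ → ℂ} (hP : Sm R P) (hu : Sm R u) (ha : R < a) (b : ℝ) :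
    ∃ C, 0 ≤ C ∧ ∀ f : C1a 3 β₀,
      Le (Icc a b) (fun y => u y * f1 f (P y)) (fun _ => 1) (C * ‖f‖) := by
  let c : J1 3 → ℝ × ℝ → ℂ := fun j y =>
    j.elim (fderiv ℝ u y (0, 1)) fun i => u y * (fderiv ℝ P y (0, 1) i : ℝ)
  have hc : ∀ j, Sm R (c j) := by
    rintro (_ | i)
    · exact hu.dt
    · exact ⟨hu.1.comp₂ hP.dt.1 fun s v => s * (v i : ℝ), fun y hy => (hu.2 y hy).mul
        (cd_ofReal (contDiffAt_euclidean.1 (hP.dt.2 y hy) i))⟩
  choose K K0 hK using fun j => (hc j).hm ha b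
  obtain ⟨A, A0, hA⟩ := hP.lip ha b
  obtain ⟨B, B0, hB⟩ := hu.bd ha b
  obtain ⟨C, C0, hC⟩ := le_of_holder (α := β₀) (by norm_num) (by norm_num)
  have S0 : 0 ≤ ∑ j, K j * (A ^ β₀ + 1) := Finset.sum_nonneg fun j _ => by have := K0 j; positivity
  refine ⟨C * (B + ∑ j, K j * (A ^ β₀ + 1)), by positivity, fun f => ?_⟩
  have hf := b1_f1 f
  rw [mul_assoc]
  refine hC _ _ (fun y => ∑ j, c j y * dd j (f1 f) (P y)) _ _ (by positivity) (by simp)
    (fun z hz θ => by simp only [hP.1 z θ (ha.trans_le hz.1), hu.1 z θ (ha.trans_le hz.1)])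
    (fun z hz θ => ?_) (fun z hz θ => ?_) fun z hz θ θ' => ?_
  · refine ((hu.hd (ha.trans_le hz.1) θ).mul ((hf.1.differentiable one_ne_zero _
      ).hasFDerivAt.comp_hasDerivAt θ (hP.hd (ha.trans_le hz.1) θ))).congr_deriv ?_
    rw [Fintype.sum_option, ← P218H.sum_ee (fderiv ℝ P (z, θ) (0, 1)), map_sum, Finset.mul_sum]
    simp [c, dd, mul_assoc]
  · rw [norm_mul, mul_one, add_mul]
    exact (mul_le_mul (hB z hz θ) ((hf.2 none).sup _) (norm_nonneg _) B0).trans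
      (le_add_of_nonneg_right (by positivity))
  · have k : ∀ j, HM β₀ (fun θ => dd j (f1 f) (P (z, θ))) ‖f‖ (‖f‖ * A ^ β₀) := fun j =>
      ⟨fun _ => (hf.2 j).sup _, fun θ θ' => ((hf.2 j).hol _ _).trans (by
        rw [mul_assoc, ← Real.mul_rpow A0 dist_nonneg, dist_eq_norm]
        gcongr
        exact hA z hz θ θ')⟩
    refine ((HM.sum _ fun j _ => (hK j z hz).mul (k j) (K0 j)).hol θ θ').trans ?_
    rw [mul_one, Real.dist_eq]
    gcongr
    rw [add_mul, Finset.sum_mul]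
    refine le_add_of_nonneg_of_le (by positivity) (Finset.sum_le_sum fun j _ => le_of_eq ?_)
    ring

theorem exists_clm {A : Type} [NormedAddCommGroup A] [NormedSpace ℂ A] {s : Set ℝ} {r : ℝ → ℝ}
    (h : Ret s r) {F : A → ℝ × ℝ → ℂ} {C : ℝ} (c : ∀ f, ContinuousOn (F f) (s ×ˢ univ))
    (b : ∀ f, Le s (F f) (fun _ => 1) (C * ‖f‖)) (a : ∀ f g y, F (f + g) y = F f y + F g y)
    (m : ∀ (t : ℂ) f y, F (t • f) y = t * F f y) : ∃ T : A →L[ℂ] W r, ∀ f,
      T f = toW s r (F f) ∧ ‖T f‖ ≤ C * ‖f‖ ∧ ∀ z θ, T f (z, θ) = F f (r z, θ) := by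
  have e := fun f z hz θ => h.toW_apply (c f) (b f) (z := z) hz θ
  have n : ∀ f, ‖toW s r (F f)‖ ≤ C * ‖f‖ := fun f => h.norm_le ((b f).congr (e f))
  exact ⟨LinearMap.mkContinuous
    { toFun := fun f => toW s r (F f)
      map_add' := fun f g => h.toW_eq fun z hz θ => by simp [e _ z hz, a]
      map_smul' := fun t f => h.toW_eq fun z hz θ => by simp [e _ z hz, m] } C n,
    fun f => ⟨rfl, n f, fun z θ => (W.fix _ z θ).symm.trans (e f _ (h.mem z) θ)⟩⟩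

end Inj

open Inj in
/-- **INJ** -/
theorem inj' (_ : QB) : INJ := fun M k L ok => by
  have g := ok.geo
  have lo : M.R < L.z₀ := by linarith [ok.lo]
  have hi : L.z₀ ≤ L.ρ + 6 := by linarith [ok.hi]
  let u : M.I → ℝ × ℝ → ℂ := fun e y => (L.chn y.1 / kp M e y : ℝ)
  have hu : ∀ e, Sm M.R (u e) := fun e =>
    ⟨(per_z L.chn).comp₂ (g.per_kn e) fun s t => ((s / t : ℝ) : ℂ), fun y hy => cd_ofReal
      ((contDiffAt_const.sub (Real.smoothTransition.contDiffAt.comp y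
        (contDiffAt_fst.sub contDiffAt_const))).div (g.cd_kn e hy) (g.kn_ne e hy))⟩
  have hP : ∀ e, Sm M.R (M.P e) := fun e => ⟨g.perP e, fun y => g.cdP e⟩
  choose C C0 hC using fun e => le_comp (hP e) (hu e) lo (L.ρ + 6)
  let F : M.I → C1a 3 β₀ → ℝ × ℝ → ℂ := fun e f y => L.chn y.1 * f1 f (M.P e y) / kp M e y
  have F1 : ∀ e f y, F e f y = u e y * f1 f (M.P e y) := fun e f y => by
    simp only [F, u, Complex.ofReal_div]; ring
  have F0 : ∀ e f z θ, L.ρ + 6 ≤ z → F e f (z, θ) = 0 := fun e f z θ hz => by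
    simp [F, LD.chn, Real.smoothTransition.one_of_one_le (show 1 ≤ z - (L.ρ + 5) by linarith)]
  have b : ∀ e f, Le (Ici L.z₀) (F e f) (fun _ => 1) ((∑ e, C e) * ‖f‖) := fun e f => by
    refine (((hC e f).comp (q := min (L.ρ + 6)) fun z hz =>
      ⟨le_min hi hz, min_le_left _ _⟩).congr fun z hz θ => ?_).mono subset_rfl (fun _ _ => le_rfl)
        (mul_le_mul_of_nonneg_right (Finset.single_le_sum (fun e _ => C0 e) (Finset.mem_univ e))
          (norm_nonneg _))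
    rw [← F1]
    rcases le_total z (L.ρ + 6) with q | q
    · rw [min_eq_right q]
    · rw [min_eq_left q, F0 e f z θ q, F0 e f _ θ le_rfl]
  have c : ∀ e f, ContinuousOn (F e f) (Ici L.z₀ ×ˢ univ) := fun e f y hy => by
    rw [funext (F1 e f)]
    exact (((hu e).2 y (lo.trans_le hy.1)).continuousAt.mul ((b1_f1 f).1.continuous.continuousAt.comp
      ((hP e).2 y (lo.trans_le hy.1)).continuousAt)).continuousWithinAt
  have a : ∀ e f g y, F e (f + g) y = F e f y + F e g y := fun e f g y => by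
    simp only [F1, P218H.f1_add, Pi.add_apply, mul_add]
  have m : ∀ e (t : ℂ) f y, F e (t • f) y = t * F e f y := fun e t f y => by
    simp only [F1, P218H.f1_smul, Pi.smul_apply, smul_eq_mul, mul_left_comm]
  have S0 := Finset.sum_nonneg fun e (_ : e ∈ Finset.univ) => C0 e
  refine ⟨∑ e, C e, S0, fun Z hZ => ?_⟩
  choose T hT using fun j => exists_clm (ret_cl (hi.trans (hZ j)))
    (fun f => (c (.inl j) f).mono (prod_mono Icc_subset_Ici_self subset_rfl))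
    (fun f => (b (.inl j) f).mono Icc_subset_Ici_self (fun _ _ => le_rfl) le_rfl) (a _) (m _)
  choose T' hT' using fun l => exists_clm (ret_max L.z₀) (c (.inr l)) (b _) (a _) (m _)
  have e : ∀ f, L.toY Z (fun e => F e f) = (fun j => (T j f, 0), fun l => T' l f) := fun f => by
    simp only [LD.toY, (hT _ f).1, (hT' _ f).1]
  intro f
  have e1 : L.inj Z f = L.toY Z fun e => F e f := toL_apply ⟨(ContinuousLinearMap.pi fun j =>
    (T j).prod 0).prod (.pi T'), fun f => (e f).symm⟩ f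
  have n0 := mul_nonneg S0 (norm_nonneg f)
  refine ⟨e1, ?_, ?_⟩ <;> rw [e1, e]
  · exact norm_prod_le_iff.2 ⟨(pi_norm_le_iff_of_nonneg n0).2 fun j =>
      norm_prod_le_iff.2 ⟨(hT j f).2.1, norm_zero.trans_le n0⟩,
        (pi_norm_le_iff_of_nonneg n0).2 fun l => (hT' l f).2.1⟩
  rintro (j | l) ⟨z, θ⟩ hz
  · refine ((hT j f).2.2 z θ).trans (?_ : _ = F (.inl j) f (z, θ))
    rcases le_total z (Z j) with q | q
    · rw [(ret_cl (hi.trans (hZ j))).fix z ⟨hz, q⟩]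
    · rw [cl, min_eq_left q, F0 _ f z θ ((hZ j).trans q), F0 _ f _ θ ((hZ j).trans (le_max_right _ _))]
  · exact ((hT' l f).2.2 z θ).trans (by rw [max_eq_right hz])

end Vale.Agent.P218L
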