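import Vale.Agent.P218L.Defs

/-!
# P218, the linear half of INST: the statements of the rows
-/

open MeasureTheory Set Filter Topology
open scoped ContDiff RealInnerProductSpace Real ComplexConjugate

noncomputable section

namespace Vale.Agent.P218L

open Vale.Agent.P218T Vale.Agent.P218M
open Vale.Agent.P218.H63 (IsTubeShrinker stab)
open Vale.Agent.P218H (op sa st Core EndD C1a f1 MS Rel Solv En)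
open Vale.Agent.P218N (cx nu cr dt)
open Vale.Agent.P218W (W Le jet co WI XE YE XK XH T0)
open Vale.Agent.P218B (J2)

/-- the equation of the surface in the charts -/
def EQS : Prop := ∀ M : Mod, M.Geo →
  (∀ j (y : ℝ × ℝ), M.R < y.1 → vJ 1 y.1 (fun i => jet (VS (M.f j)) i y) = 0) ∧
  ∀ l (y : ℝ × ℝ), M.R < y.1 →
    kJ (M.γ l) (M.n l) y.2 (jk y.1 fun i => jet (uS (M.g l)) i y) = 0

/-- the factors -/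
def QB : Prop := ∀ M : Mod, M.Geo → ∃ K : ℝ, 1 ≤ K ∧
  (∀ e, Per M.R (q M e) ∧ Per M.R (kp M e) ∧ ∀ y : ℝ × ℝ, M.R < y.1 →
    ContDiffAt ℝ ∞ (q M e) y ∧ ContDiffAt ℝ ∞ (kp M e) y ∧ kp M e y ≠ 0 ∧ |kp M e y| ≤ K ∧
    1 / K ≤ |q M e y| ∧ J2 (q M e) y K (K * y.1 ^ 2) (K * y.1 ^ 2)) ∧
  ∀ j (y : ℝ × ℝ), M.R < y.1 → kp M (.inl j) y = q M (.inl j) y ∧ |q M (.inl j) y| ≤ 1

/-- the stability operator in the charts -/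
def LINC : Prop := ∀ M : Mod, M.Geo → ∀ e (F : ℝ × ℝ → ℂ) (y : ℝ × ℝ), M.R < y.1 → Per M.R F →
  ContDiffAt ℝ 2 F y → op (sa M.w) (M.lift e fun y => q M e y * F y) (M.P e y) =
    kp M e y * DL M e y fun i => jet F i y

/-- rotations are Jacobi fields -/
def ROT : Prop := ∀ (S : Set E3) (w : E3 → ℝ) (δ C : ℝ), IsTubeShrinker S w δ C → ContDiff ℝ ∞ w →
  ∀ o : E3, ∀ p ∈ S, op (sa w) (fun x => dt (cr (cx o) (cx x)) (nu w x)) p = 0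

/-- the operator of a cylindrical end near the cylinder -/
def COEF : Prop := ∃ η₀ C : ℝ, 0 < η₀ ∧ 0 < C ∧ ∀ (s : Set ℝ) (J : Fin 6 → ℝ × ℝ → ℂ) (o : ℝ → ℝ)
  (η K : ℝ), η ≤ η₀ → (∀ i, Le s (J i) (fun _ => 1) η) → (∀ i, Le s (J i) o K) →
  (∀ i, ContinuousOn (J i) (s ×ˢ univ)) → ∃ a m : Fin 6 → ℝ × ℝ → ℂ,
    (∀ i, Le s (a i) (fun _ => 1) (C * η) ∧ Le s (m i) (fun _ => 1) (C * η) ∧
      Le s (a i) o (C * K) ∧ ContinuousOn (a i) (s ×ˢ univ) ∧ ContinuousOn (m i) (s ×ˢ univ)) ∧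
    ∀ y : ℝ × ℝ, y.1 ∈ s →
      (∀ H : Fin 6 → ℂ, fderiv ℂ (vJ 1 y.1) (fun i => ![2, 0, 0, 0, 0, 0] i + J i y) H =
        H 5 - y.1 / 2 * H 3 + H 0 + H 2 / 2 + ∑ i, a i y * H i) ∧
      vJ 1 y.1 (fun i => ![2, 0, 0, 0, 0, 0] i + J i y) =
        J 5 y - y.1 / 2 * J 3 y + J 0 y + J 2 y / 2 + ∑ i, m i y * J i y

/-- the rate of decay on a cylindrical end -/
def SDEC : Prop := ∀ f : ℝ × ℝ → ℝ, Decays f → ∀ R₁ : ℝ,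
  (∀ y : ℝ × ℝ, R₁ < y.1 → vJ 1 y.1 (fun i => jet (VS f) i y) = 0) → ∃ R K : ℝ, 1 ≤ R ∧
    (∀ i, Le (Ici R) (jet (fun y => VS f y - 2) i) (fun z => z ^ (-31 / 16 : ℝ)) K) ∧
    Le (Ici R) (fun y => y.1 * jet (VS f) 3 y) (fun z => z ^ (-31 / 16 : ℝ)) K

/-- the slow solution -/
def VJ : Prop := ∀ f : ℝ × ℝ → ℝ, Decays f → ∀ R₁ : ℝ,
  (∀ y : ℝ × ℝ, R₁ < y.1 → vJ 1 y.1 (fun i => jet (VS f) i y) = 0) → ∃ R₂ : ℝ, ∀ R, R₂ ≤ R →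
    ∃ J : XH R wy, (∀ y : ℝ × ℝ, R ≤ y.1 →
      fderiv ℂ (vJ 1 y.1) (fun i => jet (VS f) i y) (fun i => yj J i y) = 0) ∧
      ∀ i y, conj (J.1 i y) = J.1 i y

/-- the conical ends -/
def CONE : Prop := ∀ M : Mod, M.Geo → ∃ R₂ C : ℝ, ∀ (k : ℕ) (L : LD M k), R₂ ≤ L.z₀ →
  ∀ l, L.ConeOk l C

/-- the normalised Gaussian area -/
def MSG : Prop := ∀ (S : Set E3) (w : E3 → ℝ) (δ C : ℝ), IsTubeShrinker S w δ C →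
  ContDiff ℝ ∞ w → MS S w (ga w) ∧ Rel w (ga w)

/-- the linear data exist -/
def EXL : Prop := ∀ M : Mod, M.Geo → ∃ k : ℕ, ∀ᶠ z in atTop, ∀ᶠ ρ in atTop,
  ∃ L : LD M k, L.z₀ = z ∧ L.ρ = ρ ∧ L.Ok

/-- the slow functions -/
def SLOW : Prop := ∀ (M : Mod) (k : ℕ) (L : LD M k), L.Ok →
  (∀ i, ContDiff ℝ 1 (L.b i) ∧ HasCompactSupport (L.b i) ∧ (∀ x, conj (L.b i x) = L.b i x) ∧
    (∀ x, conj (L.ph i x) = L.ph i x) ∧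
    (∀ p ∈ M.S, L.b i p ≠ 0 → p ∈ M.En (.inl i.1) (Icc L.ρ (L.ρ + 3)) ∧
      (if i.2 = 0 then L.ρ + 1 else L.ρ + 2) ≤ ‖p‖ ∧
      ‖p‖ ≤ (if i.2 = 0 then L.ρ + 1 else L.ρ + 2) + 1) ∧
    (∀ p ∈ M.S, L.Y i p ≠ 0 → p ∈ M.En (.inl i.1) (Ici L.ρ)) ∧
    ∀ p ∈ M.S, L.z₀ + 1 ≤ ‖p‖ → ContDiffAt ℝ 2 (L.ph i) p ∧ op (sa M.w) (L.ph i) p = 0) ∧
  ∃ C : ℝ, ∀ i, ∀ p ∈ M.S, ContDiffAt ℝ 2 (L.Y i) p ∧ op (sa M.w) (L.Y i) p = L.b i p ∧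
    ∀ j, ‖P218H.dd j (L.Y i) p‖ ≤ C * (1 + ‖p‖) ^ 8

/-- the core -/
def CORE : Prop := ∀ (M : Mod) (k : ℕ) (L : LD M k), L.Ok → ∀ K, (L.core K).Ok

/-- the slow solutions are seen by the second family of constraints -/
def KAP : Prop := ∀ (M : Mod) (k : ℕ) (L : LD M k), L.Ok → ∀ j,
  (L.ka j).im = 0 ∧ (L.ka j).re < 0 ∧
    ∀ j', j' ≠ j → ∫ p, L.Y (j', 0) p * L.b (j, 0) p ∂ga M.w = 0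

/-- the inclusion of the `C^{1,β}` functions -/
def INJ : Prop := ∀ (M : Mod) (k : ℕ) (L : LD M k), L.Ok → ∃ C : ℝ, 0 ≤ C ∧
  ∀ Z : Fin M.n₁ → ℝ, (∀ j, L.ρ + 6 ≤ Z j) → ∀ f : C1a 3 β₀,
    L.inj Z f = L.toY Z (fun e y => L.chn y.1 * f1 f (M.P e y) / kp M e y) ∧
    ‖L.inj Z f‖ ≤ C * ‖f‖ ∧ ∀ e (y : ℝ × ℝ), L.z₀ ≤ y.1 →
      LD.fy (L.inj Z f) e y = L.chn y.1 * f1 f (M.P e y) / kp M e y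

/-- the Jacobi fields are independent at infinity -/
def INDY : Prop := ∀ (M : Mod) (k : ℕ) (L : LD M k), L.Ok → ∃ K : ℝ, 1 ≤ K ∧
  ∀ j (z : ℝ), K ≤ z → ∀ (m : Fin 3 → ℂ) (F : ℝ × ℝ → ℂ),
    (∀ θ, F (z, θ) = (∑ l, m l * L.ph (j, l) (M.P (.inl j) (z, θ))) / q M (.inl j) (z, θ)) →
    ‖m‖ ≤ K * (‖co F 0 z‖ / z ^ 2 + (‖co F 1 z‖ + ‖co F (-1) z‖) / z)

/-- **the end data** -/
def OKN : Prop := ∀ (M : Mod) (k : ℕ) (L : LD M k), L.Ok → ∀ C : ℝ, ∃ K C' : ℝ,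
  ∀ (Z : Fin M.n₁ → ℝ) (T : ∀ j, XE L.z₀ (Z j) →L[ℂ] YE L.z₀ (Z j))
    (p : ∀ j, Seminorm ℂ (XE L.z₀ (Z j))) (p' : ∀ j, Seminorm ℂ (YE L.z₀ (Z j))) (δ R : ℝ),
    0 ≤ δ → L.ρ + 10 ≤ R → (∀ j, L.CylOk j (Z j) (T j) (p j) (p' j) C δ R) →
    (∀ l, L.ConeOk l C) → (L.ends Z T).OkN (L.core K) (prs p) (prs p') C' δ R

/-- the cylindrical ends -/
def CYLO : Prop := ∃ Y₀ δ₀ : ℝ, 1 ≤ Y₀ ∧ 0 < δ₀ ∧ ∀ (M : Mod) (k : ℕ) (L : LD M k), 1 ≤ L.z₀ →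
  L.z₀ ≤ L.ρ → ∃ C : ℝ, 0 ≤ C ∧ ∀ j (Z : ℝ) (c : ℂ) (T : XE L.z₀ Z →L[ℂ] YE L.z₀ Z) (ε δ R : ℝ),
    Cyl Y₀ L.z₀ Z c → L.ρ + 6 ≤ R → R + 1 ≤ Z → 0 ≤ δ → 0 ≤ ε →
    C * R ^ 5 * ε ≤ δ → (∀ v, ∀ y : ℝ × ℝ, y.1 ∈ Icc L.z₀ R →
      ‖(T v).1 y - DL M (.inl j) y fun i => v.1 i y‖ ≤ ε * ‖fun i => v.1 i y‖) →
    ((∀ v, qN c L.z₀ Z (T v - T0 c L.z₀ Z v) ≤ δ₀ * pN c L.z₀ Z v) →
      L.CylOk j Z T (pN c L.z₀ Z) (qN c L.z₀ Z) C δ R) ∧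
    ((Z ^ 2 * (rh c Z).re) ^ (-3 / 4 : ℝ) ≤ δ →
      (∀ v, qH c L.z₀ Z (T v - T0 c L.z₀ Z v) ≤ δ₀ * pH c L.z₀ Z v) →
      L.CylOk j Z T (pH c L.z₀ Z) (qH c L.z₀ Z) C δ R)

/-- the linearisation at `S` is a small perturbation of the model operator -/
def PS : Prop := ∀ M : Mod, M.Geo → ∀ δ₀ : ℝ, 0 < δ₀ → ∃ R₂ : ℝ, ∀ (k : ℕ) (L : LD M k),
  R₂ ≤ L.z₀ → ∀ j (Z : ℝ), L.z₀ + 1 ≤ Z →
    (∀ v, ∀ y : ℝ × ℝ, y.1 ∈ Icc L.z₀ Z →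
      (L.TC Z (jet (VS (M.f j))) v).1 y = DL M (.inl j) y fun i => v.1 i y) ∧
    ∀ v, qN 0 L.z₀ Z (L.TC Z (jet (VS (M.f j))) v - T0 0 L.z₀ Z v) ≤ δ₀ * pN 0 L.z₀ Z v

/-- data with bounded support -/
def LOWW : Prop := ∀ R ρ : ℝ, 1 ≤ R → ∃ C : ℝ, 0 ≤ C ∧ ∀ (Z : ℝ) (c : ℂ), Cyl 1 R Z c →
  ∀ G : WI R Z, (∀ z θ, ρ ≤ z → z ≤ Z → G (z, θ) = 0) →
    qN c R Z (G, 0) ≤ C * ‖G‖ ∧ qH c R Z (G, 0) ≤ C * ‖G‖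

/-- exact end data on large balls -/
def Exa {n k : ℕ} {M : Type} [Fintype M] (c : Core n k M) (β : ℝ) : Prop :=
  ∃ C : ℝ, ∀ δ : ℝ, 0 < δ → ∀ f : En n → ℝ, ContDiff ℝ ∞ f → HasCompactSupport f → ∃ K : ℝ,
    ∀ R, c.r + 8 ≤ R → ∃ (D : EndD n M β) (p : Seminorm ℂ D.X) (p' : Seminorm ℂ D.Y),
      D.OkN c p p' C δ R ∧
      (∀ v, ∀ y ∈ c.Se \ c.B, ‖y‖ < R → D.ev' (D.T v) y = op c.a (D.ev v) y) ∧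
      ∃ g, p' g ≤ K ∧ ∀ y ∈ c.Se \ c.B, ‖y‖ < R → D.ev' g y = ((1 - c.cc y) * f y : ℝ)

/-- they exist -/
def EXA : Prop := ∀ M : Mod, M.Geo → ∃ R₂ : ℝ, ∀ (k : ℕ) (L : LD M k), L.Ok → R₂ ≤ L.z₀ →
  ∃ K, Exa (L.core K) β₀

/-- solvability for both families of constraints -/
def ND2 : Prop := ∀ (n k m : ℕ) (M : Type) [Fintype M] (c : Core n k M) (β : ℝ) (w : En n → ℝ)
  (im : Fin m → M) (ψ' : Fin m → En n → ℝ) (κ : Fin m → ℂ), c.Ok → 0 < β → β < 1 → Exa c β →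
  c.a = sa w → (∀ j, Continuous (ψ' j) ∧ HasCompactSupport (ψ' j)) →
  (∀ j, κ j ≠ 0) → (∀ j, ∃ t : ℂ, ∀ p ∈ c.S, c.b (im j) p = t * ψ' j p) →
  (∀ j j', ∫ p, c.Y (im j) p * ψ' j' p ∂c.ν = if j = j' then κ j else 0) →
  Solv c.S w c.ν (Fin.append c.ψ ψ')

/-- **nondegeneracy**, in the form of `P218T.Obj.LFD.nd` -/
def ND : Prop := ∀ M : Mod, M.Geo → ∃ R₂ : ℝ, ∀ (k : ℕ) (L : LD M k), L.Ok → R₂ ≤ L.z₀ →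
  ∀ t : Fin M.n₁ → ℝ, (∀ j, t j ≠ 0) → ∀ ψ : Fin k ⊕ Fin M.n₁ → E3 → ℝ,
    ψ = Sum.elim L.ψ (fun j x => t j * (L.b (j, 0) x).re) →
    ∀ (u : E3 → ℝ) (l : Fin k ⊕ Fin M.n₁ → ℝ) (μ : Measure E3) (r : E3 → ℝ),
      μ = (μH[(2 : ℕ)] : Measure E3).restrict {x | M.w x = 0} →
      r = (fun x => Real.exp (-‖x‖ ^ 2 / 4)) → AEStronglyMeasurable u μ →
      Integrable (fun p => u p ^ 2 * r p) μ →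
      (∀ ζ : E3 → ℝ, ContDiff ℝ 2 ζ → HasCompactSupport ζ →
        ∫ p, u p * stab M.w ζ p * r p ∂μ = ∫ p, (∑ i, l i * ψ i p) * ζ p * r p ∂μ) →
      (∀ i, ∫ p, u p * ψ i p * r p ∂μ = 0) → u =ᵐ[μ] 0 ∧ l = 0

end Vale.Agent.P218L
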