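import Vale.Agent.P218L.Spec

/-!
# P218, the linear half of INST, row CONE: the conical ends
-/

set_option linter.all false

open MeasureTheory Set Filter Topology
open scoped ContDiff Real

noncomputable section

namespace Vale.Agent.P218L

open Vale.Agent.P218T Vale.Agent.P218T.Cw
open Vale.Agent.P218N (kD kH kE)
open Vale.Agent.P218W (W Le jet XK TK toW ret_max)

namespace Cn

section ring

variable {R S : Type*} [CommRing R] [CommRing S]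

/-- the linearisation of `kH` -/
def dH (l κ κ' : R) (J H : Fin 7 → R) : R :=
  (2 * (l * (1 - κ * J 0)) * -(l * κ * H 0) + 2 * J 1 * H 1) * (l * (1 - κ * J 0)) * J 5 +
    ((l * (1 - κ * J 0)) ^ 2 + J 1 ^ 2) * (-(l * κ * H 0) * J 5 + l * (1 - κ * J 0) * H 5) -
    2 * (H 3 * J 1 + J 3 * H 1) * (l * (1 - κ * J 0) * J 4 - l * (1 - κ * J 3) * J 1) -
    2 * J 3 * J 1 * (-(l * κ * H 0) * J 4 + l * (1 - κ * J 0) * H 4 + l * κ * H 3 * J 1 -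
      l * (1 - κ * J 3) * H 1) +
    2 * J 3 * H 3 * (l * (1 - κ * J 0) * J 2 + l * (l * (1 - κ * J 0)) ^ 2 * (κ + J 3) +
      l * J 1 * (κ' * J 0 + 2 * κ * J 1)) +
    (1 + J 3 ^ 2) * (-(l * κ * H 0) * J 2 + l * (1 - κ * J 0) * H 2 +
      2 * l * (l * (1 - κ * J 0)) * -(l * κ * H 0) * (κ + J 3) +
      l * (l * (1 - κ * J 0)) ^ 2 * H 3 + l * H 1 * (κ' * J 0 + 2 * κ * J 1) +
      l * J 1 * (κ' * H 0 + 2 * κ * H 1))

/-- the linearisation of `kE`; `i` is the inverse of `kD` -/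
def dE (l κ κ' i : R) (J H : Fin 7 → R) : R :=
  2 * dH l κ κ' J H * i - 2 * kH l κ κ' (J 0) (J 1) (J 2) (J 3) (J 4) (J 5) *
    (2 * (l * (1 - κ * J 0)) * -(l * κ * H 0) * (1 + J 3 ^ 2) +
      (l * (1 - κ * J 0)) ^ 2 * (2 * J 3 * H 3) + 2 * J 1 * H 1) * i ^ 2 +
    l * κ * H 0 * J 6 - l * (1 - κ * J 0) * H 6

theorem map_dE (φ : R →+* S) (l κ κ' i : R) (J H : Fin 7 → R) : φ (dE l κ κ' i J H) =
    dE (φ l) (φ κ) (φ κ') (φ i) (fun k => φ (J k)) fun k => φ (H k) := by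
  simp only [dE, dH, kH, map_add, map_sub, map_mul, map_neg, map_pow, map_one, map_ofNat]

theorem dE_zero (l κ κ' i : R) {J H : Fin 7 → R} (hJ : ∀ k : Fin 6, J k.castSucc = 0)
    (h0 : H 0 = 0) (h1 : H 1 = 0) (h3 : H 3 = 0) :
    dE l κ κ' i J H = 2 * (l ^ 3 * H 5 + l * H 2) * i - l * H 6 := by
  have e0 : J 0 = 0 := hJ 0
  have e1 : J 1 = 0 := hJ 1
  have e2 : J 2 = 0 := hJ 2
  have e3 : J 3 = 0 := hJ 3
  have e4 : J 4 = 0 := hJ 4
  have e5 : J 5 = 0 := hJ 5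
  simp only [dE, dH, kH, e0, e1, e2, e3, e4, e5, h0, h1, h3]
  ring

end ring

theorem hd_kE {l κ κ' : ℂ} {j : ℂ → Fin 7 → ℂ} {H : Fin 7 → ℂ} (h : HasDerivAt j H 0)
    (hD : kD l κ (j 0 0) (j 0 1) (j 0 3) ≠ 0) :
    HasDerivAt (fun s => kE l κ κ' (j s 0) (j s 1) (j s 2) (j s 3) (j s 4) (j s 5) (j s 6))
      (dE l κ κ' (kD l κ (j 0 0) (j 0 1) (j 0 3))⁻¹ (j 0) H) 0 := by
  have d := hasDerivAt_pi.1 h
  have a := (((d 0).const_mul κ).const_sub 1).const_mul l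
  have b := ((d 3).fun_pow 2).const_add 1
  have h1 : HasDerivAt (fun s => kH l κ κ' (j s 0) (j s 1) (j s 2) (j s 3) (j s 4) (j s 5))
      (dH l κ κ' (j 0) H) 0 :=
    ((((((a.fun_pow 2).fun_add ((d 1).fun_pow 2)).fun_mul a).fun_mul (d 5)).fun_sub
      ((((d 3).const_mul 2).fun_mul (d 1)).fun_mul ((a.fun_mul (d 4)).fun_sub
        (((((d 3).const_mul κ).const_sub 1).const_mul l).fun_mul (d 1))))).fun_add
      (b.fun_mul (((a.fun_mul (d 2)).fun_add (((a.fun_pow 2).const_mul l).fun_mul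
        ((d 3).const_add κ))).fun_add (((d 1).const_mul l).fun_mul (((d 0).const_mul κ').fun_add
          ((d 1).const_mul (2 * κ))))))).congr_deriv (by simp only [dH]; push_cast; ring)
  have h2 := ((((a.fun_pow 2).fun_mul b).fun_add ((d 1).fun_pow 2)).fun_inv hD)
  simp only [kE, Ring.inverse_eq_inv]
  refine (((h1.const_mul 2).fun_mul h2).fun_sub (a.fun_mul (d 6))).congr_deriv ?_
  simp only [dE, kD, div_eq_mul_inv, ← inv_pow]
  push_cast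
  ring

theorem fd_kJ {γ n : ℝ → E3} {θ : ℝ} {J : Fin 7 → ℂ}
    (hD : kD (spd γ : ℂ) (kap γ n θ) (J 0) (J 1) (J 3) ≠ 0) (H : Fin 7 → ℂ) :
    fderiv ℂ (kJ γ n θ) J H = dE (spd γ : ℂ) (kap γ n θ) (deriv (kap γ n) θ : ℝ)
      (kD (spd γ : ℂ) (kap γ n θ) (J 0) (J 1) (J 3))⁻¹ J H := by
  have h := (d_kJ hD).hasFDerivAt.comp_hasDerivAt_of_eq (0 : ℂ) (hd_line J H) (by simp)
  simpa using h.unique (hd_kE (hd_line J H) (by simpa using hD))

/-- the coefficients of the model operator -/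
def cK (μ : ℂ) : Fin 7 → ℂ := ![0, 0, μ, 1, 0, 1, -1 / 2]

theorem pert {μ : ℝ} (hμ : 0 < μ) {a : Fin 7 → ℝ × ℝ → ℂ} (hb : ∀ i, a i ∈ Bd)
    (h2 : Sm (a 2)) (h4 : Sm (a 4)) (h5 : Sm (a 5)) (h6 : Sm (a 6))
    (hc : ∀ᶠ R in atTop, ∀ i, ContinuousOn (a i) (Ici R ×ˢ univ)) :
    ∃ C : ℝ, ∀ᶠ R in atTop, ∃ T : XK R →L[ℂ] W (max R),
      (∀ J, ∀ z ∈ Ici R, ∀ θ, T J (z, θ) = ∑ i, (cK μ i + a i (z, θ)) * J.1 i (z, θ)) ∧
      Function.Surjective T ∧ ∀ J, ‖J‖ ≤ C * ‖T J‖ := by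
  obtain ⟨R₀, C, -, C0, h⟩ := P218W.cone hμ
  choose K hK using hb
  have e0 : 0 < 1 / (16 * C) := by positivity
  refine ⟨2 * C, ?_⟩
  filter_upwards [eventually_ge_atTop R₀, eventually_ge_atTop (12 * C * (|K 0| + |K 1| + |K 3|)),
    eventually_all.2 hK, h2 _ e0, h4 _ e0, h5 _ e0, h6 _ e0, hc] with R r0 r1 k k2 k4 k5 k6 c
  have r := ret_max R
  obtain ⟨A, hA⟩ : ∃ A : Fin 7 → W (max R), ∀ i, ∀ z ∈ Ici R, ∀ θ, A i (z, θ) = a i (z, θ) :=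
    ⟨fun i => r.mk' _ (c i) ⟨_, k i⟩, fun i z hz θ => r.mk'_apply _ _ _ hz θ⟩
  have nA : ∀ i {M}, Le (Ici R) (a i) (fun _ => 1) M → ∀ J : XK R, ‖A i * J.1 i‖ ≤ M * ‖J.1 i‖ :=
    fun i M l J => (norm_mul_le _ _).trans
      (mul_le_mul_of_nonneg_right (r.norm_le (l.congr (hA i))) (norm_nonneg _))
  obtain ⟨P, hP⟩ : ∃ P : XK R →L[ℂ] W (max R), ∀ J, P J = ∑ i, A i * J.1 i :=
    ⟨∑ i, ContinuousLinearMap.mul ℂ _ (A i) ∘L .proj i ∘L (XK R).subtypeL, fun J => by simp⟩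
  obtain ⟨s, l⟩ := (h R r0).2.2 P (1 / (4 * C)) _ (le_of_eq (by field_simp)) r1 fun J => by
    have n : ∀ i, ‖J.1 i‖ ≤ ‖J‖ := fun i => norm_le_pi_norm J.1 i
    have m : ∀ i, Le (Ici R) (a i) (fun _ => 1) (1 / (16 * C)) →
        ‖A i * J.1 i‖ ≤ 1 / (16 * C) * ‖J‖ := fun i l =>
      (nA i l J).trans (mul_le_mul_of_nonneg_left (n i) e0.le)
    have m' : ∀ i, |K i| ≤ |K 0| + |K 1| + |K 3| →
        ‖A i * J.1 i‖ ≤ (|K 0| + |K 1| + |K 3|) * ‖J.1 i‖ := fun i l =>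
      (nA i (k i) J).trans (mul_le_mul_of_nonneg_right ((le_abs_self _).trans l) (norm_nonneg _))
    have := abs_nonneg (K 0)
    have := abs_nonneg (K 1)
    have := abs_nonneg (K 3)
    have e : 1 / (4 * C) = 4 * (1 / (16 * C)) := by field_simp; norm_num
    rw [hP, e]
    refine (norm_sum_le _ _).trans ?_
    rw [Fin.sum_univ_seven]
    linarith [m 2 k2, m 4 k4, m 5 k5, m 6 k6, m' 0 (by linarith), m' 1 (by linarith),
      m' 3 (by linarith)]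
  refine ⟨_, fun J z hz θ => ?_, s, fun J => (l J).1⟩
  simp [hP, P218W.TK_apply, P218W.LKW_apply, hA _ z hz, Fin.sum_univ_seven, cK,
    -Complex.coe_smul]
  ring

theorem cont_jet {F : ℝ × ℝ → ℂ} {y : ℝ × ℝ} (h : ContDiffAt ℝ 2 F y) (i : Fin 6) :
    ContinuousAt (jet F i) y := by
  have h1 := h.fderiv_right (m := 1) le_rfl
  have h2 := (h1.fderiv_right (m := 0) le_rfl).continuousAt
  have h3 := h1.continuousAt
  fin_cases i
  exacts [h.continuousAt, h3.clm_apply continuousAt_const,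
    (h2.clm_apply continuousAt_const).clm_apply continuousAt_const, h3.clm_apply continuousAt_const,
    (h2.clm_apply continuousAt_const).clm_apply continuousAt_const,
    (h2.clm_apply continuousAt_const).clm_apply continuousAt_const]

theorem quot {A Q : Type*} [CommRing A] [CommRing Q] [Algebra ℂ A] [Algebra ℂ Q] (φ : A →ₐ[ℂ] Q)
    {l : ℂ} (l0 : l ≠ 0) (κ κ' I : A) (J : Fin 7 → A) (q : ∀ k : Fin 6, φ (J k.castSucc) = 0)
    (hI : φ (I * kD (algebraMap ℂ A l) κ (J 0) (J 1) (J 3)) = φ 1) {i : Fin 7} (i0 : i ≠ 0)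
    (i1 : i ≠ 1) (i3 : i ≠ 3) : φ (dE (algebraMap ℂ A l) κ κ' I J (fun k => algebraMap ℂ A
      (Pi.single (M := fun _ => ℂ) i 1 k)) * algebraMap ℂ A (2 * l)⁻¹) =
      φ (algebraMap ℂ A (cK (l ^ 2)⁻¹ i)) := by
  have q0 : φ (J 0) = 0 := q 0
  have q1 : φ (J 1) = 0 := q 1
  have q3 : φ (J 3) = 0 := q 3
  have s : φ I * algebraMap ℂ Q (l ^ 2) = 1 := by simpa [kD, q0, q1, q3] using hI
  have sI : φ I = algebraMap ℂ Q (l ^ 2)⁻¹ := by
    rw [← mul_one (φ I), ← map_one (algebraMap ℂ Q), ← mul_inv_cancel₀ (pow_ne_zero 2 l0), map_mul,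
      ← mul_assoc, s, one_mul]
  have e := map_dE (φ : A →+* Q) (algebraMap ℂ A l) κ κ' I J fun k => algebraMap ℂ A
    (Pi.single (M := fun _ => ℂ) i 1 k)
  rw [dE_zero (R := Q) _ _ _ _ q (by simp [i0]) (by simp [i1]) (by simp [i3])] at e
  simp only [RingHom.coe_coe, AlgHom.commutes, sI] at e
  rw [map_mul, e]
  simp only [AlgHom.commutes, ← map_pow, ← map_mul, ← map_add, ← map_sub,
    ← map_ofNat (algebraMap ℂ Q) 2]
  congr 1
  fin_cases i <;> simp [cK] at i0 i1 i3 ⊢ <;> field_simp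

theorem quot' {A : Type*} [CommRing A] [Algebra ℂ A] (S : Ideal A)
    {l : ℂ} (l0 : l ≠ 0) (κ κ' I : A) (J : Fin 7 → A) (q : ∀ k : Fin 6, J k.castSucc ∈ S)
    (hI : I * kD (algebraMap ℂ A l) κ (J 0) (J 1) (J 3) - 1 ∈ S) {i : Fin 7} (i0 : i ≠ 0)
    (i1 : i ≠ 1) (i3 : i ≠ 3) : dE (algebraMap ℂ A l) κ κ' I J (fun k => algebraMap ℂ A
      (Pi.single (M := fun _ => ℂ) i 1 k)) * algebraMap ℂ A (2 * l)⁻¹ -
      algebraMap ℂ A (cK (l ^ 2)⁻¹ i) ∈ S :=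
  Ideal.Quotient.eq.1 (quot (Ideal.Quotient.mkₐ ℂ S) l0 κ κ' I J
    (fun k => Ideal.Quotient.eq_zero_iff_mem.2 (q k)) (Ideal.Quotient.eq.2 hI) i0 i1 i3)

theorem coef {l : ℂ} (l0 : l ≠ 0) {κ κ' : ℝ × ℝ → ℂ} {B : Fin 7 → ℝ × ℝ → ℂ} (hκ : κ ∈ Bd)
    (hκ' : κ' ∈ Bd) (sB : ∀ k : Fin 6, Sm (B k.castSucc)) (b6 : B 6 ∈ Bd) :
    (∀ᶠ R in atTop, ∀ z ∈ Ici R, ∀ θ,
      kD l (κ (z, θ)) (B 0 (z, θ)) (B 1 (z, θ)) (B 3 (z, θ)) ≠ 0) ∧
    ∀ a : Fin 7 → ℝ × ℝ → ℂ, (∀ i y, a i y = dE l (κ y) (κ' y) (kD l (κ y) (B 0 y) (B 1 y) (B 3 y))⁻¹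
      (fun k => B k y) (Pi.single i 1) / (2 * l) - cK (l ^ 2)⁻¹ i) →
      (∀ i, a i ∈ Bd) ∧ ∀ i, i ≠ 0 → i ≠ 1 → i ≠ 3 → Sm (a i) := by
  obtain ⟨J, hJ⟩ : ∃ J : Fin 7 → Bd, ∀ k, (J k).1 = B k :=
    ⟨fun k => ⟨B k, Fin.lastCases b6 (fun k => (sB k).bd) k⟩, fun _ => rfl⟩
  obtain rfl : B = fun k => (J k).1 := funext fun k => (hJ k).symm
  lift κ to Bd using hκ
  lift κ' to Bd using hκ'
  have q : ∀ k : Fin 6, Ideal.Quotient.mk SmI (J k.castSucc) = 0 := fun k =>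
    Ideal.Quotient.eq_zero_iff_mem.2 (sB k)
  have s0 : Ideal.Quotient.mk SmI (kD (algebraMap ℂ Bd l) κ (J 0) (J 1) (J 3)) =
      Ideal.Quotient.mk SmI (algebraMap ℂ Bd l ^ 2) := by
    have q0 : Ideal.Quotient.mk SmI (J 0) = 0 := q 0
    have q1 : Ideal.Quotient.mk SmI (J 1) = 0 := q 1
    have q3 : Ideal.Quotient.mk SmI (J 3) = 0 := q 3
    simp [kD, q0, q1, q3]
  obtain ⟨i1, n1⟩ := Sm.inv (Ideal.Quotient.eq.1 s0) (pow_ne_zero 2 l0)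
  have e : ∀ y, l ^ 2 + (kD (algebraMap ℂ Bd l) κ (J 0) (J 1) (J 3) - algebraMap ℂ Bd l ^ 2).1 y =
      kD l (κ.1 y) ((J 0).1 y) ((J 1).1 y) ((J 3).1 y) := fun y => by simp [kD]
  simp only [e] at i1 n1
  refine ⟨n1, fun a ha => ?_⟩
  obtain ⟨I, hI⟩ : ∃ I : Bd, ∀ y, I.1 y = (kD l (κ.1 y) ((J 0).1 y) ((J 1).1 y) ((J 3).1 y))⁻¹ :=
    ⟨⟨_, i1⟩, fun _ => rfl⟩
  have key : ∀ i, a i = (dE (algebraMap ℂ Bd l) κ κ' I J (fun k => algebraMap ℂ Bd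
      (Pi.single (M := fun _ => ℂ) i 1 k)) * algebraMap ℂ Bd (2 * l)⁻¹ -
      algebraMap ℂ Bd (cK (l ^ 2)⁻¹ i)).1 := fun i => funext fun y => by
    have := map_dE ((Pi.evalRingHom (fun _ => ℂ) y).comp Bd.val.toRingHom) (algebraMap ℂ Bd l) κ κ'
      I J fun k => algebraMap ℂ Bd (Pi.single (M := fun _ => ℂ) i 1 k)
    rw [ha, ← hI, div_eq_mul_inv]
    exact congrArg (· * _ - _) this.symm
  refine ⟨fun i => key i ▸ Subtype.property _, fun i i0 i1 i3 => ?_⟩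
  have sI : I * kD (algebraMap ℂ Bd l) κ (J 0) (J 1) (J 3) - 1 ∈ SmI := fun η h =>
    n1.mono fun R r => (P218W.le_zero (by simp)).mono subset_rfl (fun _ _ => le_rfl) h.le |>.congr
      fun z hz θ => by
        have := mul_inv_cancel₀ (r z hz θ)
        rw [← hI, mul_comm] at this
        simpa [kD, sub_eq_zero] using this
  rw [key i]
  exact quot' (A := Bd) SmI l0 κ κ' I J sB sI i0 i1 i3

theorem one (h : EQS) {M : Mod} (g : M.Geo) (l : Fin M.n₂) : ∃ C : ℝ, ∀ᶠ R in atTop,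
    ∃ T : XK R →L[ℂ] W (max R),
      (∀ J, ∀ z ∈ Ici R, ∀ θ, T J (z, θ) = DK M l (z, θ) fun i => J.1 i (z, θ)) ∧
      Function.Surjective T ∧ ∀ J, ‖J‖ ≤ C * ‖T J‖ := by
  obtain ⟨l0, -, sk, pk, -⟩ := conj' _ _ (g.link l)
  obtain ⟨c1, c2, c3⟩ := conw conj' _ _ _ (g.link l) (g.ended.cone l)
  obtain ⟨R₁, -, K, c3, -⟩ := c3 M.R ((h M g).2 l)
  have up : ∀ {F : ℝ × ℝ → ℂ} {R K : ℝ}, Le (Ici R) F (fun _ => 1) K →
      ∀ᶠ R in atTop, Le (Ici R) F (fun _ => 1) K := fun {F R K} a =>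
    (eventually_ge_atTop R).mono fun _ r => a.mono (Ici_subset_Ici.2 r) (fun _ _ => le_rfl) le_rfl
  have sk' := (contDiff_infty_iff_deriv.1 sk).2
  have l1 : (spd (M.γ l) : ℂ) ≠ 0 := by exact_mod_cast l0.ne'
  obtain ⟨n, k⟩ := coef l1 (B := fun k y => jk y.1 (fun i => jet (uS (M.g l)) i y) k)
    (bd_per sk pk) (bd_per sk' (per_deriv pk))
    (fun k η e => let ⟨_, _, a⟩ := c2 η e; up (a k)) ⟨_, up c3⟩
  obtain ⟨k1, k2⟩ := k _ fun _ _ => rfl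
  obtain ⟨C, hC⟩ := pert (μ := (spd (M.γ l) ^ 2)⁻¹) (by positivity) k1 (k2 2 (by simp) (by simp)
    (by simp)) (k2 4 (by simp) (by simp) (by simp)) (k2 5 (by simp) (by simp) (by simp))
    (k2 6 (by simp) (by simp) (by simp)) (by
      filter_upwards [n, eventually_gt_atTop 0] with R r r0 i
      have b : ∀ k, ContinuousOn (fun y : ℝ × ℝ => jk y.1 (fun i => jet (uS (M.g l)) i y) k)
          (Ici R ×ˢ univ) := fun k y hy => by
        have y0 : 0 < y.1 := r0.trans_le hy.1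
        have y1 : (y.1 : ℂ) ≠ 0 := by exact_mod_cast y0.ne'
        have := cont_jet ((c1 y y0).of_le Co.two_le)
        refine ContinuousAt.continuousWithinAt ?_
        fin_cases k <;> simp only [jk] <;> simp <;> fun_prop (disch := assumption)
      have b1 := sk.continuous
      have b2 := sk'.continuous
      have b3 : ContinuousOn (fun y : ℝ × ℝ => (kD (spd (M.γ l) : ℂ) (kap (M.γ l) (M.n l) y.2)
          (jk y.1 (fun i => jet (uS (M.g l)) i y) 0) (jk y.1 (fun i => jet (uS (M.g l)) i y) 1)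
          (jk y.1 (fun i => jet (uS (M.g l)) i y) 3))⁻¹) (Ici R ×ˢ univ) :=
        ContinuousOn.inv₀ (by unfold kD; fun_prop) fun y hy => r y.1 hy.1 y.2
      unfold dE dH kH
      fun_prop)
  refine ⟨C, (hC.and n).mono fun R ⟨⟨T, e, s⟩, r⟩ => ⟨T, fun J z hz θ => ?_, s⟩⟩
  rw [e J z hz, DK, ← Finset.univ_sum_single fun i => J.1 i (z, θ), map_sum, Finset.sum_div]
  refine Finset.sum_congr rfl fun i _ => ?_
  rw [show Pi.single (M := fun _ => ℂ) i (J.1 i (z, θ)) = J.1 i (z, θ) • Pi.single i 1 by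
    rw [← Pi.single_smul, smul_eq_mul, mul_one], map_smul, fd_kJ (r z hz θ)]
  push_cast
  simp only [smul_eq_mul]
  ring

end Cn

/-- **CONE** -/
theorem cone' (h : EQS) : CONE := by
  intro M g
  choose C hC using Cn.one h g
  obtain ⟨R₂, hR⟩ := eventually_atTop.1 (eventually_all.2 hC)
  refine ⟨R₂, ∑ l, |C l|, fun k L hz l => ?_⟩
  obtain ⟨T, e, s, a⟩ := hR _ hz l
  have t : ∀ J, T J = toW (Ici L.z₀) (max L.z₀) fun y => DK M l y fun i => J.1 i y := fun J =>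
    ((ret_max _).toW_eq (e J)).symm
  obtain rfl : T = L.TS l := ContinuousLinearMap.ext fun J =>
    (t J).trans (toL_apply ⟨T, t⟩ J).symm
  exact ⟨fun J y hy => e J y.1 hy y.2, s, fun J => (a J).trans (mul_le_mul_of_nonneg_right
    ((le_abs_self _).trans (Finset.single_le_sum (fun l _ => abs_nonneg (C l)) (Finset.mem_univ l)))
    (norm_nonneg _))⟩

end Vale.Agent.P218L
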