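import Vale.Agent.P218L.Spec

/-!
# P218, the linear half of INST: the Jacobi fields are independent at infinity
-/

open Set Filter Topology
open scoped ContDiff RealInnerProductSpace Real

set_option linter.all false

noncomputable section

namespace Vale.Agent.P218L

open Vale.Agent.P218T Vale.Agent.P218T.Frm Vale.Agent.P218T.Cy
open Vale.Agent.P218N (V3 cx nu cr dt fr Orth smul_dt cr0 cr1 cr2)
open Vale.Agent.P218W (co c1 ex c1_le c1_add c1_mul c1_ex c1_one wj omH wH_le)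

namespace Indy

/-- the three lowest modes determine the coefficients -/
theorem modes {F E : ℝ → ℂ} (cE : Continuous E) {z c : ℝ} (hz : 2 ≤ z) (hc : 1 ≤ |c|)
    (m : Fin 3 → ℂ) (hE : ∀ θ, ‖E θ‖ ≤ ‖m‖ * z / 2)
    (hF : ∀ θ, F θ = m 0 * (z ^ 2 - 2) + 2 * c * z * (m 2 * Real.cos θ - m 1 * Real.sin θ) + E θ) :
    ‖m‖ ≤ 4 * (‖c1 F 0‖ / z ^ 2 + (‖c1 F 1‖ + ‖c1 F (-1)‖) / z) := by
  have e : F = fun θ => ((m 0 * (z ^ 2 - 2) * ex 0 θ + c * z * (m 2 + Complex.I * m 1) * ex 1 θ) +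
      c * z * (m 2 - Complex.I * m 1) * ex (-1) θ) + E θ := funext fun θ => by
    rw [hF]
    simp only [ex, Complex.ofReal_cos, Complex.ofReal_sin, Complex.cos, Complex.sin]
    push_cast
    simp only [zero_mul, Complex.exp_zero]
    ring_nf
  have k : ∀ j, c1 F j = (m 0 * (z ^ 2 - 2) * (if j = 0 then 1 else 0) +
      c * z * (m 2 + Complex.I * m 1) * (if j = 1 then 1 else 0) +
      c * z * (m 2 - Complex.I * m 1) * (if j = -1 then 1 else 0)) + c1 E j := fun j => by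
    rw [e, c1_add (by fun_prop) cE, c1_add (by fun_prop) (by fun_prop),
      c1_add (by fun_prop) (by fun_prop), c1_mul, c1_mul, c1_mul, c1_ex, c1_ex, c1_ex]
  have b := fun j => c1_le (fun θ _ => hE θ) j
  have z0 : 0 < z := by linarith
  have n : ∀ (j : ℤ) (a : ℂ), c1 F j = a + c1 E j → ‖a‖ ≤ ‖c1 F j‖ + ‖m‖ * z / 2 := fun j a h => by
    rw [eq_sub_of_add_eq h.symm]
    exact (norm_sub_le _ _).trans (by linarith [b j])
  have h0 := n 0 (m 0 * (z ^ 2 - 2)) (by simpa using k 0)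
  have h1 := n 1 (c * z * (m 2 + Complex.I * m 1)) (by simpa using k 1)
  have h2 := n (-1) (c * z * (m 2 - Complex.I * m 1)) (by simpa using k (-1))
  rw [norm_mul, show ((z : ℂ) ^ 2 - 2) = ((z ^ 2 - 2 : ℝ) : ℂ) by push_cast; rfl, Complex.norm_real,
    Real.norm_of_nonneg (by nlinarith)] at h0
  rw [norm_mul, norm_mul, Complex.norm_real, Complex.norm_real, Real.norm_eq_abs,
    Real.norm_of_nonneg z0.le] at h1 h2
  have a1 : 2 * ‖m 1‖ ≤ ‖m 2 + Complex.I * m 1‖ + ‖m 2 - Complex.I * m 1‖ := by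
    refine le_trans (le_of_eq ?_) (norm_sub_le _ _)
    rw [show m 2 + Complex.I * m 1 - (m 2 - Complex.I * m 1) = 2 * (Complex.I * m 1) by ring]
    simp
  have a2 : 2 * ‖m 2‖ ≤ ‖m 2 + Complex.I * m 1‖ + ‖m 2 - Complex.I * m 1‖ := by
    refine le_trans (le_of_eq ?_) (norm_add_le _ _)
    rw [show m 2 + Complex.I * m 1 + (m 2 - Complex.I * m 1) = 2 * m 2 by ring]
    simp
  have p := norm_nonneg (m 2 + Complex.I * m 1)
  have p' := norm_nonneg (m 2 - Complex.I * m 1)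
  generalize ‖m 2 + Complex.I * m 1‖ = u at *
  generalize ‖m 2 - Complex.I * m 1‖ = v at *
  have s : u + v ≤ (‖c1 F 1‖ + ‖c1 F (-1)‖) / z + ‖m‖ := by
    rw [← sub_le_iff_le_add, le_div_iff₀ z0]
    nlinarith [mul_nonneg (mul_nonneg (sub_nonneg.2 hc) z0.le) (add_nonneg p p')]
  have s0 : ‖m 0‖ ≤ 2 * (‖c1 F 0‖ / z ^ 2) + ‖m‖ / 2 := by
    rw [← sub_le_iff_le_add, ← mul_div_assoc, le_div_iff₀ (by positivity)]
    nlinarith [mul_nonneg (norm_nonneg (m 0)) (show 0 ≤ z ^ 2 - 4 by nlinarith),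
      mul_nonneg (norm_nonneg m) (show 0 ≤ z ^ 2 - 2 * z by nlinarith)]
  have q0 : 0 ≤ ‖c1 F 0‖ / z ^ 2 := by positivity
  have q1 : 0 ≤ (‖c1 F 1‖ + ‖c1 F (-1)‖) / z := by positivity
  have : ‖m‖ ≤ 2 * (‖c1 F 0‖ / z ^ 2 + (‖c1 F 1‖ + ‖c1 F (-1)‖) / z) + ‖m‖ / 2 :=
    (pi_norm_le_iff_of_nonneg (by positivity)).2 fun i => by
      fin_cases i <;> simp only [Fin.zero_eta, Fin.mk_one, Fin.reduceFinMk] <;> linarith
  linarith

variable {M : Mod} (g : M.Geo) {j : Fin M.n₁} {y : ℝ × ℝ}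
include g

/-- the normal in the moving frame -/
theorem nu_eq (hy : M.R < y.1) : nu M.w (M.P (.inl j) y) = FQ (M.Q j) y.2
    ![(2 * (√2 + M.f j y) * q M (.inl j) y : ℝ),
      (-2 * fderiv ℝ (M.f j) y (0, 1) * q M (.inl j) y : ℝ),
      (-2 * (√2 + M.f j y) * fderiv ℝ (M.f j) y (1, 0) * q M (.inl j) y : ℝ)] := by
  have o := on_Q (M.Q j) y.2
  have a := g.nu_er (i := j) hy
  have b := g.nu_perp (.inl j) hy (0, 1)
  have c := g.nu_perp (.inl j) hy (1, 0)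
  have r0 := g.r_ne (i := j) hy
  have d := cylPt_der (M.Q j) (dc_of (g.ended.cyl j)) y
  simp only [Mod.P, d, inner_add_right, inner_smul_right] at a b c
  have e := o.exp (gradient M.w (cylPt (M.Q j) (M.f j) y))
  simp only [real_inner_comm (gradient M.w _)] at e
  have b' : ⟪gradient M.w (cylPt (M.Q j) (M.f j) y), eT (M.Q j) y.2⟫ =
      -2 * fderiv ℝ (M.f j) y (0, 1) * q M (.inl j) y := mul_left_cancel₀ r0 (by
    linear_combination b - fderiv ℝ (M.f j) y (0, 1) * a)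
  have c' : ⟪gradient M.w (cylPt (M.Q j) (M.f j) y), axis (M.Q j)⟫ =
      -2 * (√2 + M.f j y) * fderiv ℝ (M.f j) y (1, 0) * q M (.inl j) y := by
    linear_combination c - fderiv ℝ (M.f j) y (1, 0) * a
  rw [a, b', c'] at e
  rw [nu, Mod.P, e]
  ext i
  simp [FQ, fr, cx]

/-- the rotation fields -/
theorem rot_eq (hy : M.R < y.1) (a b : ℝ) {o : V3} (ho : o = FQ (M.Q j) y.2 ![a, b, 0]) :
    dt (cr o (cx (M.P (.inl j) y))) (nu M.w (M.P (.inl j) y)) / q M (.inl j) y =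
      (2 * M.ε (.inl j) * (b * ((√2 + M.f j y) * y.1 + (√2 + M.f j y) ^ 2 *
        fderiv ℝ (M.f j) y (1, 0)) + a * y.1 * fderiv ℝ (M.f j) y (0, 1)) : ℝ) := by
  have q0 : (q M (.inl j) y : ℂ) ≠ 0 := by exact_mod_cast g.qn_ne (.inl j) hy
  have o := g.orthQ j y.2
  rw [nu_eq g hy, ho, Mod.P, (cylj (M.Q j)).2.1, o.cr, smul_dt, o.dt, div_eq_iff q0]
  simp only [dt, cr0, cr1, cr2, Matrix.cons_val]
  push_cast
  ring

omit g in
theorem om_eq (Q : E3 ≃ₗᵢ[ℝ] E3) (θ : ℝ) :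
    om Q 1 = FQ Q θ ![(Real.cos θ : ℝ), (-Real.sin θ : ℝ), 0] ∧
      om Q 2 = FQ Q θ ![(Real.sin θ : ℝ), (Real.cos θ : ℝ), 0] := by
  have e : ∀ a b : ℝ, FQ Q θ ![a, b, 0] = cx (a • eR Q θ + b • eT Q θ + (0 : ℝ) • axis Q) :=
    fun a b => by
      ext i
      simp [FQ, fr, cx]
  rw [e, e, comb, comb]
  have s := Real.cos_sq_add_sin_sq θ
  constructor
  · change cx (eR Q 0) = _
    rw [eR]
    congr 2
    ext i
    fin_cases i <;> simp <;> linarith
  · change cx (eT Q 0) = _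
    rw [eT]
    congr 2
    ext i
    fin_cases i <;> simp <;> linarith

omit g in
theorem err {ε a b f u v z : ℝ} (hε : |ε| = 1) (ha : |a| ≤ 1) (hb : |b| ≤ 1) (hz : 2 ≤ z)
    (hf : |f| ≤ 1 / 48) (hu : |u| ≤ 1 / 48) (hv : |v| ≤ 1 / 48) (hr : √2 + f ∈ Icc 1 2) :
    |2 * ε * (b * (f * z + (√2 + f) ^ 2 * u) + a * z * v)| ≤ z / 6 := by
  have z0 : 0 ≤ z := by linarith
  have r : (√2 + f) ^ 2 ≤ 4 := by nlinarith [hr.1, hr.2]
  have h1 : |f * z + (√2 + f) ^ 2 * u| ≤ 1 / 48 * z + 4 * (1 / 48) := by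
    refine (abs_add_le _ _).trans ?_
    rw [abs_mul, abs_mul, abs_of_nonneg z0, abs_of_nonneg (sq_nonneg (√2 + f))]
    gcongr
  have h2 : |b * (f * z + (√2 + f) ^ 2 * u)| ≤ 1 * (1 / 48 * z + 4 * (1 / 48)) := by
    rw [abs_mul]
    gcongr
  have h3 : |a * z * v| ≤ 1 * z * (1 / 48) := by
    rw [abs_mul, abs_mul, abs_of_nonneg z0]
    gcongr
  rw [abs_mul, abs_mul, hε, abs_two]
  linarith [abs_add_le (b * (f * z + (√2 + f) ^ 2 * u)) (a * z * v)]

end Indy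

open Indy in
/-- **INDY** -/
theorem indy : INDY := fun M k L h => by
  have g := h.geo
  have d := fun j => dc_of (g.ended.cyl j)
  have e : (0 : ℝ) < 1 / 48 := by norm_num
  obtain ⟨R, hR⟩ := ev_up.1 (eventually_all.2 fun j =>
    ((d j).small e).and ((((d j).dir (1, 0)).small e).and (((d j).dir (0, 1)).small e)))
  obtain ⟨C, hC⟩ := Finite.exists_le fun j => ‖(L.yv j).1 0‖
  refine ⟨max (max 4 (M.R + 1)) (max R ((3 * C) ^ 2)), by simp, fun j z hz m F hF => ?_⟩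
  have K4 : 4 ≤ max (max 4 (M.R + 1)) (max R ((3 * C) ^ 2)) := by simp
  simp only [max_le_iff] at hz
  obtain ⟨⟨z4, zR⟩, zS, zC⟩ := hz
  have hε : |M.ε (.inl j)| = 1 := by
    rw [← sq_eq_sq₀ (abs_nonneg _) zero_le_one, sq_abs, pow_two, (g.sq _).2, one_pow]
  set ee : ℝ → ℝ → ℝ → ℝ := fun a b θ => 2 * M.ε (.inl j) * (b * (M.f j (z, θ) * z +
    (√2 + M.f j (z, θ)) ^ 2 * fderiv ℝ (M.f j) (z, θ) (1, 0)) +
      a * z * fderiv ℝ (M.f j) (z, θ) (0, 1)) with hee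
  have hy : ∀ θ : ℝ, M.R < ((z, θ) : ℝ × ℝ).1 := fun θ => show M.R < z by linarith
  have b : ∀ a b θ, |a| ≤ 1 → |b| ≤ 1 → ‖(ee a b θ : ℂ)‖ ≤ z / 6 := fun a b θ ha hb => by
    obtain ⟨k1, k2, k3⟩ := hR (z, θ) zS j
    rw [Complex.norm_real]
    exact err hε ha hb (by linarith) k1 k2 k3 (g.r_mem (hy θ))
  have c0 := (d j).sm.continuous
  have c1 := ((d j).dir (1, 0)).sm.continuous
  have c2 := ((d j).dir (0, 1)).sm.continuous
  refine le_trans (modes (F := fun θ => F (z, θ)) (c := √2 * M.ε (.inl j))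
    (E := fun θ => m 0 * (wy z * (L.yv j).1 0 (z, θ)) +
      m 1 * ee (Real.cos θ) (-Real.sin θ) θ + m 2 * ee (Real.sin θ) (Real.cos θ) θ)
    ?_ (by linarith) ?_ m (fun θ => ?_) fun θ => ?_) (mul_le_mul_of_nonneg_right K4 (by positivity))
  · have c1' : Continuous fun θ : ℝ => fderiv ℝ (M.f j) (z, θ) (1, 0) := c1.comp (by fun_prop)
    have c2' : Continuous fun θ : ℝ => fderiv ℝ (M.f j) (z, θ) (0, 1) := c2.comp (by fun_prop)
    simp only [hee]
    fun_prop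
  · rw [abs_mul, hε, mul_one, abs_of_nonneg (Real.sqrt_nonneg _)]
    exact Real.one_lt_sqrt_two.le
  · have w1 := wH_le (a := -1 / 16) (ε := 0) (R := 1) le_rfl (by norm_num) le_rfl
      (show z ∈ Ici 1 from show 1 ≤ z by linarith)
    have w0 := P218W.wH_pos (a := -1 / 16) (ε := 0) one_pos le_rfl z
      (show z ∈ Ici 1 from show 1 ≤ z by linarith)
    have s : 3 * C ≤ √z := Real.le_sqrt_of_sq_le zC
    have s2 := Real.mul_self_sqrt (show 0 ≤ z by linarith)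
    have b0 : ‖(wy z : ℂ) * (L.yv j).1 0 (z, θ)‖ ≤ z / 6 := by
      rw [norm_mul, Complex.norm_real, Real.norm_of_nonneg w0.le]
      refine (mul_le_mul w1 ((((L.yv j).1 0).apply_le _).trans (show _ ≤ C / 2 by linarith [hC j]))
        (norm_nonneg _) (by positivity)).trans ?_
      nlinarith [Real.sqrt_nonneg z]
    have b1 := b (Real.cos θ) (-Real.sin θ) θ (Real.abs_cos_le_one θ)
      (by rw [abs_neg]; exact Real.abs_sin_le_one θ)
    have b2 := b (Real.sin θ) (Real.cos θ) θ (Real.abs_sin_le_one θ) (Real.abs_cos_le_one θ)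
    have n : ∀ (i : Fin 3) (x : ℂ), ‖x‖ ≤ z / 6 → ‖m i * x‖ ≤ ‖m‖ * (z / 6) := fun i x hx => by
      rw [norm_mul]
      exact mul_le_mul (norm_le_pi_norm m i) hx (norm_nonneg _) (norm_nonneg _)
    exact (norm_add_le_of_le (norm_add_le_of_le (n 0 _ b0) (n 1 _ b1)) (n 2 _ b2)).trans_eq (by ring)
  · have q0 : (q M (.inl j) (z, θ) : ℂ) ≠ 0 := by exact_mod_cast g.qn_ne (.inl j) (hy θ)
    have p0 : Per M.R fun y => (q M (.inl j) y : ℂ) * yj (L.yv j) 0 y := fun z θ hz => by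
      simp only [g.per_qn _ z θ hz, yj, wj, P218W.W.per]
    have p1 := g.lift_P (e := .inl j) (F := fun _ => (1 : ℝ)) (fun _ _ _ => rfl) (hy θ)
    have r1 := rot_eq g (hy θ) _ _ (om_eq (M.Q j) θ).1
    have r2 := rot_eq g (hy θ) _ _ (om_eq (M.Q j) θ).2
    rw [div_eq_iff q0] at r1 r2
    rw [hF, div_eq_iff q0, Fin.sum_univ_three]
    simp only [LD.ph, if_true, one_ne_zero, if_false, show (2 : Fin 3) ≠ 0 by decide, p1, r1, r2,
      g.lift_P p0 (hy θ), hee]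
    simp only [yj, hj, wj, omH, Matrix.cons_val_zero]
    push_cast
    ring

end Vale.Agent.P218L
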