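import Vale.Agent.P218L.Spec
import Vale.Agent.P218H.Nqs
import Vale.Agent.P218H.Geos
import Vale.Agent.P218C.Lift

/-!
# P218, the linear half of INST: the row KAP
-/

open MeasureTheory Set Filter Topology Metric
open scoped ContDiff RealInnerProductSpace Real ComplexConjugate

noncomputable section

namespace Vale.Agent.P218L

open Vale.Agent.P218T Vale.Agent.P218M
open Vale.Agent.P218.H63 (stab)
open Vale.Agent.P218H (op sa st tg En MS QQ geos glob op_congr op_clm st_smooth st_zero st_one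
  st_ev_zero st_ev_one)
open Vale.Agent.P218H.Nq

namespace Kap

variable {n : ℕ} {S : Set (En n)} {w χ G : En n → ℝ} {ν : Measure (En n)}

theorem int_sq (h : Dt S w ν) (hχ : ContDiff ℝ 1 χ) (hG : Continuous G)
    (hc : HasCompactSupport G) : Integrable (fun x => G x ^ 2 * ‖tg w χ x‖ ^ 2) ν :=
  h.intg ((hG.pow 2).mul ((cont_tg h.sw hχ).norm.pow 2)) hc fun x hx => by
    simp [image_eq_zero_of_notMem_tsupport hx]

/-- the commutator tested against the localised function -/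
theorem energy (h : Dt S w ν) (hχ : ContDiff ℝ 2 χ) (hG : ContDiff ℝ 2 G)
    (hc : HasCompactSupport G) :
    ∫ x, χ x * G x * (stab w (fun y => χ y * G y) x - χ x * stab w G x) ∂ν =
      -∫ x, G x ^ 2 * ‖tg w χ x‖ ^ 2 ∂ν := by
  have h1 : ContDiff ℝ 1 χ := hχ.of_le (by norm_num)
  have h2 := hχ.mul hG
  have hz : ∀ x, x ∉ tsupport G → G x = 0 := fun x hx => image_eq_zero_of_notMem_tsupport hx
  have i2 : Integrable (fun x => χ x * (χ x * G x) * stab w G x) ν :=
    h.intg ((hχ.continuous.mul h2.continuous).mul (h.cst hG)) hc fun x hx => by simp [hz x hx]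
  have i3 : Integrable (fun x => χ x * G x * stab w (fun y => χ y * G y) x) ν :=
    h.intg (h2.continuous.mul (h.cst h2)) hc fun x hx => by simp [hz x hx]
  have e1 := h.qq h1 hG hc
  have e2 : ∫ x, χ x * G x * stab w (fun y => χ y * G y) x ∂ν = -QQ w ν fun y => χ y * G y := by
    rw [h.ms.green _ _ (h2.of_le (by norm_num)) hc.mul_left h2, QQ, ← integral_neg]
    refine integral_congr_ae (Eventually.of_forall fun x => ?_)
    simp only [real_inner_self_eq_norm_sq]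
    ring
  rw [integral_sub (int_sq h h1 hG.continuous hc) i2] at e1
  rw [integral_congr_ae (g := fun x => χ x * G x * stab w (fun y => χ y * G y) x -
    χ x * (χ x * G x) * stab w G x) (Eventually.of_forall fun x => by ring), integral_sub i3 i2,
    e2, e1]
  ring

theorem int_pos (h : Dt S w ν) (hχ : ContDiff ℝ 1 χ) (hG : Continuous G)
    (hc : HasCompactSupport G) {p : En n} (hp : p ∈ S) (h1 : G p ≠ 0) (h2 : tg w χ p ≠ 0) :
    0 < ∫ x, G x ^ 2 * ‖tg w χ x‖ ^ 2 ∂ν := by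
  have c : Continuous fun x => G x ^ 2 * ‖tg w χ x‖ ^ 2 :=
    (hG.pow 2).mul ((cont_tg h.sw hχ).norm.pow 2)
  rw [integral_pos_iff_support_of_nonneg (fun x => by positivity) (int_sq h hχ hG hc)]
  obtain ⟨r, hr, k⟩ := Metric.isOpen_iff.1 c.isOpen_support p
    (mul_ne_zero (pow_ne_zero 2 h1) (pow_ne_zero 2 (norm_ne_zero_iff.2 h2)))
  exact (h.ms.pos p hp r hr).trans_le (measure_mono k)

/-- the cut-off function is not constant along an end -/
theorem ex_tg {M : Mod} (g : M.Geo) (e : M.I) {ρ : ℝ} (hρ : M.R < ρ) :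
    ∃ z, ρ ≤ z ∧ tg M.w (st (ρ + 1)) (M.P e (z, 0)) ≠ 0 := by
  have r0 : 0 ≤ ρ + 1 := by linarith [g.one.1]
  have d0 : Differentiable ℝ (st (ρ + 1) : E3 → ℝ) := (st_smooth _).differentiable (by simp)
  have d : ∀ z, ρ ≤ z → HasDerivAt (fun z => st (ρ + 1) (M.P e (z, 0)))
      (fderiv ℝ (st (ρ + 1)) (M.P e (z, 0)) (fderiv ℝ (M.P e) (z, 0) (1, 0))) z := fun z hz =>
    (d0 _).hasFDerivAt.comp_hasDerivAt z
      (((g.cdP e (y := (z, 0)) (hρ.trans_le hz)).differentiableAt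
        (by simp)).hasFDerivAt.comp_hasDerivAt z
          ((hasDerivAt_id z).prodMk (hasDerivAt_const z (0 : ℝ))))
  obtain ⟨z, hz, k⟩ := exists_hasDerivAt_eq_slope (fun z => st (ρ + 1) (M.P e (z, 0))) _
    (show ρ < ρ + 2 by linarith) (fun z hz => (d z hz.1).continuousAt.continuousWithinAt)
    fun z hz => d z hz.1.le
  have k0 := ((g.cht e).rad (ρ, 0) hρ).2
  have k1 := ((g.cht e).rad (ρ + 2, 0) (by linarith)).1
  rw [st_one r0 (by linarith), st_zero r0 (by linarith)] at k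
  refine ⟨z, hz.1.le, fun h0 => ?_⟩
  have k2 := congrArg (fun v => ⟪v, fderiv ℝ (M.P e) (z, 0) (1, 0)⟫) h0
  simp only [tg, inner_sub_left, real_inner_smul_left, inner_zero_left,
    g.nu_perp e (y := (z, 0)) (hρ.trans hz.1), mul_zero, sub_zero] at k2
  rw [gradient, InnerProductSpace.toDual_symm_apply, k] at k2
  norm_num at k2

end Kap

open Kap in
theorem kap' (h1 : MSG) (h2 : QB) (h3 : SLOW) : KAP := by
  intro M k L hL j
  have g := hL.geo
  obtain ⟨-, he, hop, -⟩ := geos 3 _ _ _ _ g.shr g.smw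
  have h : Dt M.S M.w (ga M.w) :=
    ⟨(h1 _ _ _ _ g.shr g.smw).1, g.smw.of_le (by simp), fun p hp => g.norm_nu hp, he.sm, hop⟩
  obtain ⟨s1, C, s2⟩ := h3 M k L hL
  obtain ⟨-, -, -, a1, a2, -, a3⟩ := s1 (j, 0)
  have hρ : M.R < L.ρ := by linarith [hL.lo, hL.hi]
  have r0 : 0 ≤ L.ρ + 1 := by linarith [g.one.1]
  simp only [if_true] at a2
  have cu : ∀ p ∈ M.S, L.ρ + 1 ≤ ‖p‖ → ContDiffAt ℝ 2 (fun x => (L.ph (j, 0) x).re) p :=
    fun p hp hp' => Complex.reCLM.contDiff.contDiffAt.comp p (a3 p hp (by linarith [hL.hi])).1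
  obtain ⟨G, G1, G2, G3⟩ := glob (g := fun x => (L.ph (j, 0) x).re)
    (K := M.S ∩ {x | L.ρ + 1 ≤ ‖x‖} ∩ closedBall 0 (L.ρ + 1 + 1))
    ((isCompact_closedBall _ _).inter_left
      (g.isClosed_S.inter (isClosed_le continuous_const continuous_norm)))
    fun p hp => cu p hp.1.1 hp.1.2
  have c2 : ContDiff ℝ 2 (st (L.ρ + 1) : E3 → ℝ) := contDiff_infty.1 (st_smooth _) 2
  have eY : L.Y (j, 0) = fun x => Complex.ofRealCLM (st (L.ρ + 1) x * (L.ph (j, 0) x).re) := by
    funext x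
    simp only [LD.Y, LD.ch, if_true, Complex.ofRealCLM_apply, Complex.ofReal_mul,
      Complex.conj_eq_iff_re.1 (a1 x), Complex.real_smul]
  have key : ∀ p ∈ M.S, L.Y (j, 0) p * L.b (j, 0) p = ((st (L.ρ + 1) p * G p *
      (stab M.w (fun y => st (L.ρ + 1) y * G y) p - st (L.ρ + 1) p * stab M.w G p) : ℝ) : ℂ) := by
    intro p hp
    rw [← hop _ p (c2.mul G1).contDiffAt, ← hop _ p G1.contDiffAt]
    rcases lt_or_ge ‖p‖ (L.ρ + 1) with l1 | l1
    · rw [not_not.1 fun b0 => (a2 p hp b0).2.1.not_gt l1, st_zero r0 l1.le]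
      simp
    rcases lt_or_ge (L.ρ + 1 + 1) ‖p‖ with l2 | l2
    · rw [not_not.1 fun b0 => (a2 p hp b0).2.2.not_gt l2, st_one r0 l2.le,
        op_congr (g := G) ((st_ev_one r0 l2).mono fun y hy => by simp [hy])]
      simp
    have ev := G3 p ⟨⟨hp, l1⟩, mem_closedBall_zero_iff.2 l2⟩
    have k1 := a3 p hp (by linarith [hL.hi])
    have k2 : op (sa M.w) (fun x => (L.ph (j, 0) x).re) p = 0 :=
      (op_clm Complex.reCLM k1.1).trans (by rw [k1.2, map_zero])
    rw [op_congr ev, k2, op_congr (g := fun y => st (L.ρ + 1) y * (L.ph (j, 0) y).re)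
      (ev.mono fun y hy => by simp only [hy]), ← (s2 (j, 0) p hp).2.1, eY,
      op_clm Complex.ofRealCLM (c2.contDiffAt.mul (cu p hp l1)), ev.eq_of_nhds]
    simp
  have e : L.ka j = ((-∫ x, G x ^ 2 * ‖tg M.w (st (L.ρ + 1)) x‖ ^ 2 ∂ga M.w : ℝ) : ℂ) := by
    rw [← energy h c2 G1 G2, ← integral_complex_ofReal]
    exact integral_congr_ae (h.ae.mono key)
  refine ⟨by rw [e, Complex.ofReal_im], ?_, fun j' hj => ?_⟩
  · obtain ⟨z, hz, t⟩ := ex_tg g (.inl j) hρ
    have hy : M.R < (z, (0 : ℝ)).1 := hρ.trans_le hz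
    have hp := g.mem (.inl j) _ hy
    have l : ∀ a : ℝ, ¬∀ᶠ y in 𝓝 (M.P (.inl j) (z, 0)), st (L.ρ + 1) y = a := fun a ha =>
      t (tg_zero ((EventuallyEq.fderiv_eq ha).trans (fderiv_const_apply a)))
    have ev := G3 _ ⟨⟨hp, not_lt.1 fun b => l 0 (st_ev_zero r0 b)⟩,
      mem_closedBall_zero_iff.2 (not_lt.1 fun b => l 1 (st_ev_one r0 b))⟩
    obtain ⟨K, K1, q1, -⟩ := h2 M g
    have per : Per M.R fun y => q M (.inl j) y * yj (L.yv j) 0 y := fun z θ hz => by
      simp only [(q1 _).1 z θ hz, yj, P218W.wj, P218W.W.per]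
    rw [e, Complex.ofReal_re, neg_lt_zero]
    refine int_pos h (c2.of_le (by norm_num)) G1.continuous G2 hp ?_ t
    rw [ev.eq_of_nhds]
    simp only [LD.ph, if_true, g.lift_P per hy, Complex.re_ofReal_mul]
    exact mul_ne_zero
      (abs_pos.1 ((by positivity : 0 < 1 / K).trans_le ((q1 _).2.2 _ hy).2.2.2.2.1))
      (one_pos.trans_le (hL.pos j (z, 0) hz)).ne'
  · refine integral_eq_zero_of_ae (h.ae.mono fun p hp => ?_)
    by_contra b0
    obtain ⟨b1, b2⟩ := mul_ne_zero_iff.1 b0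
    obtain ⟨y, hy, rfl⟩ := (a2 p hp b2).1
    exact g.notMem_En (e := .inl j') (by simpa using hj) (Ici_subset_Ioi.2 hρ)
      (hρ.trans_le hy.1.1) ((s1 (j', 0)).2.2.2.2.2.1 _ hp b1)

end Vale.Agent.P218L
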