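import Vale.Agent.P218I.Spec

/-!
# P218: the fixed data exist
-/

open Set Filter Topology

noncomputable section

namespace Vale.Agent.P218L

open Vale.Agent.P218T Vale.Agent.P218M Vale.Agent.P218I
open Vale.Agent.P218W (XE YE)

variable {M : Mod} {k : ℕ} {L : LD M k} {C C' δ R : ℝ}

theorem LD.ConeOk.mono {l} (h : L.ConeOk l C) (e : C ≤ C') : L.ConeOk l C' :=
  ⟨h.eqn, h.surj, fun J => (h.apr J).trans (by gcongr)⟩

theorem LD.CylOk.mono {j Z T p p'} (h : L.CylOk j Z T p p' C δ R) (e : C ≤ C') (d : 0 ≤ δ)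
    (r : 0 ≤ L.ρ) : L.CylOk j Z T p p' C' δ R := by
  have z0 := L.hz
  refine ⟨h.le, h.ex, h.ey, h.surj, fun v => (h.apr v).trans (by gcongr),
    fun v i y hy => (h.jet v i y hy).trans ?_, h.eqn, fun g y hy => (h.dat g y hy).trans ?_,
    fun G hG => (h.inj G hG).trans (by gcongr), fun v G hG z hz => (h.in0 v G hG z hz).trans ?_,
    fun v l hl z hz => (h.in1 v l hl z hz).trans ?_⟩
  · have := z0.trans_le hy.1
    gcongr
  · have := z0.trans_le hy.1
    gcongr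
  · have : 0 < z := by linarith [hz.1]
    gcongr
  · have := z0.trans_le hz.1
    gcongr

/-- **the fixed data exist** -/
theorem lex (cy : CY) (pt : PT) (exl : EXL) (core : CORE) (cone : CONE) (cylo : CYLO) (okn : OKN)
    (inj : INJ) : LEX := fun M g z₁ => by
  obtain ⟨Y, δ₀, Y1, d0, cylo⟩ := cylo
  obtain ⟨z₂, pt⟩ := pt M g δ₀ d0
  obtain ⟨z₃, C₂, cone⟩ := cone M g
  obtain ⟨k, exl⟩ := exl M g
  obtain ⟨z, h, a1, a2, a3, a4⟩ := (exl.and ((eventually_ge_atTop z₁).and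
    ((eventually_ge_atTop z₂).and ((eventually_ge_atTop z₃).and
      (eventually_ge_atTop (Y + 1)))))).exists
  obtain ⟨ρ, L, rfl, rfl, o⟩ := h.exists
  have hi := o.hi
  obtain ⟨C₁, C0, cylo⟩ := cylo M k L (by linarith) (by linarith)
  obtain ⟨K, C, okn⟩ := okn M k L o (max C₁ C₂)
  obtain ⟨Ci, -, inj⟩ := inj M k L o
  obtain ⟨b, s, cC, C', δ, R₀, hb, hδ, -, lin⟩ := P218H.linN2 (α := α₀) (β := β₀) _
    (core M k L o K) C (by norm_num) (by norm_num) (by norm_num)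
  let G : GD M k := ⟨L, b, s, cC, K, max C' 1⟩
  refine ⟨k, G, a1, o, core M k L o K, hb, le_max_right _ _,
    fun l => (cone k L a3 l).eqn, ?_⟩
  set R := max R₀ (L.ρ + 10)
  have r1 : L.ρ + 10 ≤ R := le_max_right _ _
  have r0 : 0 < C₁ * R ^ 5 + 1 := by
    have : 0 < R := by linarith
    positivity
  obtain ⟨X, hX, X1⟩ := (((tendsto_rpow_neg_atTop (y := 3 / 4) (by norm_num)).eventually
    (ge_mem_nhds hδ)).and (eventually_ge_atTop 1)).exists
  filter_upwards [pt k G a2 o R (δ / (C₁ * R ^ 5 + 1)) (by positivity), ev_ad,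
    ev_cs (ev₀_J fun _ _ _ => max X Y), ev_Z fun _ _ _ => 2 * (R + X + 1) + 2] with p t ad hJ hZ
  have hJ' : max X Y ≤ 5 * p.J := by
    have : (p.J₀ : ℝ) ≤ p.J := by exact_mod_cast ad.hJ
    linarith [p.J.cast_nonneg (α := ℝ)]
  have hW : ∀ j, 2 * (R + X + 1) + 2 ≤ p.W j := fun j => hZ.trans (ad.hW j).1
  have ok : ∀ j, _ := fun j => cylo j (p.W j) (p.c j) (G.Tj p j) (δ / (C₁ * R ^ 5 + 1)) δ R
    (cy _ _ _ _ _ (ad.hc j) (by linarith) (by linarith [hW j]) (by nlinarith)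
      (le_of_max_le_right hJ')) (by linarith) (by linarith [hW j]) hδ.le (by positivity)
    (by rw [← mul_div_assoc, div_le_iff₀ r0]; nlinarith) fun v => (t j v).2.2.2
  have tip : ∀ j, (p.W j ^ 2 * (rh (p.c j) (p.W j)).re) ^ (-3 / 4 : ℝ) ≤ δ := fun j => by
    have c := cy _ _ (X + 1) X _ (ad.hc j) (by linarith) (by linarith [hW j]) (by nlinarith)
      (le_of_max_le_left hJ')
    refine le_trans ?_ hX
    rw [neg_div]
    exact Real.rpow_le_rpow_of_nonpos (by linarith) (c.tip _ ⟨by linarith [c.RZ], le_rfl⟩)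
      (by norm_num)
  have cn := fun l => (cone k L a3 l).mono (le_max_right C₁ C₂)
  have ρ0 : 0 ≤ L.ρ := by linarith
  obtain ⟨T, s, t1, t2⟩ := lin R (le_max_left _ _) (L.ends p.W (G.Tj p)) _ _ _ _
    (okn p.W _ _ _ δ R hδ.le r1 (fun j => ((ok j).1 fun v => (t j v).2.1).mono
      (le_max_left _ _) hδ.le ρ0) cn)
    (okn p.W _ _ _ δ R hδ.le r1 (fun j => ((ok j).2 (tip j) fun v => (t j v).2.2.1).mono
      (le_max_left _ _) hδ.le ρ0) cn)
  have up : ∀ {x y : ℝ}, 0 ≤ y → x ≤ C' * y → x ≤ max C' 1 * y := fun h e =>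
    e.trans (mul_le_mul_of_nonneg_right (le_max_left _ _) h)
  have i := inj p.W fun j => by linarith [hW j]
  exact ⟨⟨T, s, fun y => up (apply_nonneg _ _) (t1 y), fun y => up (apply_nonneg _ _) (t2 y)⟩,
    fun j v => (t j v).1, fun f => ⟨fun j => by rw [show G.inj p.W f = _ from (i f).1]; rfl,
      fun e z θ hz _ => (i f).2.2 e (z, θ) hz⟩⟩

end Vale.Agent.P218L
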