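import Vale.Agent.P218L.Core
import Vale.Agent.P218H.Co
import Vale.Agent.P218H.Nd

/-!
# P218: existence of the linear data, nondegeneracy
-/

open MeasureTheory Set Filter Topology
open scoped ComplexConjugate NNReal

noncomputable section

namespace Vale.Agent.P218L

open Vale.Agent.P218T Vale.Agent.P218M
open Vale.Agent.P218H (geos)
open Vale.Agent.P218W (XH omH wj)

theorem yj_pos {R : ℝ} (J : XH R wy) : ∀ᶠ z in atTop, ∀ θ, 1 ≤ (yj J 0 (z, θ)).re := by
  filter_upwards [eventually_ge_atTop (‖J‖ + 3)] with z hz θ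
  have J0 := norm_nonneg J
  have h1 : ‖J.1 0 (z, θ)‖ ≤ ‖J‖ := ((J.1 0).le_norm.apply trivial θ).trans (by
    linarith [norm_le_pi_norm J.1 0, norm_nonneg (J.1 0), show ‖J.1‖ = ‖J‖ from rfl])
  have h2 : wy z ≤ z := by
    simpa [wH] using Real.rpow_le_rpow_of_exponent_le (x := z) (y := -(-1 / 16)) (z := 1)
      (by linarith) (by norm_num)
  have h3 : 0 ≤ wy z := (P218W.wH_pos (R := 1) one_pos le_rfl z (by simp; linarith)).le
  have h4 := (abs_le.1 ((Complex.abs_re_le_norm _).trans h1)).1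
  have e : (yj J 0 (z, θ)).re = z ^ 2 - 2 + wy z * (J.1 0 (z, θ)).re := by
    simp [yj, hj, wj, omH, pow_two]
  nlinarith [mul_le_mul_of_nonneg_left h4 h3, mul_le_mul_of_nonneg_right h2 J0]

/-- **the linear data exist** -/
theorem exl (eqs : EQS) (vj : VJ) (msg : MSG) : EXL := fun M g => by
  obtain ⟨ms, rel⟩ := msg _ _ _ _ g.shr g.smw
  obtain ⟨k, ψ, c⟩ := P218H.co _ _ _ _ _ _ g.shr g.smw ms rel
  obtain ⟨-, -, -, ⟨ρ, φ, bar⟩, -, et, eh, ker⟩ := geos 3 _ _ _ _ g.shr g.smw
  choose R hR using fun j => vj _ (g.ended.cyl j) M.R ((eqs M g).1 j)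
  refine ⟨k, ?_⟩
  filter_upwards [eventually_ge_atTop (M.R + 1), eventually_ge_atTop ρ,
    eventually_all.2 fun j => eventually_ge_atTop (R j)] with z z1 z2 z3
  choose J hJ using fun j => hR j z (z3 j)
  have s : ∀ i, ∀ᶠ t in atTop, ∀ x, t - 1 ≤ ‖x‖ → ψ i x = 0 := fun i => by
    obtain ⟨r, hr⟩ := (c.sm i).2.isBounded.subset_closedBall 0
    filter_upwards [eventually_gt_atTop (r + 1)] with t ht x hx
    exact image_eq_zero_of_notMem_tsupport fun h => by
      linarith [mem_closedBall_zero_iff.1 (hr h)]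
  filter_upwards [eventually_ge_atTop (z + 2), eventually_all.2 s,
    eventually_all.2 fun j => eventually_forall_ge_atTop.2 (yj_pos (J j))] with t t1 t2 t3
  exact ⟨⟨z, by linarith [g.one.1], t, ψ, et, eh, φ, J⟩, rfl, rfl, g, z1, t1, ker, c, t2,
    ⟨bar.1, fun p hp h => bar.2 p hp (z2.trans h)⟩, fun j => (hJ j).1, fun j => (hJ j).2,
    fun j y hy => t3 j y.1 hy y.2⟩

/-- **nondegeneracy** -/
theorem nd (msg : MSG) (slow : SLOW) (core : CORE) (kap : KAP) (exa : EXA) (nd2 : ND2) : ND :=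
    fun M g => by
  obtain ⟨R, exa⟩ := exa M g
  refine ⟨R, fun k L o hR t t0 ψ hψ u l μ r hμ hr hu h2 he hc => ?_⟩
  obtain ⟨K, exa⟩ := exa k L o hR
  obtain ⟨ms, -⟩ := msg _ _ _ _ g.shr g.smw
  have sl := (slow M k L o).1
  have re : ∀ i x, ((L.b i x).re : ℂ) = L.b i x := fun i x =>
    Complex.conj_eq_iff_re.1 ((sl i).2.2.1 x)
  have cs : ∀ j, Continuous (fun x => t j * (L.b (j, 0) x).re) ∧
      HasCompactSupport fun x => t j * (L.b (j, 0) x).re := fun j =>
    ⟨continuous_const.mul (Complex.continuous_re.comp (sl _).1.continuous),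
      (sl (j, 0)).2.1.comp_left (g := fun x : ℂ => t j * x.re) (by simp)⟩
  have sv := nd2 3 k M.n₁ _ (L.core K) β₀ M.w (fun j => (j, 0))
    (fun j x => t j * (L.b (j, 0) x).re) (fun j => t j * L.ka j) (core M k L o K) (by norm_num)
    (by norm_num) exa rfl cs (fun j => mul_ne_zero (Complex.ofReal_ne_zero.2 (t0 j)) fun h => by
      simpa [h] using (kap M k L o j).2.1)
    (fun j => ⟨(t j)⁻¹, fun p _ => by
      have := Complex.ofReal_ne_zero.2 (t0 j)
      push_cast
      rw [re]
      field_simp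
      rfl⟩)
    fun j j' => by
      have : ∫ p, L.Y (j, 0) p * (t j' * (L.b (j', 0) p).re : ℝ) ∂ga M.w =
          t j' * ∫ p, L.Y (j, 0) p * L.b (j', 0) p ∂ga M.w := by
        simp only [← integral_const_mul, Complex.ofReal_mul, re, mul_left_comm]
      refine this.trans ?_
      split_ifs with h
      · subst h
        rfl
      · rw [(kap M k L o j').2.2 j h, mul_zero]
  have N := P218H.nd1 geos 3 _ _ _ _ _ _ _ g.shr g.smw ms (fun i => by
    refine Fin.addCases (fun i => ?_) (fun i => ?_) i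
    · simpa [LD.core] using And.intro (o.coer.sm i).1.continuous (o.coer.sm i).2
    · simpa using cs i) sv
  obtain ⟨c, c0, e⟩ := ga_eq
  replace e := (e M.w).trans (congrArg _ (P218.H63.gaussArea.eq_1 _ _))
  have m : Measurable fun x : E3 => ENNReal.ofReal (Real.exp (-‖x‖ ^ 2 / 4)) := by fun_prop
  have I : ∀ f : E3 → ℝ, ∫ p, f p ∂ga M.w = c * ∫ p, f p * r p ∂μ := fun f => by
    rw [e, integral_smul_nnreal_measure, integral_withDensity_eq_integral_toReal_smul m (by simp),
      hr, hμ]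
    simp only [ENNReal.toReal_ofReal (Real.exp_pos _).le, smul_eq_mul, mul_comm, NNReal.smul_def]
  have ac : ga M.w ≪ μ := by
    rw [e, hμ]
    exact Measure.smul_absolutelyContinuous.trans (withDensity_absolutelyContinuous _ _)
  have ac' : μ ≪ ga M.w := by
    rw [e, hμ]
    exact (withDensity_absolutelyContinuous' m.aemeasurable (.of_forall fun x => by
      simp [Real.exp_pos])).trans (Measure.absolutelyContinuous_smul (ENNReal.coe_ne_zero.2 c0))
  obtain ⟨n1, n2⟩ := N u (Fin.append (fun i => l (.inl i)) fun j => l (.inr j)) (hu.mono_ac ac)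
    (by
      rw [e]
      refine Integrable.smul_measure_nnreal ((integrable_withDensity_iff m (by simp)).2 ?_)
      simpa only [ENNReal.toReal_ofReal (Real.exp_pos _).le, hμ, hr] using h2)
    (fun ζ a b => by
      rw [I, I, he ζ a b, hψ]
      simp [Fin.sum_univ_add, LD.core])
    fun i => by
      rw [I]
      refine Fin.addCases (fun i => ?_) (fun i => ?_) i
      · simpa [hψ, LD.core, c0] using hc (.inl i)
      · simpa [hψ, c0] using hc (.inr i)
  refine ⟨ac'.ae_eq n1, funext fun i => ?_⟩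
  rcases i with i | i
  exacts [by simpa using congrFun n2 (Fin.castAdd _ i), by simpa using congrFun n2 (Fin.natAdd _ i)]

end Vale.Agent.P218L
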