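import Vale.Agent.P218L.Spec

/-!
# P218, the linear half of INST: row ND2
-/

open MeasureTheory Set Filter Topology Metric
open scoped ContDiff

noncomputable section

namespace Vale.Agent.P218L

open Vale.Agent.P218H Vale.Agent.P218H.Cn

namespace Nd2

variable {n k : ℕ} {M : Type} {c : Core n k M} {α β : ℝ}

theorem intg (h : c.Ok0) {W : En n → ℂ} {ψ : En n → ℝ} {R : ℝ} (hψ : Continuous ψ)
    (h0 : ∀ x, R < ‖x‖ → ψ x = 0) (hW : ∀ p ∈ c.S, ‖p‖ ≤ R → ContinuousAt W p) :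
    Integrable (fun p => W p * ψ p) c.ν := by
  have := h.fin
  refine (ContinuousOn.integrableOn_compact ((isCompact_closedBall 0 R).inter_left h.tube.closed)
    fun p hp => ((hW p hp.1 (mem_closedBall_zero_iff.1 hp.2)).mul
      (Complex.continuous_ofReal.comp hψ).continuousAt).continuousWithinAt
        ).integrable_of_ae_notMem_eq_zero (mem_of_superset (mem_ae_iff.2 h.supp) fun p hp k => ?_)
  simp [h0 p (not_le.1 fun e => k ⟨hp, mem_closedBall_zero_iff.2 e⟩)]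

variable [Fintype M]

theorem WW_smul {D : EndD n M β} (t : ℂ) (x : D.XX α k) :
    WW c (t • x) = fun p => t * WW c x p := by
  funext p
  simp [WW, EndD.uu, Core.wf, f2_smul, avg_smul, mul_add, Finset.mul_sum, mul_left_comm, mul_assoc]

theorem exa' (hE : Exa c β) : ∃ C : ℝ, ∀ δ : ℝ, 0 < δ → ∀ f : En n → ℝ, ContDiff ℝ ∞ f →
    HasCompactSupport f → ∃ K : ℝ, ∀ R, c.r + 8 ≤ R → ∃ D : EndD n M β, D.Ok c C δ R ∧
      (∀ v, ∀ y ∈ c.Se \ c.B, ‖y‖ < R → D.ev' (D.T v) y = op c.a (D.ev v) y) ∧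
      ∃ g, ‖g‖ ≤ K ∧ ∀ y ∈ c.Se \ c.B, ‖y‖ < R → D.ev' g y = ((1 - c.cc y) * f y : ℝ) :=
  hE.imp fun _ h δ hδ f h1 h2 => (h δ hδ f h1 h2).imp fun _ h R hR =>
    have ⟨D, _, _, ok, ex, g, g1, g2⟩ := h R hR
    ⟨D.rn ok.ex ok.ey, ok.ok, ex, g, g1, g2⟩

/-- solvability for the first family of constraints -/
theorem sol (h : c.Ok) (h0 : 0 < β) (h1 : β < 1) (hE : Exa c β) {f : En n → ℝ}
    (hf : ContDiff ℝ ∞ f) (hs : HasCompactSupport f) (a : Fin k → ℂ) : ∃ G : ℝ, ∀ R : ℝ,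
    ∃ (W : En n → ℂ) (l : Fin k → ℂ), (∀ p ∈ c.S, ‖p‖ < R → ContDiffAt ℝ 2 W p ∧
      (∀ i, ‖dd i W p‖ ≤ G * (1 + ‖p‖) ^ c.N) ∧ op c.a W p = f p + ∑ i, l i * c.ψ i p) ∧
      ∀ i, ∫ p, W p * c.ψ i p ∂c.ν = a i := by
  obtain ⟨C, hE⟩ := exa' hE
  have a0 : 0 < (1 + β) / 2 := by linarith
  have a1 : (1 + β) / 2 < 1 := by linarith
  obtain ⟨b, s, cC, C', δ, R₀, hb, hδ, hR, L⟩ := lin' n k M c h _ β C h0 (by linarith) a1
  obtain ⟨K, hK⟩ := hE δ hδ f hf hs
  obtain ⟨G, hG⟩ := grow (β := β) avg_row h a0 a1 C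
  obtain ⟨-, ⟨Ex, hEx⟩, -, -, hg, -⟩ := kit' n k M c h.1 _ a0 a1.le
  obtain ⟨g₀, hg₀⟩ := hg (fun x => (f x : ℂ)) (Complex.ofRealCLM.contDiff.comp (hf.of_le (by simp)))
  obtain ⟨B, hB⟩ := h.yy
  obtain ⟨X, hX⟩ : ∃ X, X = |C'| * (‖Ex g₀‖ + |K| + ‖a‖) + 1 := ⟨_, rfl⟩
  have X0 : 0 < X := by rw [hX]; positivity
  refine ⟨X * G, fun R => ?_⟩
  have r := hR.trans (le_max_right R R₀)
  obtain ⟨D, ok, ex, g, g1, g2⟩ := hK _ r
  obtain ⟨TT, sy, bd⟩ := L _ (le_max_right R R₀) D ok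
  obtain ⟨x, hx⟩ : ∃ x, x = TT.symm (-Ex g₀, g, 0, a) := ⟨_, rfl⟩
  have tx : (TT : D.XX _ k →L[ℂ] D.YY _ k) x = (-Ex g₀, g, 0, a) := hx ▸ TT.apply_symm_apply _
  have nx : ‖((X⁻¹ : ℝ) : ℂ) • x‖ ≤ 1 := by
    rw [norm_smul, Complex.norm_real, Real.norm_of_nonneg (inv_pos.2 X0).le, inv_mul_le_iff₀ X0,
      mul_one, hx, hX]
    refine (bd _).trans ((mul_le_mul (le_abs_self _) ?_ (norm_nonneg _) (abs_nonneg _)).trans
      (le_add_of_nonneg_right zero_le_one))
    have := g1.trans (le_abs_self K)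
    have := norm_nonneg (Ex g₀)
    have := norm_nonneg a
    have := abs_nonneg K
    simp only [Prod.norm_def, norm_neg, norm_zero, max_le_iff]
    exact ⟨by linarith, by linarith, by linarith, by linarith⟩
  have S := snd' n k M c h.1 _ β s C δ _ a0 r b hb D ok cC TT sy
  have cd := fun x p hp (e : ‖p‖ < max R R₀) => (show ContDiffAt ℝ 2 (WW c x) p from
    ((S x).2.1 p hp e).1.add (.sum fun i _ => contDiffAt_const.mul (hB i p hp).1))
  refine ⟨WW c x, x.2.2.2, fun p hp e => ?_, fun i => ?_⟩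
  · replace e := e.trans_le (le_max_left R R₀)
    refine ⟨cd x p hp e, fun i => ?_, ?_⟩
    · have := dd_clm (ContinuousLinearMap.mul ℝ ℂ X)
        ((cd (((X⁻¹ : ℝ) : ℂ) • x) p hp e).differentiableAt two_ne_zero) i
      simp only [ContinuousLinearMap.mul_apply', ← WW_smul, smul_smul, ← Complex.ofReal_mul,
        mul_inv_cancel₀ X0.ne', Complex.ofReal_one, one_smul] at this
      rw [this, norm_mul, Complex.norm_real, Real.norm_of_nonneg X0.le, mul_assoc]
      exact mul_le_mul_of_nonneg_left (hG _ _ D ok _ nx p hp e ((S _).2.1 p hp e).1 i) X0.le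
    obtain ⟨cu, q⟩ := (S x).2.1 p hp e
    rw [show WW c x = fun y => D.uu c x y + ∑ j, x.2.2.1 j * c.Y j y from rfl,
      op_add cu (.sum fun j _ => contDiffAt_const.mul (hB j p hp).1),
      op_sum _ fun j _ => contDiffAt_const.mul (hB j p hp).1]
    simp only [fun j => op_cmul (a := c.a) (hB j p hp).1, fun j => (hB j p hp).2.1]
    rw [← sub_eq_iff_eq_add, q, tx]
    have u : -c.cc p • avg c.et c.pr c.nu (-Ex g₀ : HH _ _) p = c.cc p • (f p : ℂ) := by
      rcases le_total ‖p‖ (c.r + 3) with e | e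
      · rw [show ((-Ex g₀ : HH _ _) : En n → ℂ) = (-1 : ℂ) • c.ext fun x => (f x : ℂ) from
          funext fun y => by simp [hEx g₀ (fun x => f x) (fun p => (hg₀ p).symm) y], avg_smul,
          (ext' n k M c h.1).2.1 _ p hp (by linarith)]
        simp
      · simp [(h.out hp e).1]
    have v : c.ce p • (D.ev' g p - (D.ev' (D.T x.2.1) p - op c.a (D.ev x.2.1) p)) =
        c.ce p • (((1 - c.cc p) * f p : ℝ) : ℂ) := by
      rcases le_total ‖p‖ c.r₀ with e' | e'
      · simp [(h.inn hp e').1]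
      · rw [ex _ p (h.far p hp (by linarith)) e, g2 p (h.far p hp (by linarith)) e, sub_self,
          sub_zero]
    rw [u, v]
    rcases h.cce p hp with e | e <;> simp [e.self_of_nhds]
    ring
  · refine Eq.trans ?_ (((S x).2.2 i).symm.trans (by rw [tx]))
    refine integral_congr_ae (mem_of_superset (mem_ae_iff.2 h.supp) fun p hp => ?_)
    simp [WW, add_mul, Finset.sum_mul, mul_assoc, fun j => (hB j p hp).2.2.2 i]

end Nd2

open Nd2

theorem nd2 : ND2 := fun n k m M _ c β w im ψ' κ h h0 h1 hE ha hψ hκ ht hI f a hf hs => by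
  obtain ⟨G, hG⟩ := sol h h0 h1 hE hf hs fun i => a (Fin.castAdd m i)
  obtain ⟨B, hB⟩ := h.yy
  choose t ht using ht
  obtain ⟨ρ, hρ⟩ := (isCompact_iUnion fun j => (hψ j).2.isCompact).isBounded.subset_closedBall 0
  have z : ∀ j x, ρ < ‖x‖ → ψ' j x = 0 := fun j x e => image_eq_zero_of_notMem_tsupport fun k =>
    (mem_closedBall_zero_iff.1 (hρ (mem_iUnion.2 ⟨j, k⟩))).not_gt e
  have := h.fin
  refine ⟨G + (∑ j, (‖a (Fin.natAdd k j)‖ + ∫ p, |G| * (1 + ρ) ^ c.N * ‖ψ' j p‖ ∂c.ν) / ‖κ j‖) *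
    |B|, c.N, fun R => ?_⟩
  obtain ⟨W, l, h2, h3⟩ := hG (max R (ρ + 1))
  have h4 := fun p hp (e : ‖p‖ ≤ ρ) => h2 p hp ((lt_add_one ρ).trans_le' e |>.trans_le
    (le_max_right _ _))
  obtain ⟨τ, hτ⟩ : ∃ τ : Fin m → ℂ, τ = fun j =>
    (a (Fin.natAdd k j) - ∫ p, W p * ψ' j p ∂c.ν) / κ j := ⟨_, rfl⟩
  have b : ∀ j, ‖τ j‖ ≤ (‖a (Fin.natAdd k j)‖ + ∫ p, |G| * (1 + ρ) ^ c.N * ‖ψ' j p‖ ∂c.ν) /
      ‖κ j‖ := fun j => by
    rw [hτ, norm_div]
    refine div_le_div_of_nonneg_right ((norm_sub_le _ _).trans (add_le_add (Complex.norm_real _).le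
      (norm_integral_le_of_norm_le (((hψ j).1.integrable_of_hasCompactSupport
        (hψ j).2).norm.const_mul _) (mem_of_superset (mem_ae_iff.2 h.supp) fun p hp => ?_))))
      (norm_nonneg _)
    rw [mem_ofPred_eq]
    rcases le_or_gt ‖p‖ ρ with e | e
    · rw [norm_mul, Complex.norm_real]
      refine mul_le_mul_of_nonneg_right (((h4 p hp e).2.1 none).trans ?_) (norm_nonneg _)
      gcongr
      exact le_abs_self G
    · simp [z j p e]
  refine ⟨fun p => W p + ∑ j, τ j * c.Y (im j) p, Fin.append l fun j => τ j * t j,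
    fun p hp e => ?_, fun i => ?_⟩
  · obtain ⟨c1, c2, c3⟩ := h2 p hp (e.trans_le (le_max_left _ _))
    have cs : ContDiffAt ℝ 2 (fun p => ∑ j, τ j * c.Y (im j) p) p :=
      .sum fun j _ => contDiffAt_const.mul (hB _ p hp).1
    refine ⟨c1.add cs, fun i => ?_, ?_⟩
    · rw [dd_add_at (c1.differentiableAt two_ne_zero) (cs.differentiableAt two_ne_zero),
        dd_sum_at fun j => (hB (im j) p hp).1.differentiableAt two_ne_zero, add_mul, mul_assoc,
        Finset.sum_mul]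
      refine (norm_add_le _ _).trans (add_le_add (c2 i) ((norm_sum_le _ _).trans
        (Finset.sum_le_sum fun j _ => (norm_mul_le _ _).trans (mul_le_mul (b j)
          (((hB _ p hp).2.2.1 i).trans ?_) (norm_nonneg _) ((norm_nonneg _).trans (b j))))))
      gcongr
      exact le_abs_self B
    · rw [← ha, op_add c1 cs, op_sum _ fun j _ => contDiffAt_const.mul (hB (im j) p hp).1, c3]
      simp only [fun j => op_cmul (a := c.a) (hB j p hp).1, fun j => (hB j p hp).2.1,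
        Fin.sum_univ_add, Fin.append_left, Fin.append_right, fun j => ht j p hp, add_assoc,
        mul_assoc]
  · refine Fin.addCases (fun i => ?_) (fun j => ?_) i
    · rw [← h3 i, Fin.append_left]
      refine integral_congr_ae (mem_of_superset (mem_ae_iff.2 h.supp) fun p hp => ?_)
      simp [add_mul, Finset.sum_mul, mul_assoc, fun j => (hB j p hp).2.2.2 i]
    · have iY := fun j' => (intg h.1 (hψ j).1 (z j)
        fun p hp _ => (hB (im j') p hp).1.continuousAt).const_mul (τ j')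
      simp only [Fin.append_right, add_mul, Finset.sum_mul, mul_assoc]
      rw [integral_add (intg h.1 (hψ j).1 (z j) fun p hp e => (h4 p hp e).1.continuousAt)
        (integrable_finsetSum _ fun j' _ => iY j'), integral_finsetSum _ fun j' _ => iY j']
      simp [integral_const_mul, hI, hτ, hκ j]

end Vale.Agent.P218L
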