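import Vale.Agent.P218L.OknA

/-!
# P218, the linear half of INST, row OKN: the end data
-/

open MeasureTheory Set Filter Topology
open scoped ContDiff RealInnerProductSpace Real ComplexConjugate

noncomputable section

namespace Vale.Agent.P218L

open Vale.Agent.P218T Vale.Agent.P218M
open Vale.Agent.P218H (op sa st C1a f1 dd J1 En op_congr dd_dd dd_ev st_one)
open Vale.Agent.P218W (W jet wj co c1 low WI XE YE XK omK Jet DD ex)
open Vale.Agent.P218B (J2 d2)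

namespace Okn

variable {M : Mod} {k : ℕ} {L : LD M k} {Z : Fin M.n₁ → ℝ} {y : ℝ × ℝ} {C C' δ R : ℝ}

theorem cyl_mono {j : Fin M.n₁} {Z : ℝ} {T : XE L.z₀ Z →L[ℂ] YE L.z₀ Z}
    {p : Seminorm ℂ (XE L.z₀ Z)} {p' : Seminorm ℂ (YE L.z₀ Z)} (hL : L.Ok)
    (h : L.CylOk j Z T p p' C δ R) (hC : C ≤ C') (hδ : 0 ≤ δ) : L.CylOk j Z T p p' C' δ R := by
  have z0 := L.hz
  have z1 := hL.hi
  refine ⟨h.le, h.ex, h.ey, h.surj, fun v => (h.apr v).trans (by gcongr),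
    fun v i y hy => (h.jet v i y hy).trans ?_, h.eqn, fun g y hy => (h.dat g y hy).trans ?_,
    fun G hG => (h.inj G hG).trans (by gcongr), fun v G hG z hz => (h.in0 v G hG z hz).trans ?_,
    fun v l hl z hz => (h.in1 v l hl z hz).trans ?_⟩
  · have := z0.trans_le hy.1
    gcongr
  · have := z0.trans_le hy.1
    gcongr
  · have : 0 < z := by linarith [hz.1]
    gcongr
  · have := z0.trans_le hz.1
    gcongr

theorem cone_mono {l : Fin M.n₂} (h : L.ConeOk l C) (hC : C ≤ C') : L.ConeOk l C' :=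
  ⟨h.eqn, h.surj, fun J => (h.apr J).trans (by gcongr)⟩

theorem one_le_z (hL : L.Ok) : 1 ≤ L.z₀ := by linarith [hL.lo, hL.geo.one.1]

theorem chn_zero {z : ℝ} (h : L.ρ + 6 ≤ z) : L.chn z = 0 := by
  rw [LD.chn, Real.smoothTransition.one_of_one_le (by linarith), sub_self]

theorem chn_one {z : ℝ} (h : z ≤ L.ρ + 5) : L.chn z = 1 := by
  rw [LD.chn, Real.smoothTransition.zero_of_nonpos (by linarith), sub_zero]

/-- the slow functions far out -/
theorem sum_Y (hL : L.Ok) (m : Fin M.n₁ × Fin 3 → ℂ) (j : Fin M.n₁) (hy : L.ρ + 3 ≤ y.1) :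
    ∑ i, m i * L.Y i (M.P (.inl j) y) = ∑ l, m (j, l) * L.ph (j, l) (M.P (.inl j) y) := by
  have z0 := L.hz
  have z1 := hL.hi
  have h1 : M.R < y.1 := by linarith [hL.lo]
  have h2 := ((hL.geo.cht (.inl j)).rad y h1).1
  have h3 : ∀ i, L.Y i (M.P (.inl j) y) = L.ph i (M.P (.inl j) y) := fun i => by
    rw [LD.Y, LD.ch, st_one (by split_ifs <;> linarith) (by split_ifs <;> linarith), one_smul]
  simp only [h3]
  rw [Fintype.sum_prod_type]
  refine Finset.sum_eq_single j (fun j' _ hj => Finset.sum_eq_zero fun l _ => ?_) (by simp)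
  have h4 : (Sum.inl j' : M.I) ≠ .inl j := fun e => hj (Sum.inl_injective e)
  rw [LD.ph, (hL.geo.lift_other h4 h1).eq_of_nhds, (hL.geo.lift_other h4 h1).eq_of_nhds]
  simp

/-- the powers of the height -/
theorem pow_facts {K η δ z : ℝ} (hK : 2 ≤ K) (hη : 0 < η) (h0 : 0 ≤ δ)
    (hz : z = K + (K / η) ^ 6 - 1) (hδ : δ * (K + (K / η) ^ 6) ≤ 1) :
    ∃ t : ℝ, 0 < t ∧ t ≤ 1 ∧ K * t ≤ η ∧ z ^ (-3 / 2 : ℝ) ≤ t ∧ δ ≤ t ∧
      z ^ (13 / 16 : ℝ) = z * t := by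
  have s0 : 0 < K / η := by positivity
  have s6 : 0 < (K / η) ^ 6 := by positivity
  have z1 : 1 ≤ z := by linarith
  have z0 : 0 < z := by linarith
  refine ⟨z ^ (-3 / 16 : ℝ), by positivity, Real.rpow_le_one_of_one_le_of_nonpos z1 (by norm_num),
    ?_, Real.rpow_le_rpow_of_exponent_le z1 (by norm_num), ?_, ?_⟩
  · have a1 : K / η ≤ z ^ (3 / 16 : ℝ) := by
      calc K / η = ((K / η) ^ 6) ^ ((6 : ℕ) : ℝ)⁻¹ :=
            (Real.pow_rpow_inv_natCast s0.le (by norm_num)).symm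
        _ ≤ z ^ ((6 : ℕ) : ℝ)⁻¹ := Real.rpow_le_rpow s6.le (by linarith) (by positivity)
        _ ≤ _ := Real.rpow_le_rpow_of_exponent_le z1 (by norm_num)
    rw [neg_div, Real.rpow_neg z0.le, ← div_eq_mul_inv, div_le_iff₀ (by positivity)]
    rw [div_le_iff₀ hη] at a1
    linarith
  · refine le_trans ?_ (Real.rpow_le_rpow_of_exponent_le z1 (y := -1) (by norm_num))
    rw [Real.rpow_neg_one, ← one_div, le_div_iff₀ z0]
    nlinarith
  · rw [show (13 / 16 : ℝ) = 1 + -3 / 16 by norm_num, Real.rpow_add z0, Real.rpow_one]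

section main

variable {T : ∀ j, XE L.z₀ (Z j) →L[ℂ] YE L.z₀ (Z j)} {p : ∀ j, Seminorm ℂ (XE L.z₀ (Z j))}
  {p' : ∀ j, Seminorm ℂ (YE L.z₀ (Z j))} (hL : L.Ok) (hC : 1 ≤ C)
  (h : ∀ j, L.CylOk j (Z j) (T j) (p j) (p' j) C δ R)
include hL hC h

theorem jx_le (v : L.X' Z) (e : M.I) (i : Fin 6) (hy : y.1 ∈ Icc L.z₀ R) :
    ‖LD.jx v e i y‖ ≤ C * y.1 ^ 5 * prs p v := by
  have y1 : 1 ≤ y.1 := (one_le_z hL).trans hy.1
  cases e with
  | inl j => exact ((h j).jet _ i y hy).trans (by gcongr; exact le_prs1 p v j)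
  | inr l =>
    have a1 : |omK i y.1| ≤ y.1 := by
      rw [abs_of_pos (P218W.omK_pos L.hz i hy.1)]
      fin_cases i
      exacts [le_rfl, le_rfl, le_rfl, y1, y1, (inv_le_one_of_one_le₀ y1).trans y1]
    have a2 : ‖(v.2 l).1 i.castSucc y‖ ≤ prs p v :=
      ((W.apply_le _ _).trans (half_le_self (norm_nonneg _))).trans
        (((norm_le_pi_norm (v.2 l).1 _).trans (norm_le_pi_norm v.2 l)).trans (le_prs2 p v))
    have a3 : y.1 ≤ C * y.1 ^ 5 :=
      (le_self_pow₀ y1 (by norm_num)).trans (le_mul_of_one_le_left (by positivity) hC)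
    show ‖(omK i y.1 : ℂ) * _‖ ≤ _
    rw [norm_mul, Complex.norm_real]
    exact mul_le_mul (a1.trans a3) a2 (norm_nonneg _) (by positivity)

theorem fy_le (g : L.Y' Z) (e : M.I) (hy : y.1 ∈ Icc L.z₀ R) :
    ‖LD.fy g e y‖ ≤ C * y.1 ^ 5 * prs p' g := by
  have y1 : 1 ≤ y.1 := (one_le_z hL).trans hy.1
  cases e with
  | inl j => exact ((h j).dat _ y hy).trans (by gcongr; exact le_prs1 p' g j)
  | inr l =>
    have a2 : ‖g.2 l y‖ ≤ prs p' g :=
      ((W.apply_le _ _).trans (half_le_self (norm_nonneg _))).trans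
        ((norm_le_pi_norm g.2 l).trans (le_prs2 p' g))
    exact a2.trans (le_mul_of_one_le_left (apply_nonneg _ _)
      (one_le_mul_of_one_le_of_one_le hC (one_le_pow₀ y1)))

theorem ev_jet {K K' : ℝ} (hK : 1 ≤ K) (hK' : 1 ≤ K') (e : M.I) (h1 : L.z₀ < y.1) (h2 : y.1 < R)
    (hq : J2 (q M e) y K (K * y.1 ^ 2) (K * y.1 ^ 2))
    (hl : ∀ (F : ℝ × ℝ → ℂ) (a b c : ℝ), Per M.R F → J2 F y a b c →
      J2 (M.lift e F) (M.P e y) a (K' * b) (K' * (c + b * y.1))) (v : L.X' Z) (i j : J1 3) :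
    ‖dd i (dd j (L.ev Z v)) (M.P e y)‖ ≤ 12 * K' * K * C * y.1 ^ 8 * prs p v := by
  have y1 : 1 ≤ y.1 := (one_le_z hL).trans h1.le
  have hy : M.R < y.1 := by linarith [hL.lo]
  have hi := mem_sE (Z := Z) (fun j => by linarith [(h j).le]) e h1 h2
  have a1 := hq.smul (j2_of_jet (jx_cd v e hi) fun i => by
    rw [jet_eq (jx_jet v e) hi]; exact jx_le hL hC h v e i ⟨h1.le, h2.le⟩)
  simp only [Complex.real_smul] at a1
  have a2 := (hl _ _ _ _ (per_q hL.geo v e) a1).congr (ev_ev hL.geo v e hy)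
  have e1 : 12 * K' * K * C * y.1 ^ 8 * prs p v =
      K' * (12 * y.1 ^ 3 * (K * (C * y.1 ^ 5 * prs p v))) := by ring
  have b0 : 0 ≤ C * y.1 ^ 5 * prs p v := by positivity
  rw [e1]
  generalize C * y.1 ^ 5 * prs p v = A at a2 b0
  have b1 : 0 ≤ K * A := by positivity
  have b2 : 1 ≤ y.1 ^ 2 := one_le_pow₀ y1
  have b3 : y.1 ^ 2 ≤ y.1 ^ 3 := pow_le_pow_right₀ y1 (by norm_num)
  have b4 : y.1 ≤ y.1 ^ 3 := le_self_pow₀ y1 (by norm_num)
  have b5 := mul_le_mul_of_nonneg_right (b2.trans b3) b1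
  have b6 := mul_le_mul_of_nonneg_right b3 b1
  have b7 := mul_le_mul_of_nonneg_right b4 b1
  refine dd_le (a2.mono ?_ ?_ ?_) i j
  · exact le_trans (by linarith) (le_mul_of_one_le_left (by positivity) hK')
  · exact mul_le_mul_of_nonneg_left (by linarith) (by linarith)
  · exact mul_le_mul_of_nonneg_left (by linarith) (by linarith)

theorem ind_j {K Ki K₀ η U : ℝ} (hδ : 0 ≤ δ) (hK : 1 ≤ K) (hKi : 1 ≤ Ki) (j : Fin M.n₁)
    (hq : ∀ y : ℝ × ℝ, M.R < y.1 → 1 / K ≤ |q M (.inl j) y|)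
    (hi : ∀ (z : ℝ), Ki ≤ z → ∀ (m : Fin 3 → ℂ) (F : ℝ × ℝ → ℂ),
      (∀ θ, F (z, θ) = (∑ l, m l * L.ph (j, l) (M.P (.inl j) (z, θ))) / q M (.inl j) (z, θ)) →
      ‖m‖ ≤ Ki * (‖co F 0 z‖ / z ^ 2 + (‖co F 1 z‖ + ‖co F (-1) z‖) / z))
    (k1 : 4 * Ki * C ≤ K₀) (k2 : 3 * Ki * K ≤ K₀) (k3 : L.ρ + 7 ≤ K₀) (k4 : Ki + 1 ≤ K₀)
    (hη : 0 < η) (hR : K₀ + (K₀ / η) ^ 6 < R) (hd : δ * (K₀ + (K₀ / η) ^ 6) ≤ 1) (v : L.X' Z)
    (G : WI L.z₀ (Z j)) (hG : ∀ z θ, L.ρ + 6 ≤ z → G (z, θ) = 0) (m : Fin M.n₁ × Fin 3 → ℂ)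
    (hU : 0 ≤ U) (hb : ∀ x ∈ M.S, L.ρ + 2 + 3 ≤ ‖x‖ → ‖x‖ ≤ K₀ + (K₀ / η) ^ 6 →
      ‖L.ev Z v x + ∑ i, m i * L.Y i x‖ ≤ U) :
    ‖fun l => m (j, l)‖ ≤ η * p j (v.1 j) +
      (K₀ + (K₀ / η) ^ 6) * (p' j (T j (v.1 j) + (G, 0)) + U) := by
  have K2 : 2 ≤ K₀ := by linarith
  obtain ⟨z, hz⟩ : ∃ z, z = K₀ + (K₀ / η) ^ 6 - 1 := ⟨_, rfl⟩
  obtain ⟨t, t0, t1, t2, t3, t4, t5⟩ := pow_facts K2 hη hδ hz hd
  have s6 : 0 < (K₀ / η) ^ 6 := by positivity
  have z1 : 1 ≤ z := by linarith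
  have z2 : L.ρ + 6 ≤ z := by linarith
  have z3 : L.z₀ ≤ z := by linarith [hL.hi]
  have z4 : M.R < z := by linarith [hL.lo]
  have a1 := hi z (by linarith) (fun l => m (j, l))
    (fun y => (∑ l, m (j, l) * L.ph (j, l) (M.P (.inl j) y)) / q M (.inl j) y) fun _ => rfl
  have a2 := co_le_of (u := (v.1 j).1 0) (z := z) (a := K * U)
    (F := fun y => (∑ l, m (j, l) * L.ph (j, l) (M.P (.inl j) y)) / q M (.inl j) y)
    (((v.1 j).1 0).adm univ z trivial).1 fun θ => by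
      have r := (hL.geo.cht (.inl j)).rad (z, θ) z4
      have b1 := hb _ (hL.geo.mem (.inl j) (z, θ) z4) (by linarith [r.1]) (by linarith [r.2])
      rw [ev_P hL.geo v (.inl j) z4, sum_Y hL m j (by linarith)] at b1
      have b2 := hq (z, θ) z4
      have b3 : 0 < |q M (.inl j) (z, θ)| := lt_of_lt_of_le (by positivity) b2
      have b4 : (q M (.inl j) (z, θ) : ℂ) ≠ 0 := by exact_mod_cast abs_pos.1 b3
      rw [add_div' _ _ _ b4, norm_div, Complex.norm_real, Real.norm_eq_abs, div_le_iff₀ b3,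
        mul_comm ((v.1 j).1 0 _)]
      rw [div_le_iff₀ (by linarith)] at b2
      exact b1.trans (by nlinarith)
  have a3 := (h j).in0 (v.1 j) G hG z ⟨z2, by linarith⟩
  have a4 := (h j).in1 (v.1 j) 1 (by decide) z ⟨z3, by linarith⟩
  have a5 := (h j).in1 (v.1 j) (-1) (by decide) z ⟨z3, by linarith⟩
  rw [t5] at a4 a5
  have P0 := apply_nonneg (p j) (v.1 j)
  have Q0 := apply_nonneg (p' j) (T j (v.1 j) + (G, 0))
  generalize p j (v.1 j) = P at *
  generalize p' j (T j (v.1 j) + (G, 0)) = Q at *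
  have KU : 0 ≤ K * U := by positivity
  have zz : 1 ≤ z ^ 2 := one_le_pow₀ z1
  refine a1.trans ?_
  calc _ ≤ Ki * ((K * U + 2 * C * t * (Q + P)) + (2 * (K * U) + 2 * C * t * P)) := by
        gcongr
        · rw [div_le_iff₀ (by positivity)]
          have : C * z ^ 2 * (z ^ (-3 / 2 : ℝ) + δ) * (Q + P) ≤ C * z ^ 2 * (t + t) * (Q + P) := by
            gcongr
          nlinarith [a2 0, mul_le_mul_of_nonneg_left zz KU]
        · rw [div_le_iff₀ (by positivity)]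
          nlinarith [a2 1, a2 (-1), mul_le_mul_of_nonneg_left z1 KU]
    _ = 4 * Ki * C * t * P + (2 * Ki * C * t * Q + 3 * Ki * K * U) := by ring
    _ ≤ _ := by
        have c1 : 4 * Ki * C * t ≤ η := (mul_le_mul_of_nonneg_right k1 t0.le).trans t2
        have c2 : 0 ≤ Ki * C := by positivity
        have c3 : 2 * Ki * C * t ≤ K₀ + (K₀ / η) ^ 6 := by nlinarith
        rw [mul_add]
        gcongr
        linarith

end main

theorem okn1 (hq : QB) (hl : LINC) (hi : INJ) (hy : INDY) (hL : L.Ok) (hC : 1 ≤ C) :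
    ∃ K C' : ℝ, ∀ (Z : Fin M.n₁ → ℝ) (T : ∀ j, XE L.z₀ (Z j) →L[ℂ] YE L.z₀ (Z j))
    (p : ∀ j, Seminorm ℂ (XE L.z₀ (Z j))) (p' : ∀ j, Seminorm ℂ (YE L.z₀ (Z j))) (δ R : ℝ),
    0 ≤ δ → L.ρ + 10 ≤ R → (∀ j, L.CylOk j (Z j) (T j) (p j) (p' j) C δ R) →
    (∀ l, L.ConeOk l C) → (L.ends Z T).OkN (L.core K) (prs p) (prs p') C' δ R := by
  have g := hL.geo
  obtain ⟨K, hK, hq, hq'⟩ := hq M g
  obtain ⟨K', hK', hj⟩ := g.lift_j2 (V := ℂ)
  obtain ⟨Ci, hCi, hi⟩ := hi M k L hL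
  obtain ⟨Ki, hKi, hy⟩ := hy M k L hL
  have z1 := one_le_z hL
  have z2 := hL.hi
  have z3 := hL.lo
  obtain ⟨K₀, k1, k2, k3, k4⟩ : ∃ K₀, 4 * Ki * C ≤ K₀ ∧ 3 * Ki * K ≤ K₀ ∧ L.ρ + 7 ≤ K₀ ∧
      Ki + 1 ≤ K₀ := ⟨max (max _ _) (max _ _), le_max_of_le_left (le_max_left _ _),
    le_max_of_le_left (le_max_right _ _), le_max_of_le_right (le_max_left _ _),
    le_max_of_le_right (le_max_right _ _)⟩
  obtain ⟨D, d1, d2, d3, d4⟩ : ∃ D, 12 * K' * K * C ≤ D ∧ C * Ci ≤ D ∧ C * L.z₀ ^ 5 ≤ D ∧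
      5 * K ≤ D := ⟨max (max _ _) (max _ _), le_max_of_le_left (le_max_left _ _),
    le_max_of_le_left (le_max_right _ _), le_max_of_le_right (le_max_left _ _),
    le_max_of_le_right (le_max_right _ _)⟩
  have d5 : K * C ≤ D := by nlinarith [mul_nonneg (by linarith : 0 ≤ K) (by linarith : 0 ≤ C)]
  have d6 : C ≤ D := by nlinarith
  have d0 : 0 ≤ D := by linarith
  refine ⟨K₀, D, fun Z T p p' δ R hδ hR h hc => ?_⟩
  have hZ : ∀ j, R ≤ Z j := fun j => by linarith [(h j).le]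
  replace hi := hi Z fun j => by linarith [hZ j]
  have hG : ∀ f j, (L.inj Z f).1 j = (((L.inj Z f).1 j).1, 0) ∧
      ∀ z θ, L.ρ + 6 ≤ z → ((L.inj Z f).1 j).1 (z, θ) = 0 := fun f j =>
    ⟨by rw [(hi f).1]; rfl, fun z θ hz => by
      have := (hi f).2.2 (.inl j) (z, θ) (by linarith)
      rw [chn_zero hz] at this
      simpa [LD.fy] using this⟩
  refine ⟨eqv_prs fun j => (h j).ex, eqv_prs fun j => (h j).ey, fun w => ?_, fun v => ?_,
    fun v x hx hr => ?_, fun v x hx => ?_, fun v x hx h1 h2 i j => ?_, fun v x hx hr => ?_,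
    fun w x hx hr => ?_, fun f => ?_, fun f hf x hx hr => ?_, fun v => ?_, fun v x hx => ?_,
    fun η hη h1 h2 v f m U _ hU hb => ?_⟩
  · choose a ha using fun j => (h j).surj (w.1 j)
    choose b hb using fun l => (hc l).surj (w.2 l)
    exact ⟨(a, b), Prod.ext (funext ha) (funext hb)⟩
  · have q0 : 0 ≤ prs p' (show L.Y' Z from (L.ends Z T).T v) := apply_nonneg _ _
    refine prs_le (fun j => ((h j).apr _).trans ?_)
      ((pi_norm_le_iff_of_nonneg (by positivity)).2 fun l => ((hc l).apr _).trans ?_)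
    · exact mul_le_mul d6 (le_prs1 p' ((L.ends Z T).T v) j) (apply_nonneg _ _) d0
    · exact mul_le_mul d6 ((norm_le_pi_norm ((L.ends Z T).T v).2 l).trans (le_prs2 p' _))
        (norm_nonneg _) d0
  · obtain ⟨e, y, y1, y2, -, y4, rfl⟩ := ex_P hL hx hr
    have c : ContDiffAt ℝ 2 (fun y => (q M e y : ℂ)) y :=
      Complex.ofRealCLM.contDiff.contDiffAt.comp y ((g.cd_qn e y1).of_le (by norm_cast))
    exact (g.lift_cd (per_q g v e) y1 (by norm_cast)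
      (c.mul (jx_cd v e (mem_sE hZ e y2 y4)))).congr_of_eventuallyEq (ev_ev g v e y1)
  · obtain ⟨e, y, hy, rfl⟩ := mem_iUnion.1 hx.1
    have y1 : M.R < y.1 := by linarith [show L.z₀ ≤ y.1 from hy.1]
    have c := g.lift_cont (e := e) (per_q g v e) (g.zero_mem_O y1)
      ((Complex.continuous_ofReal.continuousAt.comp (g.cd_qn e y1).continuousAt).mul
        (jx_cont v e).continuousAt)
    rw [Mod.Ph_zero] at c
    exact (c.congr (ev_ev g v e y1).symm).continuousWithinAt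
  · obtain ⟨e, y, y1, y2, rfl⟩ := g.far (c := L.z₀) (by linarith) hx
      (by linarith [show L.ρ - 1 ≤ ‖x‖ from h1])
    have y0 : M.R < y.1 := by linarith
    refine (ev_jet hL hC h hK hK' e y1 (y2.trans_lt h2) ((hq e).2.2 y y0).2.2.2.2.2
      (fun F a b c k k' => hj e F y a b c k y0 k') v i j).trans ?_
    show _ ≤ D * (1 + ‖M.P e y‖) ^ 8 * prs p v
    have : 0 ≤ y.1 := by linarith
    gcongr
    linarith
  · obtain ⟨e, y, y1, y2, -, y4, rfl⟩ := ex_P hL hx hr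
    have p0 : 0 ≤ prs p (show L.X' Z from v) := apply_nonneg _ _
    show ‖L.ev' Z _ _ - op (sa M.w) (L.ev Z v) _‖ ≤ _
    rw [ev'_P g _ e y1, op_ev hl g v e y1 (mem_sE hZ e y2 y4), ← mul_sub, norm_mul]
    cases e with
    | inl j =>
      have a1 : ‖(kp M (.inl j) y : ℂ)‖ ≤ 1 := by
        rw [Complex.norm_real, (hq' j y y1).1]; exact (hq' j y y1).2
      refine (mul_le_of_le_one_left (norm_nonneg _) a1).trans
        (((h j).eqn (v.1 j) y ⟨y2.le, y4.le⟩).trans ?_)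
      exact mul_le_mul_of_nonneg_left (le_prs1 p v j) hδ
    | inr l =>
      have a1 : LD.fy ((L.ends Z T).T v) (.inr l) y = _ := (hc l).eqn (v.2 l) y y2.le
      rw [DL_inr v l y2.le, a1, sub_self, norm_zero, mul_zero]
      positivity
  · obtain ⟨e, y, y1, y2, y3, y4, rfl⟩ := ex_P hL hx hr
    have p0 : 0 ≤ prs p' (show L.Y' Z from w) := apply_nonneg _ _
    show ‖L.ev' Z _ _‖ ≤ D * (1 + ‖M.P e y‖) ^ 8 * prs p' w
    rw [ev'_P g _ e y1, norm_mul, Complex.norm_real]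
    have y5 : 0 ≤ y.1 := by linarith
    have a1 : y.1 ^ 5 ≤ (1 + ‖M.P e y‖) ^ 8 :=
      (pow_le_pow_left₀ y5 (by linarith) 5).trans
        (pow_le_pow_right₀ (by linarith [norm_nonneg (M.P e y)]) (by norm_num))
    calc _ ≤ K * (C * y.1 ^ 5 * prs p' w) := mul_le_mul ((hq e).2.2 y y1).2.2.2.1
          (fy_le hL hC h w e ⟨y2.le, y4.le⟩) (norm_nonneg _) (by linarith)
      _ = K * C * y.1 ^ 5 * prs p' w := by ring
      _ ≤ _ := by gcongr
  · have a0 := norm_nonneg f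
    have a1 := (hi f).2.1
    refine prs_le (fun j => ?_) ((norm_snd_le (L.inj Z f)).trans (a1.trans ?_))
    · show p' j ((L.inj Z f).1 j) ≤ _
      rw [(hG f j).1]
      refine ((h j).inj _ (hG f j).2).trans ?_
      have a2 : ‖((L.inj Z f).1 j).1‖ ≤ Ci * ‖f‖ := (norm_fst_le _).trans
        ((norm_le_pi_norm _ j).trans ((norm_fst_le (L.inj Z f)).trans a1))
      calc _ ≤ C * (Ci * ‖f‖) := by gcongr
        _ = C * Ci * ‖f‖ := by ring
        _ ≤ _ := by gcongr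
    · gcongr
      nlinarith
  · obtain ⟨e, y, y1, y2, y3, -, rfl⟩ := ex_P hL hx hr
    have a1 : (kp M e y : ℂ) ≠ 0 := by exact_mod_cast ((hq e).2.2 y y1).2.2.1
    show L.ev' Z (L.inj Z f) _ = _
    rw [ev'_P g _ e y1, (hi f).2.2 e y y2.le, mul_div_cancel₀ _ a1]
    rcases le_total y.1 (L.ρ + 5) with a | a
    · simp [chn_one a]
    · simp [hf _ (g.mem e y y1) (show L.ρ + 2 + 3 ≤ _ by linarith)]
  · have p0 : 0 ≤ prs p (show L.X' Z from v) := apply_nonneg _ _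
    refine (pi_norm_le_iff_of_nonneg (by positivity)).2 fun i => ?_
    refine (norm_le_pi_norm (low L.z₀ ((v.1 i.1).1 0)) i.2).trans (norm_low_le _ fun θ => ?_)
    refine (jx_le hL hC h v (.inl i.1) 0 (y := (L.z₀, θ)) ⟨le_rfl, by linarith⟩).trans ?_
    gcongr
  · obtain ⟨e, ⟨z, θ⟩, hy, rfl⟩ := mem_iUnion.1 hx
    obtain rfl : z = L.z₀ := hy.1
    have y1 : M.R < (L.z₀, θ).1 := by linarith
    show ‖L.ev Z v _‖ ≤ D * ‖L.gam Z v‖
    rw [ev_P g v e y1, norm_mul, Complex.norm_real]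
    cases e with
    | inl j =>
      have a1 : ‖low L.z₀ ((v.1 j).1 0)‖ ≤ ‖L.gam Z v‖ :=
        (pi_norm_le_iff_of_nonneg (norm_nonneg _)).2 fun l => norm_le_pi_norm (L.gam Z v) (j, l)
      have a2 := apply_le_low ((v.1 j).1 0) (v.1 j).2.2.2 θ
      refine (mul_le_of_le_one_left (norm_nonneg _) (hq' j _ y1).2).trans (a2.trans ?_)
      gcongr
      linarith
    | inr l =>
      have a1 : LD.jx v (.inr l) 0 (L.z₀, θ) = 0 :=
        mul_eq_zero_of_right _ ((v.2 l).2.2.2 θ)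
      rw [a1, norm_zero, mul_zero]
      positivity
  · have p0 : 0 ≤ prs p (show L.X' Z from v) := apply_nonneg _ _
    have q0 : 0 ≤ prs p' (show L.Y' Z from (L.ends Z T).T v + L.inj Z f) := apply_nonneg _ _
    have s0 : 0 ≤ K₀ + (K₀ / η) ^ 6 := by
      have : 0 ≤ K₀ := by linarith
      positivity
    show _ ≤ η * prs p v + (K₀ + (K₀ / η) ^ 6) * (prs p' ((L.ends Z T).T v + L.inj Z f) + U)
    refine (pi_norm_le_iff_of_nonneg (by positivity)).2 fun i => ?_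
    refine (norm_le_pi_norm (fun l => m (i.1, l)) i.2).trans ((ind_j hL hC h hδ hK hKi i.1
      (fun y k => ((hq _).2.2 y k).2.2.2.2.1) (hy i.1) k1 k2 k3 k4 hη h1 h2 v _ (hG f i.1).2 m hU
      hb).trans ?_)
    rw [← (hG f i.1).1]
    gcongr
    exacts [le_prs1 p v i.1, le_prs1 p' ((L.ends Z T).T v + L.inj Z f) i.1]

end Okn

/-- **the end data** -/
theorem okn (hq : QB) (hl : LINC) (hi : INJ) (hy : INDY) : OKN := fun M k L hL C => by
  obtain ⟨K, C', h⟩ := Okn.okn1 hq hl hi hy hL (le_max_right C 1)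
  exact ⟨K, C', fun Z T p p' δ R hδ hR h1 h2 => h Z T p p' δ R hδ hR
    (fun j => Okn.cyl_mono hL (h1 j) (le_max_left _ _) hδ)
    fun l => Okn.cone_mono (h2 l) (le_max_left _ _)⟩

end Vale.Agent.P218L
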