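import Vale.Agent.P218L.Spec

/-!
# P218, the linear half of INST: rotations are Jacobi fields
-/

open Set Filter Topology
open scoped ContDiff

set_option linter.all false

noncomputable section

namespace Vale.Agent.P218L

open Vale.Agent.P218H (op sa)
open Vale.Agent.P218N
open Vale.Agent.P218N.Lp (cxL pd_id id3)

namespace Rot

variable {T : V3 → V3}

theorem o_sub (h : Orth T 1) (a b : V3) : T (a - b) = T a - T b := by
  rw [sub_eq_add_neg, h.add, ← neg_one_smul ℂ b, h.smul, neg_one_smul, sub_eq_add_neg]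

theorem o_nn (h : Orth T 1) (A : Fin 3 → V3) (m : V3) : nn (fun i => T (A i)) m = T (nn A m) := by
  simp only [nn, h.cr, one_smul, h.add, h.smul]

theorem o_kk (h : Orth T 1) (A B : Fin 3 → V3) (m : V3) :
    kk (fun i => T (A i)) (fun i => T (B i)) m = T (kk A B m) := by
  simp only [kk, h.cr, one_smul, h.add, h.smul, o_sub h]

theorem dn_zero (A : Fin 3 → V3) (m : V3) (m₁ : Fin 3 → V3) :
    dn A 0 m m₁ = fun c => nn A (m₁ c) := by
  funext c
  apply ext3 <;> simp [dn, kk]

theorem o_ee (h : Orth T 1) (θ : ℂ) (X : V3) (A : Fin 3 → V3) (m : V3) (m₁ : Fin 3 → V3) :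
    ee θ (T X) (fun i => T (A i)) 0 m m₁ = ee θ X A 0 m m₁ := by
  simp only [ee, bb, gg, dn_zero, o_nn h, o_kk h, h.dt]

/-- the cross product with a fixed vector -/
def crL (o : V3) : V3 →L[ℝ] V3 := LinearMap.toContinuousLinearMap
  { toFun := cr o
    map_add' := fun a b => by apply ext3 <;> simp <;> ring
    map_smul' := fun s a => by apply ext3 <;> simp <;> ring }

theorem pd_cr (o : V3) (x : E3) : pd (fun x => cr o (cx x)) x = fun c => cr o (id3 c) := by
  funext c
  rw [← pd_id x]
  have h1 : HasFDerivAt (fun x => cr o (cx x)) ((crL o).comp cxL) x := ((crL o).comp cxL).hasFDerivAt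
  have h2 : HasFDerivAt cx cxL x := cxL.hasFDerivAt
  rw [pd, pd, h1.fderiv, h2.fderiv]
  rfl

theorem hd (o v : V3) : HasDerivAt (fun s : ℂ => cay (s • o) v) (cr o v) 0 := by
  have h1 : HasDerivAt (fun s : ℂ => s • o) o 0 := by
    simpa using (hasDerivAt_id (0 : ℂ)).smul_const o
  refine (hd_cay h1 (hasDerivAt_const (0 : ℂ) v) (by simp [dt])).congr_deriv ?_
  rw [zero_smul, cay_zero, add_zero]
  congr 1
  apply ext3 <;> simp [av, dt]

end Rot

open Rot in
/-- **ROT** -/
theorem rot : ROT := by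
  intro S w δ C h hw o p hp
  have w0 : w p = 0 := (h.mem_iff p).1 hp
  have tube : ∀ᶠ y in 𝓝 p, |w y| < δ :=
    hw.continuous.abs.continuousAt.eventually_lt continuousAt_const (by simpa [w0] using h.pos)
  obtain ⟨-, -, l3, l4⟩ := linp w p h.smooth.contDiffAt (tube.mono h.norm_grad) w0
    (.of_forall fun x hx => h.shrinker x ((h.mem_iff x).2 hx))
  have h1 := l4 (fun x => cr (cx o) (cx x)) ((crL (cx o)).comp cxL).contDiff.contDiffAt
    (fun s => cay (s • cx o) (cx p)) (fun s i => cay (s • cx o) (pd cx p i)) (fun _ => 0)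
    (by simp [cay_zero]) (by simp [cay_zero]) rfl (hd _ _)
    (hasDerivAt_pi.2 fun i => by rw [pd_cr, pd_id]; exact hd _ _)
    (by rw [funext (pd_cr (cx o)), pd_const]; exact hasDerivAt_const _ _)
  have h2 : ∀ᶠ s : ℂ in 𝓝 0, 4 + dt (s • cx o) (s • cx o) ≠ 0 := by
    refine ContinuousAt.eventually_ne ?_ (by simp [dt])
    simp only [dt, Pi.smul_apply, smul_eq_mul]
    fun_prop
  have h3 := h1.unique ((hasDerivAt_const (0 : ℂ) (0 : ℂ)).congr_of_eventuallyEq
    (h2.mono fun s hs => (o_ee (orth_cay hs) _ _ _ _ _).trans l3))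
  simpa using h3

end Vale.Agent.P218L
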