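import Vale.Agent.P218L.Spec

/-!
# P218, the linear half of INST: the slow solution on a cylindrical end
-/

open MeasureTheory Set Filter Topology
open scoped ContDiff Real ComplexConjugate

set_option linter.all false

noncomputable section

namespace Vale.Agent.P218L

open Vale.Agent.P218T Vale.Agent.P218M
open Vale.Agent.P218W (W Le jet co wj XH omH TH LHW ret_max)

namespace VjAux

theorem re_fd {F : ℝ × ℝ → ℂ} (h : ∀ p, conj (F p) = F p) (p v : ℝ × ℝ) :
    conj (fderiv ℝ F p v) = fderiv ℝ F p v := by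
  have e : Complex.conjCLE ∘ F = F := funext h
  have := Complex.conjCLE.comp_fderiv (f := F) (x := p)
  rw [e] at this
  exact (congrArg (fun L => L v) this).symm

theorem fd2 {F : ℝ × ℝ → ℂ} (hF : ContDiff ℝ ∞ F) (p v w : ℝ × ℝ) :
    fderiv ℝ (fderiv ℝ F) p v w = fderiv ℝ (fun q => fderiv ℝ F q w) p v := by
  have h : DifferentiableAt ℝ (fderiv ℝ F) p :=
    (hF.fderiv_right (m := 1) (by norm_cast)).differentiable one_ne_zero p
  rw [fderiv_clm_apply h (differentiableAt_const w)]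
  simp

theorem jet_re {F : ℝ × ℝ → ℂ} (hF : ContDiff ℝ ∞ F) (h : ∀ p, conj (F p) = F p) (i : Fin 6)
    (p : ℝ × ℝ) : conj (jet F i p) = jet F i p := by
  have k : ∀ v w, conj (fderiv ℝ (fderiv ℝ F) p v w) = fderiv ℝ (fderiv ℝ F) p v w :=
    fun v w => by
      rw [fd2 hF]
      exact re_fd (fun q => re_fd h q w) p v
  fin_cases i
  exacts [h p, re_fd h p _, k _ _, re_fd h p _, k _ _, k _ _]

theorem jet_cont {F : ℝ × ℝ → ℂ} (hF : ContDiff ℝ ∞ F) (i : Fin 6) : Continuous (jet F i) := by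
  have h1 : ContDiff ℝ 1 (fderiv ℝ F) := hF.fderiv_right (m := 1) (by norm_cast)
  have h2 : Continuous (fderiv ℝ (fderiv ℝ F)) := h1.continuous_fderiv one_ne_zero
  have k1 : ∀ v, Continuous fun p => fderiv ℝ F p v := fun v =>
    h1.continuous.clm_apply continuous_const
  have k2 : ∀ v w, Continuous fun p => fderiv ℝ (fderiv ℝ F) p v w := fun v w =>
    (h2.clm_apply continuous_const).clm_apply continuous_const
  fin_cases i
  exacts [hF.continuous, k1 _, k2 _ _, k1 _, k2 _ _, k2 _ _]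

theorem jet_sub2 (F : ℝ × ℝ → ℂ) (y : ℝ × ℝ) :
    (fun i => ![2, 0, 0, 0, 0, 0] i + jet (fun y => F y - 2) i y) = fun i => jet F i y := by
  have e : fderiv ℝ (fun y => F y - 2) = fderiv ℝ F := funext fun p => fderiv_sub_const _
  funext i
  fin_cases i <;> simp [jet, e]

theorem vJ_star (z : ℝ) : star ∘ vJ 1 z ∘ star = vJ 1 z := by
  funext J
  simp [vJ, P218N.vv, P218N.vD, map_ofNat]

theorem fd_conj (z : ℝ) {V : Fin 6 → ℂ} (hV : star V = V) (H : Fin 6 → ℂ) :
    fderiv ℂ (vJ 1 z) V (star H) = conj (fderiv ℂ (vJ 1 z) V H) := by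
  by_cases h : DifferentiableAt ℂ (vJ 1 z) V
  · have := h.hasFDerivAt.star_star
    rw [vJ_star, hV] at this
    conv_lhs => rw [this.fderiv]
    simp
  · simp [fderiv_zero_of_not_differentiableAt h]

theorem star_mem {R : ℝ} {w : ℝ → ℝ} (J : XH R w) : star J.1 ∈ XH R w :=
  ⟨J.2.1.conj.congr fun i z _ θ => by simp [wj], fun k hk => by
    have := P218W.co_conj (J.1 0) k R
    rw [J.2.2 (-k) (by rwa [abs_neg]), map_zero] at this
    exact this⟩

theorem wy_eq (z : ℝ) : wy z = z ^ (1 / 16 : ℝ) := by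
  norm_num [wy, wH]

theorem om_le {z : ℝ} (hz : 1 ≤ z) (i : Fin 6) : omH wy i z ≤ wy z := by
  have : 0 ≤ wy z := by rw [wy_eq]; positivity
  fin_cases i
  exacts [le_rfl, le_rfl, le_rfl, div_le_self this hz, le_rfl, le_rfl]

theorem hj_le {z : ℝ} (hz : 1 ≤ z) (i : Fin 6) : ‖hj z i‖ ≤ 2 * z ^ 2 := by
  have h0 : ‖((z : ℂ) ^ 2 - 2)‖ ≤ 2 * z ^ 2 := by
    rw [show ((z : ℂ) ^ 2 - 2) = ((z ^ 2 - 2 : ℝ) : ℂ) by push_cast; rfl, Complex.norm_real,
      Real.norm_eq_abs, abs_le]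
    constructor <;> nlinarith
  have h3 : ‖(2 * z : ℂ)‖ ≤ 2 * z ^ 2 := by
    rw [norm_mul, Complex.norm_real, Real.norm_of_nonneg (by linarith)]
    simp only [Complex.norm_ofNat]
    nlinarith
  have h5 : ‖(2 : ℂ)‖ ≤ 2 * z ^ 2 := by
    simp only [Complex.norm_ofNat]
    nlinarith
  have h1 : ‖(0 : ℂ)‖ ≤ 2 * z ^ 2 := by
    rw [norm_zero]
    positivity
  fin_cases i
  exacts [h0, h1, h1, h3, h1, h5]

theorem hj_cont (i : Fin 6) : Continuous fun z => hj z i := by
  fin_cases i <;> simp [hj] <;> fun_prop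

theorem hj_re (z : ℝ) (i : Fin 6) : conj (hj z i) = hj z i := by
  fin_cases i <;> simp [hj, map_ofNat]

end VjAux

open VjAux in
theorem vj (h1 : COEF) (h2 : SDEC) : VJ := by
  intro f hf R₁ hR₁
  obtain ⟨η₀, C, hη₀, hC, hco⟩ := h1
  obtain ⟨R₀, K, hR₀, hK, -⟩ := h2 f hf R₁ hR₁
  obtain ⟨R₃, Ch, hR₃, hCh, hh⟩ := P218W.half
  have K0 : 0 ≤ K := (hK 0).M0
  obtain ⟨η, η0, η1, η2⟩ : ∃ η : ℝ, 0 < η ∧ η ≤ η₀ ∧ 6 * (C * η) ≤ 1 / (2 * Ch) :=
    ⟨min η₀ (1 / (12 * C * Ch)), by positivity, min_le_left _ _, by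
      calc 6 * (C * min η₀ (1 / (12 * C * Ch))) ≤ 6 * (C * (1 / (12 * C * Ch))) := by
            gcongr; exact min_le_right _ _
        _ = 1 / (2 * Ch) := by field_simp; norm_num⟩
  refine ⟨max (max R₀ R₃) (K / η), fun R hR => ?_⟩
  simp only [max_le_iff] at hR
  have R1 : 1 ≤ R := hR₀.trans hR.1.1
  have R0 : 0 < R := one_pos.trans_le R1
  have r := ret_max R
  have sm : ContDiff ℝ ∞ (VS f) :=
    Complex.ofRealCLM.contDiff.comp ((contDiff_const.add hf.smooth).pow 2)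
  have hK' : ∀ i, Le (Ici R) (jet (fun y => VS f y - 2) i) (fun z => z ^ (-31 / 16 : ℝ)) K :=
    fun i => (hK i).mono (Ici_subset_Ici.2 hR.1.1) (fun _ _ => le_rfl) le_rfl
  have hη : ∀ i, Le (Ici R) (jet (fun y => VS f y - 2) i) (fun _ => 1) η := fun i => by
    refine ((hK' i).wt (C := 1 / R) (by positivity) (by simp) fun z hz => ?_).mono subset_rfl
      (fun _ _ => le_rfl) ?_
    · have z1 : 1 ≤ z := R1.trans hz
      calc z ^ (-31 / 16 : ℝ) ≤ z ^ (-1 : ℝ) := Real.rpow_le_rpow_of_exponent_le z1 (by norm_num)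
        _ = 1 / z := by rw [Real.rpow_neg_one, one_div]
        _ ≤ 1 / R * 1 := by rw [mul_one]; exact one_div_le_one_div_of_le R0 hz
    · rw [one_div, inv_mul_le_iff₀ R0]
      exact (div_le_iff₀ η0).1 hR.2
  obtain ⟨a, m, ha, hL⟩ := hco (Ici R) _ _ η K η1 hη hK'
    fun i => (jet_cont (sm.sub contDiff_const) i).continuousOn
  have wp : ∀ z ∈ Ici R, 0 < wy z := P218W.wH_pos R0 le_rfl
  have wc : ContinuousOn wy (Ici R) := P218W.wH_cont R0
  have wc' : ContinuousOn (fun p : ℝ × ℝ => ((wy p.1 : ℝ) : ℂ)) (Ici R ×ˢ univ) :=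
    Complex.continuous_ofReal.comp_continuousOn (wc.comp continuousOn_fst fun p hp => hp.1)
  have wn : ∀ p ∈ Ici R ×ˢ (univ : Set ℝ), ((wy p.1 : ℝ) : ℂ) ≠ 0 := fun p hp => by
    exact_mod_cast (wp _ hp.1).ne'
  have lA : ∀ i, Le (Ici R) (fun p => ((omH wy i p.1 : ℝ) : ℂ) / wy p.1 * a i p) (fun _ => 1)
      (1 * (C * η)) := fun i =>
    (ha i).1.mulz (φ := fun z => ((omH wy i z : ℝ) : ℂ) / wy z) zero_le_one (by simp)
      fun z hz => by
        rw [mul_one, mul_one, norm_div, Complex.norm_real, Complex.norm_real,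
          Real.norm_of_nonneg (P218W.omH_pos R0 wp i hz).le, Real.norm_of_nonneg (wp z hz).le,
          div_le_one (wp z hz)]
        exact om_le (R1.trans hz) i
  have cA : ∀ i, ContinuousOn (fun p : ℝ × ℝ => ((omH wy i p.1 : ℝ) : ℂ) / wy p.1 * a i p)
      (Ici R ×ˢ univ) := fun i =>
    ((Complex.continuous_ofReal.comp_continuousOn ((P218W.omH_cont R0 wc i).comp continuousOn_fst
      fun p hp => hp.1)).div wc' wn).mul (ha i).2.2.2.1
  have lG : Le (Ici R) (fun p => -∑ i, hj p.1 i / wy p.1 * a i p) (fun _ => 1)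
      (∑ i : Fin 6, 2 * (C * K)) :=
    (P218W.Le.sum Finset.univ (by simp) fun i _ =>
      (ha i).2.2.1.mulz (φ := fun z => hj z i / wy z) zero_le_two (by simp) fun z hz => by
        have z1 : 1 ≤ z := R1.trans hz
        have z0 : 0 < z := one_pos.trans_le z1
        rw [mul_one, norm_div, Complex.norm_real, Real.norm_of_nonneg (wp z hz).le,
          div_mul_eq_mul_div, div_le_iff₀ (wp z hz), wy_eq]
        calc ‖hj z i‖ * z ^ (-31 / 16 : ℝ) ≤ 2 * z ^ 2 * z ^ (-31 / 16 : ℝ) := by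
              gcongr; exact hj_le z1 i
          _ = 2 * z ^ (1 / 16 : ℝ) := by
              rw [mul_assoc, ← Real.rpow_natCast, ← Real.rpow_add z0]
              norm_num).neg
  have cG : ContinuousOn (fun p : ℝ × ℝ => -∑ i, hj p.1 i / wy p.1 * a i p) (Ici R ×ˢ univ) :=
    (continuousOn_finset_sum _ fun i _ =>
      ((((hj_cont i).comp continuous_fst).continuousOn).div wc' wn).mul (ha i).2.2.2.1).neg
  let A : Fin 6 → W (max R) := fun i => r.mk' _ (cA i) ⟨_, lA i⟩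
  have nA : ∀ i, ‖A i‖ ≤ C * η := fun i =>
    (r.norm_le (r.mk'_le _ _ subset_rfl (lA i))).trans_eq (one_mul _)
  let P : XH R wy →L[ℂ] W (max R) := ∑ i, ContinuousLinearMap.mul ℂ (W (max R)) (A i) ∘L
    (ContinuousLinearMap.proj i : (Fin 6 → W (max R)) →L[ℂ] W (max R)) ∘L (XH R wy).subtypeL
  have eP : ∀ J, P J = ∑ i, A i * J.1 i := fun J => by
    simp [P, ContinuousLinearMap.sum_apply]
  have nP : ‖P‖ ≤ 1 / (2 * Ch) := by
    refine P.opNorm_le_bound (by positivity) fun J => ?_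
    rw [eP]
    refine (norm_sum_le_of_le _ (n := fun _ => C * η * ‖J‖) fun i _ => (norm_mul_le _ _).trans
      (mul_le_mul (nA i) (norm_le_pi_norm J.1 i) (norm_nonneg _) (by positivity))).trans ?_
    rw [Finset.sum_const, Finset.card_univ, Fintype.card_fin, nsmul_eq_mul, ← mul_assoc]
    exact mul_le_mul_of_nonneg_right (by exact_mod_cast η2) (norm_nonneg _)
  obtain ⟨J, hJ⟩ := ((hh R hR.1.2 (-1 / 16) ⟨by norm_num, by norm_num⟩ 0 le_rfl).2.2 P nP).1
    (r.mk' _ cG ⟨_, lG⟩)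
  have sol : ∀ y : ℝ × ℝ, R ≤ y.1 →
      fderiv ℂ (vJ 1 y.1) (fun i => jet (VS f) i y) (fun i => yj J i y) = 0 := by
    rintro ⟨z, θ⟩ hz
    have e := congrArg (fun x : W (max R) => x (z, θ)) hJ
    simp only [ContinuousLinearMap.add_apply, eP, P218W.TH_apply, P218W.LHW_apply,
      P218W.W.add_apply, P218W.W.sub_apply, P218W.W.smul_apply, P218W.W.sum_apply,
      P218W.W.mul_apply, A, r.mk'_apply _ _ _ hz] at e
    have w0 : ((wy z : ℝ) : ℂ) ≠ 0 := wn (z, θ) ⟨hz, trivial⟩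
    have z0 : (z : ℂ) ≠ 0 := by exact_mod_cast (R0.trans_le hz).ne'
    rw [← jet_sub2, (hL (z, θ) hz).1]
    simp only [yj, wj, Fin.sum_univ_six, hj, omH, Matrix.cons_val, Matrix.cons_val_zero,
      Matrix.cons_val_one, Complex.ofReal_div] at e ⊢
    field_simp at e ⊢
    linear_combination e
  have cj : ∀ i y, yj (⟨star J.1, star_mem J⟩ : XH R wy) i y = conj (yj J i y) := fun i y => by
    simp [yj, wj, hj_re]
  refine ⟨(1 / 2 : ℂ) • (J + ⟨star J.1, star_mem J⟩), fun y hy => ?_, fun i y => ?_⟩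
  · have e : (fun i => yj ((1 / 2 : ℂ) • (J + ⟨star J.1, star_mem J⟩)) i y) =
        (1 / 2 : ℂ) • ((fun i => yj J i y) + star fun i => yj J i y) := by
      funext i
      simp only [Pi.smul_apply, Pi.add_apply, Pi.star_apply, Complex.star_def, ← cj, smul_eq_mul]
      simp only [yj, wj, Submodule.coe_smul, Submodule.coe_add, Pi.smul_apply, Pi.add_apply,
        P218W.W.smul_apply, P218W.W.add_apply]
      ring
    rw [e, map_smul, map_add, fd_conj _ (funext fun i => jet_re sm (fun p => by simp [VS]) i y),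
      sol y hy]
    simp
  · simp [add_comm, map_ofNat]

end Vale.Agent.P218L
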