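import Vale.Agent.P218L.Lq
import Vale.Agent.P218L.Rot
import Vale.Agent.P218L.Coef
import Vale.Agent.P218L.Vj
import Vale.Agent.P218L.Cone
import Vale.Agent.P218L.Slow
import Vale.Agent.P218L.Kap
import Vale.Agent.P218L.Inj
import Vale.Agent.P218L.Indy
import Vale.Agent.P218L.Okn
import Vale.Agent.P218L.Cylo
import Vale.Agent.P218L.Ps
import Vale.Agent.P218L.Exa
import Vale.Agent.P218L.Nd2
import Vale.Agent.P218L.Nd
import Vale.Agent.P218L.Lex
import Vale.Agent.P218I.Pt

/-!
# P218, the linear half of INST: all rows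
-/

namespace Vale.Agent.P218L

open Vale.Agent.P218I

theorem sdec' : SDEC := sdec coef

theorem slow' : SLOW := slow qb linc rot

theorem core' : CORE := core msg slow'

theorem kap'' : KAP := kap' msg qb slow'

theorem okn' : OKN := okn qb linc (inj' qb) indy

theorem nd' : ND := nd msg slow' core' kap''
  (exa (cone' eqs) okn' (cylo loww) loww (ps eqs coef sdec')) nd2

theorem bt' : BT := bt eqs sdec'

theorem pt' : PT := pt bt'

theorem lex' : LEX :=
  lex cy pt' (exl eqs (vj coef sdec') msg) core' (cone' eqs) (cylo loww) okn' (inj' qb)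

end Vale.Agent.P218L
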