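import Vale.Agent.P218L.Spec
import Vale.Agent.P218H.Ms2
import Vale.Agent.P218H.Nqs

/-!
# P218, rows MSG and CORE: the normalised Gaussian area, the core (helper24)
-/

set_option linter.all false

open MeasureTheory Set Filter Topology
open scoped ContDiff NNReal ENNReal

noncomputable section

namespace Vale.Agent.P218L

open Vale.Agent.P218T Vale.Agent.P218M Vale.Agent.P218H
open Vale.Agent.P218.H63 (IsTubeShrinker gaussArea)
open Vale.Agent.P218N (sig)

section scale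

variable {n : ℕ} {S : Set (En n)} {w : En n → ℝ} {ν : Measure (En n)} {c : ℝ≥0}

theorem ms_smul (h : MS S w ν) (hc : c ≠ 0) : MS S w (c • ν) := by
  have := h.fin
  refine ⟨inferInstance, by simp [h.supp], fun p hp ρ hρ => ?_,
    fun N => (h.mom N).smul_measure_nnreal, fun f g hf hf' hg => ?_⟩
  · rw [Measure.coe_nnreal_smul_apply]
    exact ENNReal.mul_pos (by simpa using hc) (h.pos p hp ρ hρ).ne'
  · rw [integral_smul_nnreal_measure, integral_smul_nnreal_measure, h.green f g hf hf' hg]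

theorem rel_smul (h : Rel w ν) (hc : c ≠ 0) : Rel w (c • ν) := fun ι U v C h1 h2 h3 => by
  have c0 : (0 : ℝ) < c := by positivity
  simp only [integral_smul_nnreal_measure, NNReal.smul_def, smul_eq_mul] at h2 h3 ⊢
  simpa using (h ι U v (C / c) h1 (fun i => (le_div_iff₀' c0).2 (h2 i)) fun ζ a b => by
    simpa [c0.ne'] using (h3 ζ a b).const_mul (c : ℝ)⁻¹).const_mul (c : ℝ)

end scale

/-- the normalised Gaussian area is a multiple of the Gaussian area -/
theorem ga_eq : ∃ c : ℝ≥0, c ≠ 0 ∧ ∀ w : E3 → ℝ, ga w = c • gaussArea 2 {x | w x = 0} :=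
  ⟨_, Measure.addHaarScalarFactor_volume_hausdorffMeasure_ne_zero 2, fun w => by
    rw [ga, sig, gaussArea, Measure.euclideanHausdorffMeasure_def, Measure.restrict_smul,
      ENNReal.smul_def, withDensity_smul_measure, ← ENNReal.smul_def]⟩

theorem msg : MSG := fun S w δ C h hw => by
  obtain ⟨c, hc, e⟩ := ga_eq
  rw [e, ← show S = {x | w x = 0} from Set.ext h.mem_iff]
  exact ⟨ms_smul (ms1 S w δ C h hw) hc, rel_smul (ms2 S w δ C h hw) hc⟩

theorem core (hm : MSG) (hs : SLOW) : CORE := fun M k L h K => by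
  have g := h.geo
  have r1 := g.one.1
  have r2 := h.lo
  have r3 := h.hi
  have ms := (hm _ _ _ _ g.shr g.smw).1
  obtain ⟨s1, C, s2⟩ := hs M k L h
  have i1 : Ici L.z₀ ⊆ Ioi M.R := fun z hz => by
    simp only [mem_Ici, mem_Ioi] at hz ⊢; linarith
  have i2 : ({L.z₀} : Set ℝ) ⊆ Ici L.z₀ := singleton_subset_iff.2 (mem_Ici.2 le_rfl)
  have z1 : ∀ {c : ℝ} {p : E3}, 0 ≤ c → ‖p‖ < c → ∀ᶠ y in 𝓝 p, 1 - st c y = 1 := fun a b =>
    (st_ev_zero a b).mono fun y hy => by rw [hy, sub_zero]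
  refine ⟨⟨g.tb, h.ker, (geos 3 _ _ _ _ g.shr g.smw).2.1, show 1 ≤ L.ρ by linarith,
    show L.ρ ≤ L.ρ + 2 by linarith, st_smooth _, contDiff_const.sub (st_smooth _),
    fun x => ⟨st_nonneg, st_le_one⟩,
    fun x => ⟨sub_nonneg.2 st_le_one, sub_le_self _ st_nonneg⟩, fun p _ hp => ?_, fun p _ hp => ?_,
    fun p _ => ?_, iUnion_subset fun e => g.En_sub i1,
    isClosed_iUnion_of_finite fun e => g.isClosed_En isClosed_Ici i1,
    iUnion_mono fun e => Mod.En_mono i2, fun p hp a => ?_, ?_,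
    fun i => ⟨(h.coer.sm i).1.of_le (by simp), fun x hx => h.supp i x ?_⟩, ms.fin, ms.supp,
    fun i => ⟨(s1 i).1, fun p hp a => ?_⟩, h.bar.1, fun p hp _ => ?_⟩,
    nqs geos _ _ _ _ _ _ _ _ g.shr g.smw ms h.coer, C, fun i p hp =>
      ⟨(s2 i p hp).1, (s2 i p hp).2.1, (s2 i p hp).2.2, fun j => ?_⟩⟩
  · change ‖p‖ ≤ L.ρ at hp
    exact ⟨st_ev_zero (by linarith) (by linarith), z1 (by linarith) (by linarith)⟩
  · change L.ρ + 2 + 3 ≤ ‖p‖ at hp
    exact ⟨(st_ev_one (c := L.ρ + 3) (by linarith) (by linarith)).mono fun y hy => sub_eq_zero.2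
      hy.symm, st_ev_one (by linarith) (by linarith)⟩
  · rcases lt_or_ge ‖p‖ (L.ρ + 3) with a | a
    · exact .inl (z1 (by linarith) a)
    · exact .inr (st_ev_one (by linarith) (by linarith))
  · change L.ρ - 1 ≤ ‖p‖ at a
    obtain ⟨e, y, y1, -, rfl⟩ := g.far (c := L.z₀) (by linarith) hp (by linarith)
    refine ⟨mem_iUnion.2 ⟨e, Mod.P_mem_En y1.le⟩, fun b => ?_⟩
    obtain ⟨e', b⟩ := mem_iUnion.1 b
    by_cases ee : e' = e
    · subst ee
      exact y1.ne' ((g.mem_En (i2.trans i1) (i1 y1.le)).1 b)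
    · exact g.notMem_En ee (i2.trans i1) (i1 y1.le) b
  · rintro p ⟨a, b⟩
    obtain ⟨e, y, hy, rfl⟩ := mem_iUnion.1 a
    have y1 : L.z₀ < y.1 := lt_of_le_of_ne hy.1 fun c => b (mem_iUnion.2 ⟨e, Mod.P_mem_En c.symm⟩)
    exact mem_of_superset (g.En_nhds (i1 hy.1) (Ici_mem_nhds y1)) (subset_iUnion (M.En · _) e)
  · change L.ρ ≤ ‖x‖ at hx
    linarith
  · have := ((s1 i).2.2.2.2.1 p hp a).2.2
    change 1 - st (L.ρ + 3) p = 1
    rw [st_zero (by linarith) (by split_ifs at this <;> linarith), sub_zero]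
  · obtain ⟨e, a⟩ := mem_iUnion.1 hp
    obtain ⟨z, z1, z2, -⟩ := g.norm_En i1 a
    exact h.bar.2 p (g.En_sub i1 a) (z1.trans z2)
  · by_cases a : L.Y i p = 0
    · exact mul_eq_zero_of_left a _
    · obtain ⟨z, z1, z2, -⟩ := g.norm_En (fun z hz => by
        simp only [mem_Ici, mem_Ioi] at hz ⊢; linarith) ((s1 i).2.2.2.2.2.1 p hp a)
      have : L.ψ j p = 0 := h.supp j p (by linarith [mem_Ici.1 z1])
      exact mul_eq_zero_of_right _ (Complex.ofReal_eq_zero.2 this)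

end Vale.Agent.P218L
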