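import Vale.Agent.P277Z.Hir.All

/-!
# The gradient inequality of Łojasiewicz for holomorphic functions
-/

open Filter Topology Set Function Asymptotics Metric

noncomputable section

namespace Vale.Agent.P218L

open Vale.Agent.P277Z.Hir

/-- The inequality `|G|^N ≤ C D^(N+1)` along `l`. -/
def Lj {T : Type*} (l : Filter T) (G D : T → ℝ) (N : ℕ) : Prop :=
  G =O[l] D ∧ (fun z => G z ^ N) =O[l] fun z => D z ^ (N + 1)

section
variable {T : Type*} {l l' : Filter T} {G D : T → ℝ} {N M : ℕ}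

theorem Lj.up (h : Lj l G D N) (e : N ≤ M) : Lj l G D M := by
  obtain ⟨k, rfl⟩ := Nat.exists_eq_add_of_le e
  refine ⟨h.1, ((h.2.mul (h.1.pow k)).congr_left fun z => ?_).congr_right fun z => ?_⟩ <;> ring

theorem Lj.mono (h : Lj l G D N) (e : l' ≤ l) : Lj l' G D N := ⟨h.1.mono e, h.2.mono e⟩

theorem Lj.sup (h : Lj l G D N) (h' : Lj l' G D M) : Lj (l ⊔ l') G D (max N M) :=
  ⟨h.1.sup h'.1, (h.up (le_max_left _ _)).2.sup (h'.up (le_max_right _ _)).2⟩

theorem Lj.comp {S : Type*} {k : Filter S} {p : S → T} (h : Lj l G D N) (hp : Tendsto p k l) :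
    Lj k (G ∘ p) (D ∘ p) N := ⟨h.1.comp_tendsto hp, h.2.comp_tendsto hp⟩

theorem Lj.congr {G' D' : T → ℝ} (h : Lj l G D N) (e : G =ᶠ[l] G') (e' : D =O[l] D') :
    Lj l G' D' N :=
  ⟨(h.1.congr' e EventuallyEq.rfl).trans e',
    (h.2.congr' (e.fun_comp (· ^ N)) EventuallyEq.rfl).trans (e'.pow _)⟩

theorem Lj.small (h : Lj l G D N) : ∃ s ∈ l, Lj (𝓟 s) G D N := by
  obtain ⟨a, ha⟩ := h.1.bound
  obtain ⟨b, hb⟩ := h.2.bound
  exact ⟨_, ha.and hb, IsBigO.of_bound a (eventually_principal.2 fun _ h => h.1),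
    IsBigO.of_bound b (eventually_principal.2 fun _ h => h.2)⟩

end

variable {n : ℕ} {q : Fin n → ℂ}

theorem freq_ne (z : Fin n → ℂ) : ∃ᶠ w in 𝓝 z, ∀ i, w i ≠ 0 := by
  have h := dense_pi (α := fun _ : Fin n => ℂ) univ fun _ _ => dense_compl_singleton (0 : ℂ)
  exact (mem_closure_iff_frequently.1 (h z)).mono fun w hw i => hw i trivial

theorem an_mono (e : Fin n → ℕ) (z : Fin n → ℂ) :
    AnalyticAt ℂ (fun w : Fin n → ℂ => ∏ i, w i ^ e i) z :=
  Finset.analyticAt_fun_prod _ fun i _ =>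
    ((ContinuousLinearMap.proj (R := ℂ) (φ := fun _ : Fin n => ℂ) i).analyticAt z).pow _

/-- division by a monomial -/
theorem mono_div (d : ℕ) : ∀ (e : Fin n → ℕ) (G : (Fin n → ℂ) → ℂ), ∑ i, e i = d →
    AnalyticAt ℂ G q → (∃ C : ℝ, ∀ᶠ z in 𝓝 q, (∀ i, z i ≠ 0) → ‖G z‖ ≤ C * ‖∏ i, z i ^ e i‖) →
    ∃ u, AnalyticAt ℂ u q ∧ ∀ᶠ z in 𝓝 q, G z = (∏ i, z i ^ e i) * u z := by
  classical
  induction d with
  | zero =>
    intro e G he hG _
    have : ∀ i, e i = 0 := fun i => Finset.sum_eq_zero_iff.1 he i (Finset.mem_univ i)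
    exact ⟨G, hG, Eventually.of_forall fun z => by simp [this]⟩
  | succ d ih =>
    rintro e G he hG ⟨C, hC⟩
    obtain ⟨i, -, hi⟩ := Finset.exists_ne_zero_of_sum_ne_zero (he.trans_ne d.succ_ne_zero)
    obtain ⟨e', h1, h2⟩ : ∃ e' : Fin n → ℕ, ∑ j, e' j = d ∧
        ∀ z : Fin n → ℂ, ∏ j, z j ^ e j = z i * ∏ j, z j ^ e' j := by
      refine ⟨update e i (e i - 1), ?_, fun z => ?_⟩
      · rw [Finset.sum_update_of_mem (Finset.mem_univ i)]
        rw [← Finset.add_sum_erase _ _ (Finset.mem_univ i), ← Finset.sdiff_singleton_eq_erase] at he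
        omega
      · rw [← Finset.mul_prod_erase _ _ (Finset.mem_univ i),
          ← Finset.mul_prod_erase _ (fun j => z j ^ update e i (e i - 1) j) (Finset.mem_univ i),
          update_self, ← mul_assoc, ← pow_succ', Nat.sub_add_cancel (Nat.pos_of_ne_zero hi)]
        exact congrArg _ (Finset.prod_congr rfl fun j hj => by
          rw [update_of_ne (Finset.ne_of_mem_erase hj)])
    have pi : AnalyticAt ℂ (fun z : Fin n → ℂ => z i) q :=
      (ContinuousLinearMap.proj (R := ℂ) (φ := fun _ : Fin n => ℂ) i).analyticAt q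
    obtain ⟨w, hw, h3⟩ : ∃ w, AnalyticAt ℂ w q ∧ ∀ᶠ z in 𝓝 q, G z = z i * w z := by
      by_cases h0 : q i = 0
      · refine P281.H511.Gen.div_coord h0 hG ?_
        filter_upwards [hC.eventually_nhds, hG.eventually_analyticAt] with z a b c
        have := le_of_tendsto_of_tendsto_of_frequently b.continuousAt.norm
          ((an_mono e z).continuousAt.norm.const_mul C) (((freq_ne z).and_eventually a).mono
            fun w hw => hw.2 hw.1)
        beta_reduce at this
        rw [h2, c, zero_mul, norm_zero, mul_zero] at this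
        exact norm_le_zero_iff.1 this
      · refine ⟨fun z => G z / z i, hG.div pi h0, ?_⟩
        filter_upwards [pi.continuousAt.eventually_ne h0] with z hz
        rw [mul_div_cancel₀ _ hz]
    obtain ⟨u, hu, h4⟩ := ih e' w h1 hw ⟨C, by
      filter_upwards [hC, h3] with z a b c
      have := a c
      rw [b, h2, norm_mul, norm_mul, mul_left_comm] at this
      exact le_of_mul_le_mul_left this (norm_pos_iff.2 (c i))⟩
    refine ⟨u, hu, ?_⟩
    filter_upwards [h3, h4] with z a b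
    rw [a, b, h2, mul_assoc]

theorem euler (e : Fin n → ℕ) (i : Fin n) (z : Fin n → ℂ) :
    z i * fderiv ℂ (fun w : Fin n → ℂ => ∏ j, w j ^ e j) z (Pi.single i 1) =
      e i * ∏ j, z j ^ e j := by
  have h1 : HasDerivAt (fun t : ℂ => ∏ j, (z + t • (Pi.single i 1 : Fin n → ℂ)) j ^ e j)
      (fderiv ℂ (fun w : Fin n → ℂ => ∏ j, w j ^ e j) z (Pi.single i 1)) 0 :=
    (an_mono e z).differentiableAt.hasFDerivAt.hasLineDerivAt (Pi.single i 1)
  have h2 : (fun t : ℂ => ∏ j, (z + t • (Pi.single i 1 : Fin n → ℂ)) j ^ e j) =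
      fun t => (z i + t) ^ e i * ∏ j ∈ Finset.univ.erase i, z j ^ e j := by
    funext t
    rw [← Finset.mul_prod_erase _ _ (Finset.mem_univ i)]
    congr 1
    · simp
    · exact Finset.prod_congr rfl fun j hj => by simp [Finset.ne_of_mem_erase hj]
  have h3 := (((hasDerivAt_id (0 : ℂ)).const_add (z i)).fun_pow (e i)).mul_const
    (∏ j ∈ Finset.univ.erase i, z j ^ e j)
  rw [h2] at h1
  rw [h1.unique h3, ← Finset.mul_prod_erase _ _ (Finset.mem_univ i)]
  rcases Nat.eq_zero_or_pos (e i) with h | h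
  · simp [h]
  · obtain ⟨m, hm⟩ := Nat.exists_eq_add_of_lt h
    rw [hm]; simp; ring

/-- the inequality for a function comparable to a monomial -/
theorem lj_mono {G : (Fin n → ℂ) → ℂ} (hG : AnalyticAt ℂ G q) (h0 : G q = 0) {e : Fin n → ℕ}
    (h : Cpb (𝓝 q) (fun z => ‖G z‖) fun z => ‖∏ i, z i ^ e i‖) :
    ∃ N, Lj (𝓝 q) (fun z => ‖G z‖) (fun z => ‖fderiv ℂ G z‖) N := by
  obtain ⟨C, hC, h⟩ := h
  obtain ⟨u, hu, h1⟩ := mono_div _ e G rfl hG ⟨C, h.mono fun z hz _ => hz.1⟩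
  have h2 : u q ≠ 0 := fun k => by
    have a : (1 : ℝ) ≤ C * ‖u q‖ := le_of_tendsto_of_tendsto_of_frequently tendsto_const_nhds
      (hu.continuousAt.norm.const_mul C) (((freq_ne q).and_eventually (h.and h1)).mono
        fun w hw => by
          have b := hw.2.1.2
          beta_reduce at b
          rw [hw.2.2, norm_mul, mul_left_comm] at b
          exact (le_mul_iff_one_le_right (norm_pos_iff.2 (Finset.prod_ne_zero_iff.2
            fun i _ => pow_ne_zero _ (hw.1 i)))).1 b)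
    rw [k, norm_zero, mul_zero] at a
    exact not_lt.2 a one_pos
  have pi : ∀ i, ContinuousAt (fun z : Fin n → ℂ => z i) q := fun i =>
    (continuous_apply i).continuousAt
  have h3 : ∀ i, e i ≠ 0 → q i = 0 → G =O[𝓝 q] fun z => ‖z i‖ * ‖fderiv ℂ G z‖ := by
    intro i hi hq
    have c : ContinuousAt (fun z => (e i : ℂ) + z i * fderiv ℂ u z (Pi.single i 1) / u z) q :=
      continuousAt_const.add (((pi i).mul (hu.fderiv.continuousAt.clm_apply
        continuousAt_const)).div hu.continuousAt h2)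
    have c' := c.norm.eventually (lt_mem_nhds (a := 1 / 2) (by
      simp only [hq, zero_mul, zero_div, add_zero, Complex.norm_natCast]
      have : (1 : ℝ) ≤ e i := Nat.one_le_cast.2 (Nat.pos_of_ne_zero hi)
      linarith))
    refine IsBigO.of_bound 2 ?_
    filter_upwards [c', h1.eventually_nhds, hu.eventually_analyticAt,
      hu.continuousAt.eventually_ne h2] with z a b c d
    have e1 : z i * fderiv ℂ G z (Pi.single i 1) =
        G z * ((e i : ℂ) + z i * fderiv ℂ u z (Pi.single i 1) / u z) := by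
      rw [EventuallyEq.fderiv_eq b, fderiv_fun_mul (an_mono e z).differentiableAt
        c.differentiableAt, b.self_of_nhds]
      simp only [add_apply, smul_apply, smul_eq_mul]
      have := euler e i z
      field_simp
      linear_combination u z * this
    have e2 : ‖z i * fderiv ℂ G z (Pi.single i 1)‖ ≤ ‖z i‖ * ‖fderiv ℂ G z‖ := by
      rw [norm_mul]
      refine mul_le_mul_of_nonneg_left (((fderiv ℂ G z).le_opNorm _).trans ?_) (norm_nonneg _)
      rw [Pi.norm_single, norm_one, mul_one]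
    rw [e1, norm_mul] at e2
    rw [Real.norm_of_nonneg (by positivity)]
    nlinarith [norm_nonneg (G z)]
  obtain ⟨i, hi, hq⟩ : ∃ i, e i ≠ 0 ∧ q i = 0 := by
    have := h1.self_of_nhds
    rw [h0, eq_comm, mul_eq_zero, Finset.prod_eq_zero_iff] at this
    obtain ⟨i, -, hi⟩ := this.resolve_right h2
    exact ⟨i, (pow_eq_zero_iff'.1 hi).2, (pow_eq_zero_iff'.1 hi).1⟩
  have h4 : G =O[𝓝 q] fun z => ‖fderiv ℂ G z‖ := (h3 i hi hq).trans (by
    simpa using ((pi i).norm.isBigO_one ℝ).mul (isBigO_refl (fun z => ‖fderiv ℂ G z‖) _))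
  have h5 : ∀ j, (fun z => ‖G z‖ ^ e j) =O[𝓝 q] fun z => (‖z j‖ * ‖fderiv ℂ G z‖) ^ e j := by
    intro j
    rcases eq_or_ne (e j) 0 with hj | hj
    · simp only [hj, pow_zero]; exact isBigO_refl _ _
    refine IsBigO.pow (IsBigO.norm_left ?_) _
    by_cases hq : q j = 0
    · exact h3 j hj hq
    refine h4.trans ?_
    have : (fun _ => (1 : ℝ)) =O[𝓝 q] fun z => ‖z j‖ :=
      (isBigO_const_left_iff_pos_le_norm one_ne_zero).2 ⟨‖q j‖ / 2, by positivity,
        ((pi j).norm.eventually (lt_mem_nhds (half_lt_self (norm_pos_iff.2 hq)))).mono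
          fun z hz => by rw [norm_norm]; exact hz.le⟩
    simpa using this.mul (isBigO_refl (fun z => ‖fderiv ℂ G z‖) _)
  have h6 := IsBigO.finsetProd (s := Finset.univ) fun j _ => h5 j
  simp only [mul_pow, Finset.prod_mul_distrib, Finset.prod_pow_eq_pow_sum] at h6
  have h7 : (fun z : Fin n → ℂ => ∏ j, ‖z j‖ ^ e j) =O[𝓝 q] fun z => ‖G z‖ :=
    IsBigO.of_bound C (h.mono fun z hz => by simpa using hz.2)
  obtain ⟨A, hA⟩ := ((h6.trans (h7.mul (isBigO_refl _ _))).mul h4.norm_left).bound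
  refine ⟨∑ j, e j, h4.norm_left, IsBigO.of_bound (max A 0) (hA.mono fun z hz => ?_)⟩
  have hN : ∑ j, e j ≠ 0 := fun k => hi (Finset.sum_eq_zero_iff.1 k i (Finset.mem_univ i))
  simp only [norm_mul, norm_pow, norm_norm] at hz ⊢
  rcases (norm_nonneg (G z)).eq_or_lt with k | k
  · rw [← k, zero_pow hN]; positivity
  · refine (le_of_mul_le_mul_right (hz.trans_eq ?_) k).trans
      (mul_le_mul_of_nonneg_right (le_max_left _ _) (by positivity))
    ring

/-- a ball as the base of a resolution -/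
def base (g : (Fin n → ℂ) → ℂ) (U : Set (Fin n → ℂ)) (hU : IsOpen U) (hg : AnalyticOnNhd ℂ g U) :
    Base where
  X := U
  lc := hU.locallyCompactSpace
  Hol f x := ∃ G : (Fin n → ℂ) → ℂ, AnalyticAt ℂ G x ∧ f =ᶠ[𝓝 x] G ∘ Subtype.val
  comp x ι _ g G f h1 h2 h3 := by
    choose a a1 a2 using h1
    have e : ∀ᶠ y in 𝓝 x, g y = fun l => a l y :=
      (eventually_all.2 a2).mono fun y hy => funext hy
    refine ⟨fun z => G fun l => a l z, ?_, ?_⟩
    · rw [e.self_of_nhds] at h2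
      exact h2.comp (analyticAt_pi_iff.2 a1)
    · filter_upwards [e, h3] with y b c
      rw [c, b]; rfl
  cont f x h := h.elim fun _ h =>
    (h.1.continuousAt.comp continuous_subtype_val.continuousAt).congr h.2.symm
  ev f x h := h.elim fun G h => ((continuous_subtype_val.tendsto x).eventually
    h.1.eventually_analyticAt |>.and h.2.eventually_nhds).mono fun _ k => ⟨G, k⟩
  Bad := {x | g x = 0}
  closed := isClosed_eq hg.continuousOn.domRestrict continuous_const
  Γ := Unit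
  XO _ := univ
  isOpen _ := isOpen_univ
  cover _ := ⟨(), trivial⟩
  m _ := 1
  f _ _ x := g x
  hol _ _ x _ := ⟨g, hg x x.2, EventuallyEq.rfl⟩
  zero _ _ _ := ⟨fun h _ => h, fun h => h 0⟩
  cpb _ _ _ _ _ := ⟨1, one_pos, Eventually.of_forall fun _ => by simp⟩

theorem base_sp {g : (Fin n → ℂ) → ℂ} {U : Set (Fin n → ℂ)} (hU : IsOpen U)
    (hg : AnalyticOnNhd ℂ g U) (hc : IsPreconnected U) (h0 : ∃ x ∈ U, g x ≠ 0) :
    (base g U hU hg).Sp n := by
  have m : P277.IsModel (base g U hU hg).Hol univ U (fun (_ : Fin 0) _ => 0) Subtype.val :=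
    ⟨isOpen_univ, hU, fun i => i.elim0, by ext; simp [base],
      IsEmbedding.subtypeVal.comp IsEmbedding.subtypeVal, fun _ _ _ => Iff.rfl⟩
  refine ⟨fun x => ⟨n, 0, univ, U, _, _, trivial, m⟩, fun x _ => ⟨univ, U, _, _, trivial, m⟩,
    fun x => ?_⟩
  by_contra hx
  obtain ⟨y, hy, hy'⟩ := h0
  refine hy' (hg.eqOn_zero_of_preconnected_of_eventuallyEq_zero hc x.2 ?_ hy)
  rw [mem_closure_iff_frequently, not_frequently] at hx
  exact (hU.isOpenEmbedding_subtypeVal.map_nhds_eq x).ge (hx.mono fun _ h => not_not.1 h)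

theorem lj_pi {g : (Fin n → ℂ) → ℂ} (hg : AnalyticAt ℂ g q) (h0 : g q = 0) :
    ∃ N, Lj (𝓝 q) (fun z => ‖g z‖) (fun z => ‖fderiv ℂ g z‖) (N + 1) := by
  by_cases hz : ∀ᶠ z in 𝓝 q, g z = 0
  · exact ⟨0, (isBigO_zero _ _).congr' (hz.mono fun z h => by simp [h]) EventuallyEq.rfl,
      (isBigO_zero _ _).congr' (hz.mono fun z h => by simp [h]) EventuallyEq.rfl⟩
  obtain ⟨r, hr, hU⟩ := Metric.eventually_nhds_iff_ball.1 hg.eventually_analyticAt
  obtain ⟨x₁, a1, a2⟩ := ((not_eventually.1 hz).and_eventually (ball_mem_nhds q hr)).exists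
  have hn : 1 ≤ n := by
    rcases Nat.eq_zero_or_pos n with rfl | h
    · exact (a1 (Subsingleton.elim q x₁ ▸ h0)).elim
    · exact h
  let S := base g (ball q r) isOpen_ball hU
  let x₀ : S.X := ⟨q, mem_ball_self hr⟩
  obtain ⟨o⟩ := stMain S n {x₀} hn
    (base_sp isOpen_ball hU (convex_ball q r).isPreconnected ⟨x₁, a2, a1⟩) isCompact_singleton
  let v : S.X → Fin n → ℂ := Subtype.val
  have loc : ∀ y ∈ o.π ⁻¹' {x₀}, ∃ N, Lj (𝓝 y) (fun y => ‖g (v (o.π y))‖)
      (fun y => ‖fderiv ℂ g (v (o.π y))‖) N := by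
    intro y hy
    obtain ⟨ψ, hψ⟩ : ∃ ψ, ψ = chartAt (Fin n → ℂ) y := ⟨_, rfl⟩
    have s : y ∈ ψ.source := hψ ▸ mem_chart_source _ y
    have p1 : AnalyticAt ℂ (fun z => v (o.π (ψ.symm z))) (ψ y) := hψ ▸ analyticAt_pi_iff.2 fun i =>
      o.hol y (fun x => v x i) ⟨fun z => z i, (ContinuousLinearMap.proj (R := ℂ)
        (φ := fun _ : Fin n => ℂ) i).analyticAt _, EventuallyEq.rfl⟩
    have p0 : v (o.π (ψ.symm (ψ y))) = q := by rw [ψ.left_inv s, hy]
    have p2 : AnalyticAt ℂ g (v (o.π (ψ.symm (ψ y)))) := p0 ▸ hg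
    obtain ⟨e, -, C, hC, he⟩ := o.prin y () trivial
    rw [← hψ] at he
    obtain ⟨N, hN⟩ := lj_mono (G := fun z => g (v (o.π (ψ.symm z)))) (p2.comp (f := fun z => v (o.π (ψ.symm z))) p1)
      (by rw [p0, h0]) (e := e) ⟨C, hC, by
        filter_upwards [(ψ.tendsto_symm s).eventually he, ψ.eventually_right_inverse' s] with z a b
        rw [b] at a
        exact Fin.sum_univ_one (fun _ => ‖g (v (o.π (ψ.symm z)))‖) ▸ a⟩
    have d : (fun z => ‖fderiv ℂ (fun z => g (v (o.π (ψ.symm z)))) z‖) =O[𝓝 (ψ y)]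
        fun z => ‖fderiv ℂ g (v (o.π (ψ.symm z)))‖ := by
      have := (isBigO_refl (fun z => ‖fderiv ℂ g (v (o.π (ψ.symm z)))‖) _).mul
        (p1.fderiv.continuousAt.norm.isBigO_one ℝ)
      simp only [mul_one] at this
      refine (IsBigO.of_bound' ?_).trans this
      filter_upwards [p1.eventually_analyticAt,
        p1.continuousAt.eventually p2.eventually_analyticAt] with z a b
      rw [norm_norm, Real.norm_of_nonneg (by positivity),
        fderiv_fun_comp z b.differentiableAt a.differentiableAt]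
      exact ContinuousLinearMap.opNorm_comp_le _ _
    have l := ψ.eventually_left_inverse s
    exact ⟨N, ((hN.congr EventuallyEq.rfl d).comp (ψ.continuousAt s)).congr
      (l.mono fun y hy => by simp only [comp_apply, hy])
      (EventuallyEq.isBigO (l.mono fun y hy => by simp only [comp_apply, hy]))⟩
  have x0 : x₀ ∈ o.O := o.sub rfl
  obtain ⟨N, hN⟩ : ∃ N, Lj (𝓝ˢ (o.π ⁻¹' {x₀})) (fun y => ‖g (v (o.π y))‖)
      (fun y => ‖fderiv ℂ g (v (o.π y))‖) N := by
    refine (o.proper {x₀} o.sub isCompact_singleton).induction_on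
      (p := fun s => ∃ N, Lj (𝓝ˢ s) (fun y => ‖g (v (o.π y))‖)
        (fun y => ‖fderiv ℂ g (v (o.π y))‖) N) ⟨0, by simp [Lj]⟩
      (fun s t h ⟨N, hN⟩ => ⟨N, hN.mono (nhdsSet_mono h)⟩)
      (fun s t ⟨N, hN⟩ ⟨M, hM⟩ => ⟨_, nhdsSet_union s t ▸ hN.sup hM⟩) fun y hy => ?_
    obtain ⟨N, hN⟩ := loc y hy
    obtain ⟨s, hs, h⟩ := hN.small
    exact ⟨interior s, mem_nhdsWithin_of_mem_nhds (interior_mem_nhds.2 hs), N,
      h.mono (isOpen_interior.nhdsSet_eq.trans_le (principal_mono.2 interior_subset))⟩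
  obtain ⟨s, hs, h⟩ := (hN.up N.le_succ).small
  obtain ⟨V, b1, b2, b3⟩ := mem_nhdsSet_iff_exists.1 hs
  obtain ⟨L, c1, c2, c3⟩ := exists_compact_subset o.isOpen x0
  have c4 := (((o.proper L c3 c1).diff b1).image o.cont).isClosed.isOpen_compl.mem_nhds
    (x := x₀) fun ⟨y, h1, h2⟩ => h1.2 (b2 h2)
  have key : ∀ᶠ z in 𝓝 q, g z = 0 ∨ ∃ y ∈ s, v (o.π y) = z := by
    refine (isOpen_ball.isOpenEmbedding_subtypeVal.map_nhds_eq x₀).ge
      (show ∀ᶠ x in 𝓝 x₀, g (v x) = 0 ∨ ∃ y ∈ s, v (o.π y) = v x from ?_)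
    filter_upwards [c4, mem_interior_iff_mem_nhds.1 c2] with x h1 h2
    refine or_iff_not_imp_left.2 fun h3 => ?_
    obtain ⟨y, rfl⟩ := o.surj x (c3 h2) h3
    exact ⟨y, b3 (not_not.1 fun k => h1 ⟨y, ⟨h2, k⟩, rfl⟩), rfl⟩
  obtain ⟨a, ha⟩ := h.1.bound
  obtain ⟨b, hb⟩ := h.2.bound
  refine ⟨N, IsBigO.of_bound (max a 0) (key.mono ?_), IsBigO.of_bound (max b 0) (key.mono ?_)⟩
  · rintro z (k | ⟨y, hy, rfl⟩)
    · rw [k, norm_zero, norm_zero]; positivity
    · exact (eventually_principal.1 ha y hy).trans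
        (mul_le_mul_of_nonneg_right (le_max_left _ _) (norm_nonneg _))
  · rintro z (k | ⟨y, hy, rfl⟩)
    · beta_reduce
      rw [k, norm_zero, zero_pow N.succ_ne_zero, norm_zero]; positivity
    · exact (eventually_principal.1 hb y hy).trans
        (mul_le_mul_of_nonneg_right (le_max_left _ _) (norm_nonneg _))

end Vale.Agent.P218L
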